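import Vale.Agent.P372.Bdl.B1

open Matrix Kronecker
open scoped ComplexOrder MatrixOrder

set_option linter.unusedSectionVars false

namespace Vale.Agent.P372

namespace Lim

open Classical in
/-- The effects of a protocol add up to the identity. -/
theorem complete_protocol {K : Type} [Fintype K] : {A B : Type} → (iA : Fintype A) →
    (iB : Fintype B) → (π : Protocol K A B) → π.Valid →
    ∑ t, (∑ k, π.effA t k) ⊗ₖ (∑ l, π.effB t l) = (1 : Matrix (A × B) (A × B) ℂ)
  | _, _, _, _, .output P Q, h => by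
    obtain ⟨⟨-, hP1⟩, -, hQ1⟩ := h
    have e : ∑ t : (Protocol.output P Q).Transcript, (∑ k, (Protocol.output P Q).effA t k) ⊗ₖ
        (∑ l, (Protocol.output P Q).effB t l) = (∑ k, P k) ⊗ₖ (∑ l, Q l) :=
      Fintype.sum_unique (ι := Unit) _
    rw [e, hP1, hQ1]
    exact one_kronecker_one
  | A, B, iA, iB, .alice A' M R iA' iM iR V next, h => by
    obtain ⟨hV, hn⟩ := h
    have ih := fun m => complete_protocol iA' iB (next m) (hn m)
    have e : ∑ t : (Protocol.alice A' M R iA' iM iR V next).Transcript,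
        (∑ k, (Protocol.alice A' M R iA' iM iR V next).effA t k) ⊗ₖ
        (∑ l, (Protocol.alice A' M R iA' iM iR V next).effB t l) =
        ∑ m, ∑ t : (next m).Transcript, (∑ k, ∑ r, (V m r)ᴴ * (next m).effA t k * V m r) ⊗ₖ
          (∑ l, (next m).effB t l) :=
      Fintype.sum_sigma (ι := M) (α := fun m => (next m).Transcript) _
    rw [e]
    have e2 : ∀ m, ∑ t : (next m).Transcript, (∑ k, ∑ r, (V m r)ᴴ * (next m).effA t k * V m r) ⊗ₖ
        (∑ l, (next m).effB t l) = (∑ r, (V m r)ᴴ * V m r) ⊗ₖ (1 : Matrix B B ℂ) := by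
      intro m
      have e3 : ∀ t : (next m).Transcript, (∑ k, ∑ r, (V m r)ᴴ * (next m).effA t k * V m r) ⊗ₖ
          (∑ l, (next m).effB t l) = ∑ r, ((V m r) ⊗ₖ (1 : Matrix B B ℂ))ᴴ *
            ((∑ k, (next m).effA t k) ⊗ₖ (∑ l, (next m).effB t l)) *
              ((V m r) ⊗ₖ (1 : Matrix B B ℂ)) := by
        intro t
        rw [Finset.sum_comm]
        have e4 : ∀ r, ((V m r) ⊗ₖ (1 : Matrix B B ℂ))ᴴ *
            ((∑ k, (next m).effA t k) ⊗ₖ (∑ l, (next m).effB t l)) *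
              ((V m r) ⊗ₖ (1 : Matrix B B ℂ)) =
            (∑ k, (V m r)ᴴ * (next m).effA t k * V m r) ⊗ₖ (∑ l, (next m).effB t l) := by
          intro r
          rw [conjTranspose_kronecker, conjTranspose_one, ← mul_kronecker_mul,
            ← mul_kronecker_mul, one_mul, mul_one, Matrix.mul_sum, Matrix.sum_mul]
        simp only [e4]
        ext p q
        simp only [kroneckerMap_apply, Matrix.sum_apply, Finset.sum_mul]
      simp only [e3]
      rw [Finset.sum_comm]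
      have e5 : ∀ r, ∑ t : (next m).Transcript, ((V m r) ⊗ₖ (1 : Matrix B B ℂ))ᴴ *
          ((∑ k, (next m).effA t k) ⊗ₖ (∑ l, (next m).effB t l)) *
            ((V m r) ⊗ₖ (1 : Matrix B B ℂ)) = ((V m r)ᴴ * V m r) ⊗ₖ (1 : Matrix B B ℂ) := by
        intro r
        rw [← Matrix.sum_mul, ← Matrix.mul_sum, ih m, Matrix.mul_one, conjTranspose_kronecker,
          conjTranspose_one, ← mul_kronecker_mul, one_mul]
      simp only [e5]
      ext p q
      simp only [kroneckerMap_apply, Matrix.sum_apply, Finset.sum_mul]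
    simp only [e2]
    have e6 : ∑ m, (∑ r, (V m r)ᴴ * V m r) ⊗ₖ (1 : Matrix B B ℂ) =
        (∑ m, ∑ r, (V m r)ᴴ * V m r) ⊗ₖ (1 : Matrix B B ℂ) := by
      ext p q
      simp only [kroneckerMap_apply, Matrix.sum_apply, Finset.sum_mul]
    rw [e6, hV]
    exact one_kronecker_one
  | A, B, iA, iB, .bob B' M R iB' iM iR V next, h => by
    obtain ⟨hV, hn⟩ := h
    have ih := fun m => complete_protocol iA iB' (next m) (hn m)
    have e : ∑ t : (Protocol.bob B' M R iB' iM iR V next).Transcript,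
        (∑ k, (Protocol.bob B' M R iB' iM iR V next).effA t k) ⊗ₖ
        (∑ l, (Protocol.bob B' M R iB' iM iR V next).effB t l) =
        ∑ m, ∑ t : (next m).Transcript, (∑ k, (next m).effA t k) ⊗ₖ
          (∑ l, ∑ r, (V m r)ᴴ * (next m).effB t l * V m r) :=
      Fintype.sum_sigma (ι := M) (α := fun m => (next m).Transcript) _
    rw [e]
    have e2 : ∀ m, ∑ t : (next m).Transcript, (∑ k, (next m).effA t k) ⊗ₖ
        (∑ l, ∑ r, (V m r)ᴴ * (next m).effB t l * V m r) =
          (1 : Matrix A A ℂ) ⊗ₖ (∑ r, (V m r)ᴴ * V m r) := by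
      intro m
      have e3 : ∀ t : (next m).Transcript, (∑ k, (next m).effA t k) ⊗ₖ
          (∑ l, ∑ r, (V m r)ᴴ * (next m).effB t l * V m r) =
            ∑ r, ((1 : Matrix A A ℂ) ⊗ₖ (V m r))ᴴ *
            ((∑ k, (next m).effA t k) ⊗ₖ (∑ l, (next m).effB t l)) *
              ((1 : Matrix A A ℂ) ⊗ₖ (V m r)) := by
        intro t
        rw [Finset.sum_comm (s := (Finset.univ : Finset K))]
        have e4 : ∀ r, ((1 : Matrix A A ℂ) ⊗ₖ (V m r))ᴴ *
            ((∑ k, (next m).effA t k) ⊗ₖ (∑ l, (next m).effB t l)) *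
              ((1 : Matrix A A ℂ) ⊗ₖ (V m r)) =
            (∑ k, (next m).effA t k) ⊗ₖ (∑ l, (V m r)ᴴ * (next m).effB t l * V m r) := by
          intro r
          rw [conjTranspose_kronecker, conjTranspose_one, ← mul_kronecker_mul,
            ← mul_kronecker_mul, one_mul, mul_one, Matrix.mul_sum, Matrix.sum_mul]
        simp only [e4]
        ext p q
        simp only [kroneckerMap_apply, Matrix.sum_apply, Finset.mul_sum]
      simp only [e3]
      rw [Finset.sum_comm]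
      have e5 : ∀ r, ∑ t : (next m).Transcript, ((1 : Matrix A A ℂ) ⊗ₖ (V m r))ᴴ *
          ((∑ k, (next m).effA t k) ⊗ₖ (∑ l, (next m).effB t l)) *
            ((1 : Matrix A A ℂ) ⊗ₖ (V m r)) = (1 : Matrix A A ℂ) ⊗ₖ ((V m r)ᴴ * V m r) := by
        intro r
        rw [← Matrix.sum_mul, ← Matrix.mul_sum, ih m, Matrix.mul_one, conjTranspose_kronecker,
          conjTranspose_one, ← mul_kronecker_mul, one_mul]
      simp only [e5]
      ext p q
      simp only [kroneckerMap_apply, Matrix.sum_apply, Finset.mul_sum]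
    simp only [e2]
    have e6 : ∑ m, (1 : Matrix A A ℂ) ⊗ₖ (∑ r, (V m r)ᴴ * V m r) =
        (1 : Matrix A A ℂ) ⊗ₖ (∑ m, ∑ r, (V m r)ᴴ * V m r) := by
      ext p q
      simp only [kroneckerMap_apply, Matrix.sum_apply, Finset.mul_sum]
    rw [e6, hV]
    exact one_kronecker_one

variable {A B E : Type} [Fintype A] [DecidableEq A] [Fintype B] [DecidableEq B]
  [Fintype E] [DecidableEq E]

theorem complete_locc {K T : Type} [Fintype K] [Fintype T] {f : T → K → Matrix A A ℂ}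
    {g : T → K → Matrix B B ℂ} (h : LOCC K A B T f g) :
    ∑ t, (∑ k, f t k) ⊗ₖ (∑ l, g t l) = (1 : Matrix (A × B) (A × B) ℂ) := by
  obtain ⟨π, hπ, e, hf, hg⟩ := protocol_of_locc h
  have h1 := complete_protocol inferInstance inferInstance π hπ
  rw [← Equiv.sum_comp e]
  simp only [← hf, ← hg]
  exact h1.trans (one_congr' _ _)

theorem locc_psd {K T : Type} [Fintype K] {f : T → K → Matrix A A ℂ} {g : T → K → Matrix B B ℂ}
    (h : LOCC K A B T f g) : (∀ t k, (f t k).PosSemidef) ∧ ∀ t k, (g t k).PosSemidef := by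
  have key : ∀ {K A B T : Type} [Fintype K] {f : T → K → Matrix A A ℂ} {g : T → K → Matrix B B ℂ}
      (_ : LOCC K A B T f g), Finite A → Finite B →
      (∀ t k, (f t k).PosSemidef) ∧ ∀ t k, (g t k).PosSemidef := by
    intro K A B T _ f g h
    induction h with
    | output P Q hP hP1 hQ hQ1 => exact fun _ _ => ⟨fun _ k => hP k, fun _ k => hQ k⟩
    | alice A' M R V hV T f g h ih =>
      exact fun _ hB => ⟨fun t k => posSemidef_sum _ fun r _ =>
        ((ih t.1 inferInstance hB).1 t.2 k).conjTranspose_mul_mul_same _,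
        fun t k => (ih t.1 inferInstance hB).2 t.2 k⟩
    | bob B' M R V hV T f g h ih =>
      exact fun hA _ => ⟨fun t k => (ih t.1 hA inferInstance).1 t.2 k,
        fun t k => posSemidef_sum _ fun r _ =>
          ((ih t.1 hA inferInstance).2 t.2 k).conjTranspose_mul_mul_same _⟩
  exact key h inferInstance inferInstance

theorem re_tr_nonneg {X : Matrix E E ℂ} (h : X.PosSemidef) : 0 ≤ X.trace.re :=
  (Complex.le_def.mp h.trace_nonneg).1

theorem total_weight (Ψ : Matrix (A × B) E ℂ) {K T : Type} [Fintype K] [Fintype T]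
    {f : T → K → Matrix A A ℂ} {g : T → K → Matrix B B ℂ} (h : LOCC K A B T f g) :
    ∑ t, ∑ k, ∑ l, (eve Ψ (f t k) (g t l)).trace.re = (Ψ * Ψᴴ).trace.re := by
  have h1 : ∀ t, ∑ k, ∑ l, (eve Ψ (f t k) (g t l)).trace.re =
      (Ψᴴ * ((∑ k, f t k) ⊗ₖ (∑ l, g t l)) * Ψ).trace.re := by
    intro t
    rw [← trace_transpose, ← T1.eve_eq, eve_sum_left, trace_sum, Complex.re_sum]
    refine Finset.sum_congr rfl fun k _ => ?_
    rw [eve_sum_right, trace_sum, Complex.re_sum]
  simp only [h1]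
  rw [← Complex.re_sum, ← trace_sum, ← Matrix.sum_mul, ← Matrix.mul_sum, complete_locc h,
    Matrix.mul_one, trace_mul_comm]

/-- The counting argument. -/
theorem key_bound (Ψ : Matrix (A × B) E ℂ) (hΨ : (Ψ * Ψᴴ).trace = 1) {ℓ : ℕ} {T : Type}
    [Fintype T] (f : T → (Fin ℓ → Bool) → Matrix A A ℂ) (g : T → (Fin ℓ → Bool) → Matrix B B ℂ)
    (h : LOCC (Fin ℓ → Bool) A B T f g) {ε κ : ℝ} (hκ : 0 ≤ κ) (herr : KeyError f g Ψ ε)
    (hF : ∀ t, ∀ k l, k ≠ l → ∀ (X₀ X₁ : Matrix A A ℂ) (Y₀ Y₁ : Matrix B B ℂ),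
      X₀ᴴ * X₀ = f t k → X₁ᴴ * X₁ = f t l → Y₀ᴴ * Y₀ = g t k → Y₁ᴴ * Y₁ = g t l →
      traceNorm ((X₀ ⊗ₖ Y₀) * (Ψ * Ψᴴ) * (X₁ ⊗ₖ Y₁)ᴴ) ^ 2 ≤
        κ ^ 2 * (weight (Ψ * Ψᴴ) X₀ Y₁ * weight (Ψ * Ψᴴ) X₁ Y₀)) :
    (2 ^ ℓ - 1) * (1 - ε) ≤ κ * ε := by
  classical
  obtain ⟨hfp, hgp⟩ := locc_psd h
  have htot := total_weight Ψ h
  rw [hΨ, Complex.one_re] at htot
  obtain ⟨σ, hσ, hσ1, hsum⟩ := herr
  obtain ⟨K, hK⟩ : ∃ K : Type, K = (Fin ℓ → Bool) := ⟨_, rfl⟩
  obtain ⟨p, hp⟩ : ∃ p : T → (Fin ℓ → Bool) → (Fin ℓ → Bool) → ℝ,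
      p = fun t k l => (eve Ψ (f t k) (g t l)).trace.re := ⟨_, rfl⟩
  obtain ⟨e, he⟩ : ∃ e : T → (Fin ℓ → Bool) → ℝ,
      e = fun t k => traceNorm (eve Ψ (f t k) (g t k) -
        ((Fintype.card (Fin ℓ → Bool) : ℂ)⁻¹) • σ t) := ⟨_, rfl⟩
  have hp0 : ∀ t k l, 0 ≤ p t k l := fun t k l => by
    rw [hp]
    exact re_tr_nonneg (eve_posSemidef Ψ (hfp t k) (hgp t l))
  -- the error splits into diagonal and off-diagonal terms
  have herr1 : ∀ t k l, traceNorm (eve Ψ (f t k) (g t l) -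
      if k = l then ((Fintype.card (Fin ℓ → Bool) : ℂ)⁻¹) • σ t else 0) =
      if k = l then e t k else p t k l := by
    intro t k l
    by_cases hkl : k = l
    · subst hkl
      rw [if_pos rfl, if_pos rfl, he]
    · rw [if_neg hkl, if_neg hkl, sub_zero, hp]
      exact traceNorm_of_posSemidef (eve_posSemidef Ψ (hfp t k) (hgp t l))
  simp only [herr1] at hsum
  have hoff : ∀ (x : (Fin ℓ → Bool) → ℝ) (y : (Fin ℓ → Bool) → (Fin ℓ → Bool) → ℝ),
      ∑ k, ∑ l, (if k = l then x k else y k l) =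
        ∑ k, x k + ∑ k, ∑ l, (if k = l then 0 else y k l) := by
    intro x y
    rw [← Finset.sum_add_distrib]
    refine Finset.sum_congr rfl fun k _ => ?_
    have h1 : ∀ l, (if k = l then x k else y k l) =
        (if k = l then x k else 0) + (if k = l then 0 else y k l) := by
      intro l
      split_ifs <;> simp
    simp only [h1, Finset.sum_add_distrib, Finset.sum_ite_eq, Finset.mem_univ, if_true]
  obtain ⟨Q, hQ⟩ : ∃ Q : ℝ, Q = ∑ t, ∑ k, ∑ l, (if k = l then 0 else p t k l) := ⟨_, rfl⟩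
  obtain ⟨Dg, hDg⟩ : ∃ Dg : ℝ, Dg = ∑ t, ∑ k, e t k := ⟨_, rfl⟩
  obtain ⟨Pd, hPd⟩ : ∃ Pd : ℝ, Pd = ∑ t, ∑ k, p t k k := ⟨_, rfl⟩
  have h1 : Dg + Q ≤ ε := by
    have h0 : ∑ t, ∑ k, ∑ l, (if k = l then e t k else p t k l) = Dg + Q := by
      rw [hDg, hQ, ← Finset.sum_add_distrib]
      exact Finset.sum_congr rfl fun t _ => hoff (e t) (p t)
    rw [← h0]
    exact hsum
  have h2 : Pd + Q = 1 := by
    have h3 : ∀ t, ∑ k, ∑ l, p t k l =
        ∑ k, p t k k + ∑ k, ∑ l, (if k = l then 0 else p t k l) := by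
      intro t
      rw [← hoff]
      refine Finset.sum_congr rfl fun k _ => Finset.sum_congr rfl fun l _ => ?_
      split_ifs with hkl
      · rw [hkl]
      · rfl
    rw [hPd, hQ, ← Finset.sum_add_distrib, ← htot]
    refine Finset.sum_congr rfl fun t _ => ?_
    rw [← h3 t, hp]
  -- fidelities
  have hex : ∀ t k, ∃ X : Matrix A A ℂ, Xᴴ * X = f t k := fun t k => by
    obtain ⟨X, hX⟩ := exists_eq_conjTranspose_mul_self (hfp t k)
    exact ⟨X, hX.symm⟩
  have hey : ∀ t k, ∃ Y : Matrix B B ℂ, Yᴴ * Y = g t k := fun t k => by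
    obtain ⟨X, hX⟩ := exists_eq_conjTranspose_mul_self (hgp t k)
    exact ⟨X, hX.symm⟩
  choose X hX using hex
  choose Y hY using hey
  have hlow : ∀ t k l, k ≠ l → (p t k k + p t l l - e t k - e t l) / 2 ≤
      κ * ((p t k l + p t l k) / 2) := by
    intro t k l hkl
    have h3 := fidelity_eve_ge Ψ (X t k) (X t l) (Y t k) (Y t l)
    rw [hX, hX, hY, hY] at h3
    have h4 : traceNorm (eve Ψ (f t k) (g t k) - eve Ψ (f t l) (g t l)) ≤ e t k + e t l := by
      have h5 : eve Ψ (f t k) (g t k) - eve Ψ (f t l) (g t l) =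
          (eve Ψ (f t k) (g t k) - ((Fintype.card (Fin ℓ → Bool) : ℂ)⁻¹) • σ t) -
          (eve Ψ (f t l) (g t l) - ((Fintype.card (Fin ℓ → Bool) : ℂ)⁻¹) • σ t) := by abel
      rw [h5, he]
      exact traceNorm_sub_le _ _
    have h6 := hF t k l hkl _ _ _ _ (hX t k) (hX t l) (hY t k) (hY t l)
    have hw : ∀ k l, weight (Ψ * Ψᴴ) (X t k) (Y t l) = p t k l := by
      intro k l
      have h7 := wt_eq Ψ (X t k) (Y t l)
      rw [hX, hY] at h7
      rw [hp]
      exact h7
    rw [hw, hw] at h6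
    obtain ⟨Fd, hFd⟩ : ∃ Fd : ℝ, Fd = traceNorm ((X t k ⊗ₖ Y t k) * (Ψ * Ψᴴ) *
        (X t l ⊗ₖ Y t l)ᴴ) := ⟨_, rfl⟩
    rw [← hFd] at h3 h6
    have h8 : Fd ≤ κ * ((p t k l + p t l k) / 2) := by
      refine abs_le_of_sq_le_sq' ?_ (mul_nonneg hκ (by linarith [hp0 t k l, hp0 t l k])) |>.2
      refine h6.trans ?_
      rw [mul_pow]
      refine mul_le_mul_of_nonneg_left ?_ (sq_nonneg _)
      nlinarith [sq_nonneg (p t k l - p t l k)]
    have h9 : p t k k = (eve Ψ (f t k) (g t k)).trace.re := by rw [hp]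
    have h10 : p t l l = (eve Ψ (f t l) (g t l)).trace.re := by rw [hp]
    rw [← h9, ← h10] at h3
    linarith
  -- sum over ordered pairs
  have hpair : ∀ t, ∑ k, ∑ l, (if k = l then 0 else (p t k k + p t l l - e t k - e t l) / 2) ≤
      ∑ k, ∑ l, (if k = l then 0 else κ * ((p t k l + p t l k) / 2)) := by
    intro t
    refine Finset.sum_le_sum fun k _ => Finset.sum_le_sum fun l _ => ?_
    split_ifs with hkl
    · exact le_rfl
    · exact hlow t k l hkl
  have hL : ∀ t, ∑ k, ∑ l, (if k = l then 0 else (p t k k + p t l l - e t k - e t l) / 2) =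
      (2 ^ ℓ - 1) * ∑ k, (p t k k - e t k) := by
    intro t
    have h3 := hoff (fun k => p t k k - e t k)
      (fun k l => (p t k k + p t l l - e t k - e t l) / 2)
    have h4 : ∑ k, ∑ l, (if k = l then p t k k - e t k else
        (p t k k + p t l l - e t k - e t l) / 2) = 2 ^ ℓ * ∑ k, (p t k k - e t k) := by
      have h5 : ∀ k l, (if k = l then p t k k - e t k else
          (p t k k + p t l l - e t k - e t l) / 2) =
          (p t k k - e t k) / 2 + (p t l l - e t l) / 2 := by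
        intro k l
        split_ifs with hkl
        · rw [hkl]; ring
        · ring
      simp only [h5, Finset.sum_add_distrib, Finset.sum_const, Finset.card_univ, nsmul_eq_mul,
        ← Finset.mul_sum, ← Finset.sum_div]
      rw [Fintype.card_fun, Fintype.card_bool, Fintype.card_fin]
      push_cast
      simp only [Finset.sum_sub_distrib]
      ring
    rw [h4] at h3
    linarith
  have hR : ∀ t, ∑ k, ∑ l, (if k = l then 0 else κ * ((p t k l + p t l k) / 2)) =
      κ * ∑ k, ∑ l, (if k = l then 0 else p t k l) := by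
    intro t
    have h3 : ∀ k l, (if k = l then 0 else κ * ((p t k l + p t l k) / 2)) =
        κ / 2 * (if k = l then 0 else p t k l) + κ / 2 * (if l = k then 0 else p t l k) := by
      intro k l
      by_cases hkl : k = l
      · rw [if_pos hkl, if_pos hkl, if_pos hkl.symm]; ring
      · rw [if_neg hkl, if_neg hkl, if_neg (Ne.symm hkl)]; ring
    simp only [h3, Finset.sum_add_distrib, ← Finset.mul_sum]
    rw [Finset.sum_comm (f := fun k l => if l = k then 0 else p t l k)]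
    ring
  have h3 : (2 ^ ℓ - 1) * (Pd - Dg) ≤ κ * Q := by
    calc (2 ^ ℓ - 1) * (Pd - Dg) = ∑ t, (2 ^ ℓ - 1) * ∑ k, (p t k k - e t k) := by
          rw [hPd, hDg, ← Finset.mul_sum, ← Finset.sum_sub_distrib]
          simp only [Finset.sum_sub_distrib]
      _ ≤ ∑ t, κ * ∑ k, ∑ l, (if k = l then 0 else p t k l) := by
          refine Finset.sum_le_sum fun t _ => ?_
          rw [← hL, ← hR]
          exact hpair t
      _ = κ * Q := by rw [hQ, Finset.mul_sum]
  have h4 : (0 : ℝ) ≤ 2 ^ ℓ - 1 := by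
    have : (1 : ℝ) ≤ 2 ^ ℓ := one_le_pow₀ (by norm_num)
    linarith
  have h5 : 1 - ε ≤ Pd - Dg := by linarith
  have h6 : 0 ≤ Dg := by
    rw [hDg, he]
    exact Finset.sum_nonneg fun t _ => Finset.sum_nonneg fun k _ => traceNorm_nonneg _
  calc (2 ^ ℓ - 1) * (1 - ε) ≤ (2 ^ ℓ - 1) * (Pd - Dg) := mul_le_mul_of_nonneg_left h5 h4
    _ ≤ κ * Q := h3
    _ ≤ κ * ε := mul_le_mul_of_nonneg_left (by linarith) hκ

end Lim

end Vale.Agent.P372
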