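import Vale.Agent.P372.Lim.Blocks

open Matrix Kronecker
open scoped ComplexOrder MatrixOrder

set_option linter.unusedSectionVars false

namespace Vale.Agent.P372

namespace Lim

variable {A : Type} [Fintype A] [DecidableEq A] {n : ℕ}

theorem bond_expands {χ : ℕ} {P : Matrix (Fin n → A) (Fin n → A) ℂ} (h : BondDim χ P)
    (k : Fin n) : ∃ B : Fin χ × Fin χ → Matrix A A ℂ, ExpandsIn k B P := by
  classical
  obtain ⟨u, v, W, hW⟩ := h
  refine ⟨fun y => W k y.1 y.2, fun y p q => ∑ s : Fin (n + 1) → Fin χ,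
    if (s k.castSucc, s k.succ) = y then
      u (s 0) * (∏ j : {j // j ≠ k}, W j (s (j : Fin n).castSucc) (s (j : Fin n).succ) (p j) (q j)) *
        v (s (Fin.last n)) else 0, fun p q => ?_⟩
  rw [hW]
  simp only [Finset.mul_sum]
  rw [Finset.sum_comm]
  refine Finset.sum_congr rfl fun s _ => ?_
  rw [Finset.sum_eq_single (s k.castSucc, s k.succ)]
  · rw [if_pos rfl, Fintype.prod_eq_mul_prod_subtype_ne _ k]
    ring
  · intro y _ hy
    rw [if_neg (Ne.symm hy), mul_zero]
  · intro h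
    exact absurd (Finset.mem_univ _) h

theorem expands_extend {Y Z : Type} [Fintype Y] [Fintype Z] {k : Fin n}
    {B : Y → Matrix A A ℂ} {P : Matrix (Fin n → A) (Fin n → A) ℂ} (h : ExpandsIn k B P)
    (e : Y → Z) (B' : Z → Matrix A A ℂ) (hB : ∀ y, B' (e y) = B y) :
    ExpandsIn k B' P := by
  classical
  obtain ⟨M, hM⟩ := h
  refine ⟨fun z p q => ∑ y, if e y = z then M y p q else 0, fun p q => ?_⟩
  rw [hM]
  simp only [Finset.mul_sum]
  rw [Finset.sum_comm]
  refine Finset.sum_congr rfl fun y _ => ?_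
  rw [Finset.sum_eq_single (e y)]
  · rw [if_pos rfl, hB]
  · intro z _ hz
    rw [if_neg (Ne.symm hz), mul_zero]
  · intro h
    exact absurd (Finset.mem_univ _) h

theorem bond_lowRank {χ : ℕ} {P P' : Matrix (Fin n → A) (Fin n → A) ℂ} (h : BondDim χ P)
    (h' : BondDim χ P') (k : Fin n) : LowRank (2 * χ ^ 2) k P P' := by
  obtain ⟨B, hB⟩ := bond_expands h k
  obtain ⟨B', hB'⟩ := bond_expands h' k
  have hc : Fintype.card ((Fin χ × Fin χ) ⊕ (Fin χ × Fin χ)) = 2 * χ ^ 2 := by
    simp only [Fintype.card_sum, Fintype.card_prod, Fintype.card_fin]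
    ring
  have e := Fintype.equivFinOfCardEq hc
  refine ⟨fun z => Sum.elim B B' (e.symm z), ?_, ?_⟩
  · exact expands_extend hB (fun y => e (Sum.inl y)) _
      fun y => by rw [Equiv.symm_apply_apply, Sum.elim_inl]
  · exact expands_extend hB' (fun y => e (Sum.inr y)) _
      fun y => by rw [Equiv.symm_apply_apply, Sum.elim_inr]

end Lim

end Vale.Agent.P372
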