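import Vale.Agent.P372.Lim.PPT
import Vale.Agent.P372.Lim.Bond

open Matrix Kronecker
open scoped ComplexOrder MatrixOrder

set_option linter.unusedSectionVars false

namespace Vale.Agent.P372

namespace Lim

variable {A B : Type} [Fintype A] [DecidableEq A] [Fintype B] [DecidableEq B]

theorem lowRank_block {D n : ℕ} {k : Fin n} {P P' : Matrix (Fin n → A) (Fin n → A) ℂ}
    (h : LowRank D k P P') : BlockLowRank D k P P' := by
  obtain ⟨B, h1, h2⟩ := h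
  refine ⟨1, fun _ => 1, fun y => B y.2, fun _ => conjTranspose_one, fun i j => ?_, ?_, ?_, ?_, ?_⟩
  · rw [Matrix.mul_one, if_pos (Subsingleton.elim i j)]
  · rw [Finset.sum_const, Finset.card_univ, Fintype.card_fin, one_smul]
  · intro i y
    rw [Matrix.one_mul, Matrix.mul_one]
  · exact expands_extend h1 (fun y => (0, y)) _ fun y => rfl
  · exact expands_extend h2 (fun y => (0, y)) _ fun y => rfl

/-- Blocks of `N` copies of states close to a multiple of the identity. -/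
theorem near_blocks {ρ : Matrix (A × B) (A × B) ℂ} {lo hi : ℝ} {D N : ℕ} (htr : ρ.trace = 1)
    (hlo : 0 < lo) (h1 : (ρ - (lo : ℂ) • 1).PosSemidef) (h2 : ((hi : ℂ) • 1 - ρ).PosSemidef)
    (hD : D * hi ^ N ≤ (D + 1) * lo ^ N) (E : Type) [Fintype E] [DecidableEq E]
    (Ψ : Matrix (A × B) E ℂ) (hΨ : Ψ * Ψᴴ = ρ) (n M ℓ : ℕ) (T : Type) [Fintype T]
    (f : T → (Fin ℓ → Bool) → Matrix (Fin n → Fin N → A) (Fin n → Fin N → A) ℂ)
    (g : T → (Fin ℓ → Bool) → Matrix (Fin n → Fin N → B) (Fin n → Fin N → B) ℂ) (ε : ℝ)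
    (hL : LOCC (Fin ℓ → Bool) (Fin n → Fin N → A) (Fin n → Fin N → B) T f g)
    (hlim : ∀ τ, ∀ a b, a ≠ b → ∃ C : Finset (Fin n), C.card ≤ M ∧ ∀ k ∉ C,
      BlockLowRank D k (f τ a) (f τ b) ∨ BlockLowRank D k (g τ a) (g τ b))
    (herr : KeyError f g (copies n (copies N Ψ)) ε) :
    (2 ^ ℓ - 1) * (1 - ε) ≤ (hi / lo) ^ (N * M) * ε := by
  have hρ : ρ.PosSemidef := by
    have h4 : ρ = (ρ - (lo : ℂ) • 1) + (lo : ℂ) • (1 : Matrix _ _ ℂ) := by abel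
    rw [h4]
    exact h1.add (PosSemidef.one.smul (by exact_mod_cast hlo.le))
  have hΨ2 : copies N Ψ * (copies N Ψ)ᴴ = tpow N ρ := by
    rw [copies_mul, hΨ]
  have hfin := near_copies (N := M) (tpow_trace N htr) (pow_pos hlo N)
    (Near.tpow_low hlo.le h1 N) (Near.tpow_high hρ h2 N) hD (Fin N → E) (copies N Ψ) hΨ2 T f g ε
    hL hlim herr
  rwa [← div_pow, ← pow_mul] at hfin

/-- The same for one party with a small memory. -/
theorem near_memory {ρ : Matrix (A × B) (A × B) ℂ} {lo hi : ℝ} {χ N : ℕ} (htr : ρ.trace = 1)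
    (hlo : 0 < lo) (h1 : (ρ - (lo : ℂ) • 1).PosSemidef) (h2 : ((hi : ℂ) • 1 - ρ).PosSemidef)
    (hD : 2 * χ ^ 2 * hi ^ N ≤ (2 * χ ^ 2 + 1) * lo ^ N) (E : Type) [Fintype E] [DecidableEq E]
    (Ψ : Matrix (A × B) E ℂ) (hΨ : Ψ * Ψᴴ = ρ) (n ℓ : ℕ) (T : Type) [Fintype T]
    (f : T → (Fin ℓ → Bool) → Matrix (Fin n → Fin N → A) (Fin n → Fin N → A) ℂ)
    (g : T → (Fin ℓ → Bool) → Matrix (Fin n → Fin N → B) (Fin n → Fin N → B) ℂ) (ε : ℝ)
    (hL : LOCC (Fin ℓ → Bool) (Fin n → Fin N → A) (Fin n → Fin N → B) T f g)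
    (hlim : ∀ τ, (∀ a, BondDim χ (f τ a)) ∨ ∀ a, BondDim χ (g τ a))
    (herr : KeyError f g (copies n (copies N Ψ)) ε) : (2 ^ ℓ - 1) * (1 - ε) ≤ ε := by
  have h3 := near_blocks (D := 2 * χ ^ 2) htr hlo h1 h2 (by push_cast; exact hD) E Ψ hΨ n 0 ℓ T f g
    ε hL (fun τ a b _ => ⟨∅, by simp, fun k _ => ?_⟩) herr
  · rwa [mul_zero, pow_zero, one_mul] at h3
  · rcases hlim τ with h | h
    · exact Or.inl (lowRank_block (bond_lowRank (h a) (h b) k))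
    · exact Or.inr (lowRank_block (bond_lowRank (h a) (h b) k))

theorem ppt_norm_pos {d k : ℕ} {s : ℝ} (hk : 0 < k) (hd : k < d) (hs1 : s < 1) :
    0 < (d : ℝ) ^ 2 * k ^ 2 - s * (d ^ 2 - d) := by
  have hk1 : (1 : ℝ) ≤ k := by exact_mod_cast hk
  have hd1 : (1 : ℝ) < d := by
    have : 1 < d := by omega
    exact_mod_cast this
  have h1 : 0 < (d : ℝ) ^ 2 - d := by nlinarith
  have h2 : (1 : ℝ) ≤ (k : ℝ) ^ 2 := by nlinarith
  nlinarith [mul_nonneg (sq_nonneg (d : ℝ)) (sub_nonneg.mpr h2)]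

theorem ppt_pos {d k : ℕ} {s : ℝ} (hk : 0 < k) (hd : k < d)
    (h : (k : ℝ) * d - 1 < s * (k + 1) * (d - 1)) : 0 < s := by
  have hk1 : (1 : ℝ) ≤ k := by exact_mod_cast hk
  have hd1 : (1 : ℝ) < d := by
    have : 1 < d := by omega
    exact_mod_cast this
  by_contra hcon
  push Not at hcon
  have h1 : s * (k + 1) * (d - 1) ≤ 0 := by
    have h2 : 0 ≤ ((k : ℝ) + 1) * (d - 1) := mul_nonneg (by linarith) (by linarith)
    nlinarith
  nlinarith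

theorem ppt_bounds {d k : ℕ} {s : ℝ} (hk : 0 < k) (hd : k < d) (hs1 : s < 1) (hs : 0 ≤ s) :
    (pptState d k s).trace = 1 ∧
    (pptState d k s - (((1 - 2 * s / k) * (d ^ 2 * k ^ 2 - s * (d ^ 2 - d))⁻¹ : ℝ) : ℂ) •
      1).PosSemidef ∧
    ((((1 + 2 * s / k) * (d ^ 2 * k ^ 2 - s * (d ^ 2 - d))⁻¹ : ℝ) : ℂ) • 1 -
      pptState d k s).PosSemidef := by
  have hq := ppt_norm_pos hk hd hs1
  obtain ⟨q, hq'⟩ : ∃ q : ℝ, q = ((d : ℝ) ^ 2 * k ^ 2 - s * (d ^ 2 - d))⁻¹ := ⟨_, rfl⟩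
  have hq0 : 0 ≤ q := hq' ▸ (inv_pos.mpr hq).le
  have hone : (1 : Matrix ((Fin d × Fin k) × (Fin d × Fin k)) _ ℂ) =
      (1 : Matrix ((Fin d × Fin d) × (Fin k × Fin k)) _ ℂ).submatrix (eqv d k) (eqv d k) :=
    (submatrix_one_equiv (eqv d k)).symm
  rw [pptState_eq, ← hq']
  refine ⟨?_, ?_, ?_⟩
  · rw [trace_smul, trace_submatrix_equiv', hyb_trace hk, smul_eq_mul, ← Complex.ofReal_mul, hq',
      inv_mul_cancel₀ hq.ne', Complex.ofReal_one]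
  · have h := ((hyb_low (d := d) (k := k) hs).submatrix (eqv d k)).smul
      (a := (q : ℂ)) (by exact_mod_cast hq0)
    refine (congrArg PosSemidef ?_).mp h
    rw [hone, submatrix_sub, submatrix_smul]
    simp only [Pi.sub_apply, Pi.smul_apply]
    rw [smul_sub, smul_smul]
    congr 2
    push_cast
    ring
  · have h := ((hyb_high (d := d) (k := k) hs).submatrix (eqv d k)).smul
      (a := (q : ℂ)) (by exact_mod_cast hq0)
    refine (congrArg PosSemidef ?_).mp h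
    rw [hone, submatrix_sub, submatrix_smul]
    simp only [Pi.sub_apply, Pi.smul_apply]
    rw [smul_sub, smul_smul]
    congr 2
    push_cast
    ring

theorem ppt_posDef' {d k : ℕ} {s : ℝ} (hk : 0 < k) (hd : k < d) (hs1 : s < 1) (hs : 0 ≤ s)
    (hk2 : 2 * s < k) : (pptState d k s).PosDef := by
  have hq := ppt_norm_pos hk hd hs1
  have hk0 : (0 : ℝ) < k := by exact_mod_cast hk
  have h := (ppt_bounds hk hd hs1 hs).2.1
  have h1 : 0 < (1 - 2 * s / k) * ((d : ℝ) ^ 2 * k ^ 2 - s * (d ^ 2 - d))⁻¹ := by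
    refine mul_pos ?_ (inv_pos.mpr hq)
    rw [sub_pos, div_lt_one hk0]
    exact hk2
  have h4 : ((((1 - 2 * s / k) * ((d : ℝ) ^ 2 * k ^ 2 - s * (d ^ 2 - d))⁻¹ : ℝ) : ℂ) •
      (1 : Matrix ((Fin d × Fin k) × (Fin d × Fin k)) ((Fin d × Fin k) × (Fin d × Fin k)) ℂ)).PosDef :=
    PosDef.one.smul (by exact_mod_cast h1)
  have h5 := h4.add_posSemidef h
  rwa [add_sub_cancel] at h5

theorem ppt_pow {k D N : ℕ} {s : ℝ} (hN : 0 < N) (hs : 0 < s) (hs1 : s < 1)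
    (h : 4 * N * (D + 1) ≤ k) : D * (1 + 2 * s / k) ^ N ≤ (D + 1) * (1 - 2 * s / k) ^ N := by
  have hk : (4 : ℝ) * N * (D + 1) ≤ k := by exact_mod_cast h
  have hN1 : (1 : ℝ) ≤ N := by exact_mod_cast hN
  have hD : (0 : ℝ) ≤ D := Nat.cast_nonneg D
  have h4 : (1 : ℝ) ≤ N * (D + 1) := by nlinarith
  have hk0 : (0 : ℝ) < k := by nlinarith
  refine pow_bound (by positivity) ?_ ?_
  · rw [← mul_div_assoc, div_le_one hk0]
    nlinarith
  · rw [← mul_div_assoc, div_le_one hk0]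
    nlinarith

/-- The bounds for the PPT states. -/
theorem ppt_key (d k : ℕ) (s : ℝ) (hk : 2 ≤ k) (hd : k < d)
    (h : (k : ℝ) * d - 1 < s * (k + 1) * (d - 1)) (hs1 : s < 1) :
    (pptState d k s).PosDef ∧ (pTrans (pptState d k s)).PosDef ∧ (pptState d k s).trace = 1 ∧
    ¬ IsSep (pptState d k s) ∧
    ∀ (E : Type) [Fintype E] [DecidableEq E]
      (Ψ : Matrix ((Fin d × Fin k) × (Fin d × Fin k)) E ℂ), Ψ * Ψᴴ = pptState d k s →
      ∀ (n N ℓ : ℕ), 0 < N → ∀ (T : Type) [Fintype T]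
        (f g : T → (Fin ℓ → Bool) →
          Matrix (Fin n → Fin N → Fin d × Fin k) (Fin n → Fin N → Fin d × Fin k) ℂ) (ε : ℝ),
        LOCC (Fin ℓ → Bool) (Fin n → Fin N → Fin d × Fin k) (Fin n → Fin N → Fin d × Fin k)
          T f g →
        KeyError f g (copies n (copies N Ψ)) ε →
        (∀ D M : ℕ, 4 * N * (D + 1) ≤ k →
          (∀ τ, ∀ a b, a ≠ b → ∃ C : Finset (Fin n), C.card ≤ M ∧ ∀ j ∉ C,
            BlockLowRank D j (f τ a) (f τ b) ∨ BlockLowRank D j (g τ a) (g τ b)) →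
          (2 ^ ℓ - 1) * (1 - ε) ≤ ((k + 2 * s) / (k - 2 * s)) ^ (N * M) * ε) ∧
        (∀ χ : ℕ, 4 * N * (2 * χ ^ 2 + 1) ≤ k →
          (∀ τ, (∀ a, BondDim χ (f τ a)) ∨ ∀ a, BondDim χ (g τ a)) →
          (2 ^ ℓ - 1) * (1 - ε) ≤ ε) := by
  have hk0 : 0 < k := by omega
  have hs := ppt_pos hk0 hd h
  have hkr : (2 : ℝ) ≤ k := by exact_mod_cast hk
  have hkp : (0 : ℝ) < k := by linarith
  have hq := ppt_norm_pos hk0 hd hs1
  obtain ⟨htr, hlo, hhi⟩ := ppt_bounds hk0 hd hs1 hs.le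
  obtain ⟨q, hq'⟩ : ∃ q : ℝ, q = ((d : ℝ) ^ 2 * k ^ 2 - s * (d ^ 2 - d))⁻¹ := ⟨_, rfl⟩
  have hq0 : 0 < q := hq' ▸ inv_pos.mpr hq
  rw [← hq'] at hlo hhi
  have hlo0 : 0 < (1 - 2 * s / k) * q := by
    refine mul_pos ?_ hq0
    rw [sub_pos, div_lt_one hkp]
    linarith
  refine ⟨ppt_posDef' hk0 hd hs1 hs.le (by linarith), ppt_posDef hk0 hs.le hs1 hq, htr,
    ppt_not_sep hk0 (by omega) hq h, ?_⟩
  intro E _ _ Ψ hΨ n N ℓ hN T _ f g ε hL herr
  have hcond : ∀ D : ℕ, 4 * N * (D + 1) ≤ k →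
      D * ((1 + 2 * s / k) * q) ^ N ≤ (D + 1) * ((1 - 2 * s / k) * q) ^ N := by
    intro D hD
    rw [mul_pow, mul_pow, ← mul_assoc, ← mul_assoc]
    exact mul_le_mul_of_nonneg_right (ppt_pow hN hs hs1 hD) (pow_nonneg hq0.le N)
  refine ⟨fun D M hD hlim => ?_, fun χ hχ hlim => ?_⟩
  · have h1 := near_blocks htr hlo0 hlo hhi (hcond D hD) E Ψ hΨ n M ℓ T f g ε hL hlim herr
    have h2 : (1 + 2 * s / k) * q / ((1 - 2 * s / k) * q) = (k + 2 * s) / (k - 2 * s) := by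
      rw [mul_div_mul_right _ _ hq0.ne']
      have h3 : (k : ℝ) - 2 * s ≠ 0 := by linarith
      have h4 : 1 - 2 * s / (k : ℝ) = (k - 2 * s) / k := by field_simp
      have h5 : 1 + 2 * s / (k : ℝ) = (k + 2 * s) / k := by field_simp
      rw [h4, h5, div_div_div_cancel_right₀ hkp.ne']
    rwa [h2] at h1
  · have h1 := hcond (2 * χ ^ 2) hχ
    push_cast at h1
    exact near_memory htr hlo0 hlo hhi h1 E Ψ hΨ n ℓ T f g ε hL hlim herr

end Lim

end Vale.Agent.P372
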