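import Vale.Agent.P372.Lim.Sep

open Matrix Kronecker
open scoped ComplexOrder MatrixOrder

set_option linter.unusedSectionVars false

namespace Vale.Agent.P372

namespace Lim

variable {A : Type} [Fintype A] [DecidableEq A]

/-- A Hermitian matrix of Hilbert-Schmidt norm at most one is a contraction. -/
theorem contr_of_hs {M : Matrix A A ℂ} (hM : M.IsHermitian) (h : hs M ≤ 1) : Contr M := by
  have h1 := hs_bound hM zero_le_one (by simpa using h)
  have h2 := hs_bound hM.neg zero_le_one (by simpa [hs] using h)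
  rw [sub_neg_eq_add] at h2
  simp only [Complex.ofReal_one, one_smul] at h1 h2
  have h3 : (1 - M * M).PosSemidef := by
    -- `1 - M²` commutes: `(1 - M)(1 + M)`
    obtain ⟨C, hC⟩ := exists_eq_conjTranspose_mul_self h1
    have h4 : (1 + 1 : Matrix A A ℂ) - 1 = 1 := by abel
    have e : (2 : ℂ) • (1 - M * M) = (1 - M) * (1 + M) * (1 - M) + (1 + M) * (1 - M) * (1 + M) := by
      rw [two_smul]
      noncomm_ring
    have h5 : ((1 - M) * (1 + M) * (1 - M)).PosSemidef := by
      have := h2.mul_mul_conjTranspose_same (1 - M)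
      rwa [conjTranspose_sub, conjTranspose_one, hM.eq] at this
    have h6 : ((1 + M) * (1 - M) * (1 + M)).PosSemidef := by
      have := h1.mul_mul_conjTranspose_same (1 + M)
      rwa [conjTranspose_add, conjTranspose_one, hM.eq] at this
    have h7 := (h5.add h6).smul (show (0 : ℂ) ≤ ((1 / 2 : ℝ) : ℂ) by
      exact_mod_cast (by norm_num : (0 : ℝ) ≤ 1 / 2))
    rw [← e, smul_smul] at h7
    have h8 : ((1 / 2 : ℝ) : ℂ) * 2 = 1 := by push_cast; norm_num
    rwa [h8, one_smul] at h7
  exact ⟨by rw [hM.eq]; exact h3, by rw [hM.eq]; exact h3⟩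

theorem traceNorm_vecMulVec_le (u : A → ℂ) :
    traceNorm (vecMulVec u (star u)) ≤ ∑ i, ‖u i‖ ^ 2 := by
  rw [traceNorm_of_posSemidef (posSemidef_vecMulVec_self_star u), trace_vecMulVec]
  have e4 : u ⬝ᵥ star u = ((∑ i, ‖u i‖ ^ 2 : ℝ) : ℂ) := by
    rw [dotProduct]
    push_cast
    refine Finset.sum_congr rfl fun i _ => ?_
    rw [Pi.star_apply, Complex.star_def, Complex.mul_conj']
  rw [e4, Complex.ofReal_re]

/-- Every real functional bounded by the trace norm on a subspace is given on Hermitian elements by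
a Hermitian contraction. -/
theorem exists_dual {r : ℕ} (b : Fin r → Matrix A A ℂ) (hb : ∀ μ, (b μ).IsHermitian)
    (ψ : Matrix A A ℂ →ₗ[ℝ] ℝ)
    (h : ∀ x : Fin r → ℝ, ψ (∑ μ, x μ • b μ) ≤ traceNorm (∑ μ, x μ • b μ)) :
    ∃ g : Matrix A A ℂ, g.IsHermitian ∧ (1 - g).PosSemidef ∧ (1 + g).PosSemidef ∧
      ∀ x : Fin r → ℝ, (g * ∑ μ, x μ • b μ).trace = ((ψ (∑ μ, x μ • b μ) : ℝ) : ℂ) := by
  obtain ⟨T, hT⟩ : ∃ T : (Fin r → ℝ) →ₗ[ℝ] Matrix A A ℂ, ∀ x, T x = ∑ μ, x μ • b μ :=
    ⟨{ toFun := fun x => ∑ μ, x μ • b μ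
       map_add' := fun x y => by simp only [Pi.add_apply, add_smul, Finset.sum_add_distrib]
       map_smul' := fun c x => by
        simp only [Pi.smul_apply, smul_eq_mul, mul_smul, Finset.smul_sum, RingHom.id_apply] },
      fun _ => rfl⟩
  obtain ⟨φ, hφ1, hφ2⟩ := exists_extension_of_le_sublinear
    (E := Matrix A A ℂ) ⟨LinearMap.range T, ψ.domRestrict _⟩ traceNorm
    (fun c hc x => by
      have h1 := traceNorm_smul (c : ℂ) x
      rw [Complex.norm_real, Real.norm_eq_abs, abs_of_pos hc] at h1
      rw [← h1]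
      congr 1)
    (fun x y => traceNorm_add_le x y)
    (by
      rintro ⟨M, x, rfl⟩
      have := h x
      rw [← hT] at this
      exact this)
  have hφT : ∀ x : Fin r → ℝ, φ (∑ μ, x μ • b μ) = ψ (∑ μ, x μ • b μ) := by
    intro x
    have := hφ1 ⟨T x, x, rfl⟩
    rw [← hT]
    exact this
  -- the representing matrix
  obtain ⟨G, hG⟩ : ∃ G : Matrix A A ℂ, G = fun l k =>
      (φ (Matrix.single k l 1) : ℂ) - (φ (Matrix.single k l Complex.I) : ℂ) * Complex.I := ⟨_, rfl⟩
  have hGM : ∀ M : Matrix A A ℂ, (G * M).trace.re = φ M := by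
    intro M
    have e1 : M = ∑ k, ∑ l, ((M k l).re • Matrix.single k l (1 : ℂ) +
        (M k l).im • Matrix.single k l Complex.I) := by
      conv_lhs => rw [matrix_eq_sum_single M]
      refine Finset.sum_congr rfl fun k _ => Finset.sum_congr rfl fun l _ => ?_
      rw [smul_single, smul_single, ← Matrix.single_add]
      congr 1
      rw [Complex.real_smul, Complex.real_smul, mul_one]
      exact (Complex.re_add_im _).symm
    have e2 : φ M = ∑ k, ∑ l, ((M k l).re * φ (Matrix.single k l (1 : ℂ)) +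
        (M k l).im * φ (Matrix.single k l Complex.I)) := by
      conv_lhs => rw [e1]
      simp only [map_sum, map_add, map_smul, smul_eq_mul]
    rw [e2, trace]
    simp only [diag_apply, mul_apply, Complex.re_sum]
    rw [Finset.sum_comm]
    refine Finset.sum_congr rfl fun k _ => Finset.sum_congr rfl fun l _ => ?_
    rw [hG]
    simp only [Complex.mul_re, Complex.sub_re, Complex.sub_im, Complex.mul_im, Complex.ofReal_re,
      Complex.ofReal_im, Complex.I_re, Complex.I_im]
    ring
  obtain ⟨g, hg⟩ : ∃ g : Matrix A A ℂ, g = (1 / 2 : ℂ) • (G + Gᴴ) := ⟨_, rfl⟩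
  have hgh : g.IsHermitian := by
    rw [hg, IsHermitian, conjTranspose_smul, conjTranspose_add, conjTranspose_conjTranspose,
      add_comm]
    congr 1
    simp
  have hgM : ∀ M : Matrix A A ℂ, M.IsHermitian → (g * M).trace = ((φ M : ℝ) : ℂ) := by
    intro M hM
    have e1 : (Gᴴ * M).trace = star (G * M).trace := by
      rw [← trace_conjTranspose, conjTranspose_mul, hM.eq, trace_mul_comm]
    rw [hg, Matrix.smul_mul, trace_smul, Matrix.add_mul, trace_add, e1, ← hGM M, smul_eq_mul,
      Complex.star_def, Complex.add_conj]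
    push_cast
    ring
  have hpos : ∀ s : ℝ, (s = 1 ∨ s = -1) → (1 - (s : ℂ) • g).PosSemidef := by
    intro s hs
    have hsg : ((s : ℂ) • g).IsHermitian := by
      rw [IsHermitian, conjTranspose_smul, hgh.eq, Complex.star_def, Complex.conj_ofReal]
    refine PosSemidef.of_dotProduct_mulVec_nonneg ?_ fun u => ?_
    · rw [IsHermitian, conjTranspose_sub, conjTranspose_one, hsg.eq]
    · have hH : (vecMulVec u (star u)).IsHermitian := (posSemidef_vecMulVec_self_star u).1
      have e1 : (star u ⬝ᵥ g *ᵥ u) = ((φ (vecMulVec u (star u)) : ℝ) : ℂ) := by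
        rw [← hgM _ hH, Matrix.mul_vecMulVec, trace_vecMulVec, dotProduct_comm]
      have e2 : star u ⬝ᵥ u = ((∑ i, ‖u i‖ ^ 2 : ℝ) : ℂ) := by
        rw [dotProduct]
        push_cast
        refine Finset.sum_congr rfl fun i _ => ?_
        rw [Pi.star_apply, Complex.star_def, Complex.conj_mul']
      have e3 : s * φ (vecMulVec u (star u)) ≤ ∑ i, ‖u i‖ ^ 2 := by
        have e4 : s * φ (vecMulVec u (star u)) = φ (s • vecMulVec u (star u)) := by
          rw [map_smul, smul_eq_mul]
        rw [e4]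
        refine (hφ2 _).trans ?_
        have e5 : traceNorm (s • vecMulVec u (star u)) = traceNorm (vecMulVec u (star u)) := by
          have h1 := traceNorm_smul (s : ℂ) (vecMulVec u (star u))
          have h2 : ‖(s : ℂ)‖ = 1 := by rcases hs with rfl | rfl <;> simp
          rw [h2, one_mul] at h1
          rw [← h1]
          congr 1
        rw [e5]
        exact traceNorm_vecMulVec_le u
      rw [Matrix.sub_mulVec, dotProduct_sub, one_mulVec, Matrix.smul_mulVec, dotProduct_smul, e1,
        e2, smul_eq_mul, ← Complex.ofReal_mul, ← Complex.ofReal_sub]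
      exact_mod_cast sub_nonneg.mpr e3
  refine ⟨g, hgh, by simpa using hpos 1 (Or.inl rfl), ?_, fun x => ?_⟩
  · have := hpos (-1) (Or.inr rfl)
    simpa using this
  · have hH : (∑ μ, x μ • b μ).IsHermitian := by
      rw [IsHermitian, conjTranspose_sum]
      refine Finset.sum_congr rfl fun μ _ => ?_
      rw [conjTranspose_smul, (hb μ).eq]
      simp
    rw [hgM _ hH, hφT]

/-- Auerbach bases for the trace norm. -/
theorem auerbach {r : ℕ} (b : Fin r → Matrix A A ℂ) (hb : ∀ μ, (b μ).IsHermitian)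
    (horth : ∀ μ ν, (b μ * b ν).trace = if μ = ν then 1 else 0) :
    ∃ f g : Fin r → Matrix A A ℂ, (∀ i, (f i).IsHermitian) ∧ (∀ i, traceNorm (f i) ≤ 1) ∧
      (∀ i, (g i).IsHermitian) ∧ (∀ i, (1 - g i).PosSemidef) ∧ (∀ i, (1 + g i).PosSemidef) ∧
      (∀ i, ∃ x : Fin r → ℝ, f i = ∑ μ, x μ • b μ) ∧
      ∀ μ, ∑ i, (g i * b μ).trace • f i = b μ := by
  classical
  -- the norm in coordinates
  obtain ⟨T, hT⟩ : ∃ T : (Fin r → ℝ) →ₗ[ℝ] Matrix A A ℂ, ∀ x, T x = ∑ μ, x μ • b μ :=
    ⟨{ toFun := fun x => ∑ μ, x μ • b μ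
       map_add' := fun x y => by simp only [Pi.add_apply, add_smul, Finset.sum_add_distrib]
       map_smul' := fun c x => by
        simp only [Pi.smul_apply, smul_eq_mul, mul_smul, Finset.smul_sum, RingHom.id_apply] },
      fun _ => rfl⟩
  have hhs1 : ∀ μ, hs (b μ) = 1 := by
    intro μ
    rw [hs_eq_re, (hb μ).eq, horth, if_pos rfl, Complex.one_re]
  have hcb : ∀ μ, Contr (b μ) := fun μ => contr_of_hs (hb μ) (hhs1 μ).le
  have hcoord : ∀ (x : Fin r → ℝ) μ, (b μ * T x).trace = ((x μ : ℝ) : ℂ) := by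
    intro x μ
    rw [hT, Finset.mul_sum, trace_sum, Finset.sum_eq_single μ]
    · rw [Matrix.mul_smul, trace_smul, horth, if_pos rfl, Complex.real_smul, mul_one]
    · intro ν _ hν
      rw [Matrix.mul_smul, trace_smul, horth, if_neg (Ne.symm hν), smul_zero]
    · intro h
      exact absurd (Finset.mem_univ _) h
  have hxle : ∀ (x : Fin r → ℝ) μ, |x μ| ≤ traceNorm (T x) := by
    intro x μ
    have h1 := norm_trace_mul_le (hcb μ) (T x)
    rw [hcoord, Complex.norm_real, Real.norm_eq_abs] at h1
    exact h1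
  have hsm : ∀ (c : ℝ) (M : Matrix A A ℂ), traceNorm (c • M) = |c| * traceNorm M := by
    intro c M
    have h1 := traceNorm_smul (c : ℂ) M
    rw [Complex.norm_real, Real.norm_eq_abs] at h1
    rw [← h1]
    congr 1
  obtain ⟨K, hK⟩ : ∃ K : Set (Fin r → Fin r → ℝ), K = {F | ∀ j, traceNorm (T (F j)) ≤ 1} :=
    ⟨_, rfl⟩
  have hKclosed : IsClosed K := by
    have h1 : K = ⋂ (j : Fin r) (W : Matrix A A ℂ) (_ : Contr W),
        {F | ‖(W * T (F j)).trace‖ ≤ 1} := by
      ext F
      simp only [hK, Set.mem_ofPred_eq, Set.mem_iInter]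
      constructor
      · intro h j W hW
        exact (norm_trace_mul_le hW _).trans (h j)
      · intro h j
        exact traceNorm_le_of_forall fun W hW => h j W hW
    rw [h1]
    refine isClosed_iInter fun j => isClosed_iInter fun W => isClosed_iInter fun _ => ?_
    refine isClosed_le ?_ continuous_const
    refine continuous_norm.comp ?_
    have h2 : (fun F : Fin r → Fin r → ℝ => (W * T (F j)).trace) =
        fun F => ∑ μ, ((F j μ : ℝ) : ℂ) * (W * b μ).trace := by
      funext F
      rw [hT, Finset.mul_sum, trace_sum]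
      refine Finset.sum_congr rfl fun μ _ => ?_
      rw [Matrix.mul_smul, trace_smul, Complex.real_smul]
    rw [h2]
    refine continuous_finsetSum _ fun μ _ => Continuous.mul ?_ continuous_const
    exact Complex.continuous_ofReal.comp ((continuous_apply μ).comp (continuous_apply j))
  have hKbdd : Bornology.IsBounded K := by
    refine (Metric.isBounded_closedBall (x := (0 : Fin r → Fin r → ℝ)) (r := 1)).subset ?_
    intro F hF
    rw [hK, Set.mem_ofPred_eq] at hF
    rw [mem_closedBall_zero_iff, pi_norm_le_iff_of_nonneg zero_le_one]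
    intro j
    rw [pi_norm_le_iff_of_nonneg zero_le_one]
    intro μ
    exact (hxle (F j) μ).trans (hF j)
  have hKc : IsCompact K := Metric.isCompact_of_isClosed_isBounded hKclosed hKbdd
  have hKne : K.Nonempty := ⟨0, by
    rw [hK, Set.mem_ofPred_eq]
    intro j
    rw [Pi.zero_apply, map_zero, traceNorm_zero]
    exact zero_le_one⟩
  have hcont : ContinuousOn (fun F : Fin r → Fin r → ℝ => |(Matrix.of F).det|) K := by
    refine Continuous.continuousOn ?_
    refine continuous_abs.comp (Continuous.matrix_det ?_)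
    exact continuous_id
  obtain ⟨F, hFK, hFmax⟩ := hKc.exists_isMaxOn hKne hcont
  have hmax : ∀ F' ∈ K, |(Matrix.of F').det| ≤ |(Matrix.of F).det| := fun F' h => hFmax h
  -- the determinant does not vanish
  have hdet : (Matrix.of F).det ≠ 0 := by
    obtain ⟨c, hc⟩ : ∃ c : ℝ, c = (1 + ∑ μ, traceNorm (b μ))⁻¹ := ⟨_, rfl⟩
    have hc0 : 0 < 1 + ∑ μ, traceNorm (b μ) := by
      have : 0 ≤ ∑ μ, traceNorm (b μ) := Finset.sum_nonneg fun μ _ => traceNorm_nonneg _
      linarith
    have hcpos : 0 < c := by rw [hc]; exact inv_pos.mpr hc0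
    have h1 : (fun i j => if i = j then c else 0 : Fin r → Fin r → ℝ) ∈ K := by
      rw [hK, Set.mem_ofPred_eq]
      intro j
      have h2 : T (fun k => if j = k then c else 0) = c • b j := by
        rw [hT]
        simp only [ite_smul, zero_smul, Finset.sum_ite_eq, Finset.mem_univ, if_true]
      rw [h2, hsm, abs_of_pos hcpos, hc, inv_mul_le_iff₀ hc0, mul_one]
      have h3 := Finset.single_le_sum (f := fun μ => traceNorm (b μ))
        (fun μ _ => traceNorm_nonneg _) (Finset.mem_univ j)
      linarith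
    have h2 := hmax _ h1
    have h3 : (Matrix.of fun i j => if i = j then c else 0 : Matrix (Fin r) (Fin r) ℝ) =
        diagonal fun _ => c := by
      ext i j
      rw [of_apply, diagonal_apply]
    rw [h3, det_diagonal, Finset.prod_const] at h2
    intro h4
    rw [h4, abs_zero] at h2
    have h5 : 0 < |c ^ (Finset.univ : Finset (Fin r)).card| := abs_pos.mpr (pow_pos hcpos _).ne'
    linarith
  obtain ⟨δ, hδ⟩ : ∃ δ : ℝ, δ = (Matrix.of F).det := ⟨_, rfl⟩
  rw [← hδ] at hdet hmax
  -- the coordinate functionals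
  obtain ⟨φ, hφ⟩ : ∃ φ : Fin r → (Fin r → ℝ) →ₗ[ℝ] ℝ, ∀ i x,
      φ i x = (Matrix.cramer (Matrix.of F)ᵀ x) i / δ :=
    ⟨fun i => (δ⁻¹ : ℝ) • ((LinearMap.proj i).comp (Matrix.cramer (Matrix.of F)ᵀ)), fun i x => by
      rw [LinearMap.smul_apply, LinearMap.comp_apply, LinearMap.proj_apply, smul_eq_mul,
        div_eq_inv_mul]⟩
  have hφsum : ∀ x : Fin r → ℝ, ∀ μ, ∑ i, φ i x * F i μ = x μ := by
    intro x μ
    have h1 := congrFun (Matrix.mulVec_cramer (Matrix.of F)ᵀ x) μ
    rw [det_transpose, ← hδ, Pi.smul_apply, smul_eq_mul, mulVec, dotProduct] at h1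
    simp only [transpose_apply, of_apply] at h1
    have h2 : ∑ i, φ i x * F i μ = (∑ i, F i μ * (Matrix.cramer (Matrix.of F)ᵀ x) i) / δ := by
      rw [Finset.sum_div]
      refine Finset.sum_congr rfl fun i _ => ?_
      rw [hφ]
      ring
    rw [h2, h1, mul_div_cancel_left₀ _ hdet]
  have hφ1 : ∀ i (x : Fin r → ℝ), traceNorm (T x) ≤ 1 → |φ i x| ≤ 1 := by
    intro i x hx
    rw [hφ, abs_div, div_le_one (abs_pos.mpr hdet), cramer_transpose_apply]
    have h1 : (Matrix.of F).updateRow i x = Matrix.of (Function.update F i x) := by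
      ext j k
      by_cases hj : j = i
      · subst hj
        rw [updateRow_self, of_apply, Function.update_self]
      · rw [updateRow_ne hj, of_apply, of_apply, Function.update_of_ne hj]
    rw [h1]
    refine hmax _ ?_
    rw [hK, Set.mem_ofPred_eq] at hFK ⊢
    intro j
    by_cases hj : j = i
    · subst hj
      rw [Function.update_self]
      exact hx
    · rw [Function.update_of_ne hj]
      exact hFK j
  have hφN : ∀ i (x : Fin r → ℝ), φ i x ≤ traceNorm (T x) := by
    intro i x
    rcases (traceNorm_nonneg (T x)).eq_or_lt with h0 | h0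
    · have hx0 : x = 0 := by
        funext μ
        have := hxle x μ
        rw [← h0] at this
        exact abs_eq_zero.mp (le_antisymm this (abs_nonneg _))
      rw [hx0, map_zero, map_zero, traceNorm_zero]
    · obtain ⟨c, hc⟩ : ∃ c : ℝ, c = traceNorm (T x) := ⟨_, rfl⟩
      rw [← hc] at h0
      have h1 : traceNorm (T (c⁻¹ • x)) ≤ 1 := by
        rw [map_smul, hsm, abs_of_pos (inv_pos.mpr h0), ← hc, inv_mul_cancel₀ h0.ne']
      have h2 := (abs_le.mp (hφ1 i _ h1)).2
      rw [map_smul, smul_eq_mul, inv_mul_le_iff₀ h0, mul_one] at h2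
      rw [← hc]
      exact h2
  -- dual matrices
  obtain ⟨R, hR⟩ : ∃ R : Matrix A A ℂ →ₗ[ℝ] (Fin r → ℝ), ∀ M μ, R M μ = (b μ * M).trace.re :=
    ⟨{ toFun := fun M μ => (b μ * M).trace.re
       map_add' := fun M M' => by
        funext μ
        simp only [Matrix.mul_add, trace_add, Complex.add_re, Pi.add_apply]
       map_smul' := fun c M => by
        funext μ
        simp only [Matrix.mul_smul, trace_smul, RingHom.id_apply, Pi.smul_apply, Complex.real_smul,
          Complex.re_ofReal_mul, smul_eq_mul] }, fun _ _ => rfl⟩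
  have hRT : ∀ x, R (T x) = x := by
    intro x
    funext μ
    rw [hR, hcoord, Complex.ofReal_re]
  have hdual := fun i => exists_dual b hb ((φ i).comp R) (fun x => by
    rw [← hT, LinearMap.comp_apply, hRT]
    exact hφN i x)
  choose g hg1 hg2 hg3 hg4 using hdual
  refine ⟨fun i => T (F i), g, fun i => ?_, fun i => ?_, hg1, hg2, hg3, fun i => ⟨F i, hT _⟩,
    fun μ => ?_⟩
  · change (T (F i)).IsHermitian
    rw [hT, IsHermitian, conjTranspose_sum]
    refine Finset.sum_congr rfl fun μ _ => ?_
    rw [conjTranspose_smul, (hb μ).eq]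
    simp
  · rw [hK, Set.mem_ofPred_eq] at hFK
    exact hFK i
  · have hTe : T (fun k => if μ = k then 1 else 0) = b μ := by
      rw [hT]
      simp only [ite_smul, zero_smul, one_smul, Finset.sum_ite_eq, Finset.mem_univ, if_true]
    have h1 : ∀ i, (g i * b μ).trace = ((φ i (fun k => if μ = k then 1 else 0) : ℝ) : ℂ) := by
      intro i
      have h2 := hg4 i (fun k => if μ = k then 1 else 0)
      rw [← hT, hTe, LinearMap.comp_apply] at h2
      rw [h2, ← hTe, hRT]
    simp only [h1]
    have h3 : ∑ i, ((φ i (fun k => if μ = k then 1 else 0) : ℝ) : ℂ) • T (F i) =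
        T (∑ i, φ i (fun k => if μ = k then 1 else 0) • F i) := by
      rw [map_sum]
      refine Finset.sum_congr rfl fun i _ => ?_
      rw [map_smul]
      exact Complex.coe_smul _ _
    rw [h3]
    have h4 : (∑ i, φ i (fun k => if μ = k then 1 else 0) • F i) =
        fun k => if μ = k then 1 else 0 := by
      funext k
      rw [Finset.sum_apply]
      simp only [Pi.smul_apply, smul_eq_mul]
      exact hφsum _ k
    rw [h4, hTe]

end Lim

end Vale.Agent.P372
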