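import Vale.Agent.P372.Lim.Local
import Vale.Agent.P372.Lim.Auer

open Matrix Kronecker
open scoped ComplexOrder MatrixOrder

set_option linter.unusedSectionVars false

namespace Vale.Agent.P372

namespace Lim

variable {ι A B : Type} [Fintype ι] [DecidableEq ι] [Fintype A] [DecidableEq A] [Fintype B]
  [DecidableEq B]

/-- `tr_B [(1 ⊗ X) Y]` -/
def pB (X : Matrix B B ℂ) (Y : Matrix (A × B) (A × B) ℂ) : Matrix A A ℂ :=
  fun a a' => ∑ b, ∑ b', Y (a, b) (a', b') * X b' b

theorem pB_add_left (X X' : Matrix B B ℂ) (Y : Matrix (A × B) (A × B) ℂ) :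
    pB (X + X') Y = pB X Y + pB X' Y := by
  ext a a'
  simp only [pB, Matrix.add_apply, mul_add, Finset.sum_add_distrib]

theorem pB_sub_left (X X' : Matrix B B ℂ) (Y : Matrix (A × B) (A × B) ℂ) :
    pB (X - X') Y = pB X Y - pB X' Y := by
  ext a a'
  simp only [pB, Matrix.sub_apply, mul_sub, Finset.sum_sub_distrib]

theorem pB_smul_left (c : ℂ) (X : Matrix B B ℂ) (Y : Matrix (A × B) (A × B) ℂ) :
    pB (c • X) Y = c • pB X Y := by
  ext a a'
  simp only [pB, Matrix.smul_apply, smul_eq_mul, Finset.mul_sum]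
  refine Finset.sum_congr rfl fun _ _ => Finset.sum_congr rfl fun _ _ => ?_
  ring

theorem pB_add_right (X : Matrix B B ℂ) (Y Y' : Matrix (A × B) (A × B) ℂ) :
    pB X (Y + Y') = pB X Y + pB X Y' := by
  ext a a'
  simp only [pB, Matrix.add_apply, add_mul, Finset.sum_add_distrib]

theorem pB_sub_right (X : Matrix B B ℂ) (Y Y' : Matrix (A × B) (A × B) ℂ) :
    pB X (Y - Y') = pB X Y - pB X Y' := by
  ext a a'
  simp only [pB, Matrix.sub_apply, sub_mul, Finset.sum_sub_distrib]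

theorem pB_smul_right (c : ℂ) (X : Matrix B B ℂ) (Y : Matrix (A × B) (A × B) ℂ) :
    pB X (c • Y) = c • pB X Y := by
  ext a a'
  simp only [pB, Matrix.smul_apply, smul_eq_mul, Finset.mul_sum]
  refine Finset.sum_congr rfl fun _ _ => Finset.sum_congr rfl fun _ _ => ?_
  ring

theorem pB_sum_left {J : Type} (s : Finset J) (X : J → Matrix B B ℂ)
    (Y : Matrix (A × B) (A × B) ℂ) : pB (∑ j ∈ s, X j) Y = ∑ j ∈ s, pB (X j) Y := by
  classical
  induction s using Finset.induction_on with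
  | empty =>
    ext a a'
    simp [pB]
  | insert j s hj ih => rw [Finset.sum_insert hj, Finset.sum_insert hj, pB_add_left, ih]

theorem pB_sum_right {J : Type} (s : Finset J) (X : Matrix B B ℂ)
    (Y : J → Matrix (A × B) (A × B) ℂ) : pB X (∑ j ∈ s, Y j) = ∑ j ∈ s, pB X (Y j) := by
  classical
  induction s using Finset.induction_on with
  | empty =>
    ext a a'
    simp [pB]
  | insert j s hj ih => rw [Finset.sum_insert hj, Finset.sum_insert hj, pB_add_right, ih]

theorem pB_kron (X : Matrix B B ℂ) (M : Matrix A A ℂ) (N : Matrix B B ℂ) :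
    pB X (M ⊗ₖ N) = (N * X).trace • M := by
  ext a a'
  simp only [pB, kroneckerMap_apply, Matrix.smul_apply, smul_eq_mul, trace, diag_apply, mul_apply,
    Finset.sum_mul]
  refine Finset.sum_congr rfl fun _ _ => Finset.sum_congr rfl fun _ _ => ?_
  ring

theorem pB_one (X : Matrix B B ℂ) : pB X (1 : Matrix (A × B) (A × B) ℂ) = X.trace • 1 := by
  rw [← one_kronecker_one, pB_kron, one_mul]

theorem pB_posSemidef {X : Matrix B B ℂ} (hX : X.PosSemidef) {Y : Matrix (A × B) (A × B) ℂ}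
    (hY : Y.PosSemidef) : (pB X Y).PosSemidef := by
  obtain ⟨C, rfl⟩ := exists_eq_conjTranspose_mul_self hX
  obtain ⟨V, hV⟩ : ∃ V : B → Matrix A (A × B) ℂ, V = fun j a p => if a = p.1 then C j p.2 else 0 :=
    ⟨_, rfl⟩
  have h2 : pB (Cᴴ * C) Y = ∑ j, V j * Y * (V j)ᴴ := by
    ext a a'
    rw [Matrix.sum_apply]
    have e1 : ∀ j, (V j * Y * (V j)ᴴ) a a' =
        ∑ b, ∑ b', C j b * Y (a, b) (a', b') * star (C j b') := by
      intro j
      rw [mul_apply, Fintype.sum_prod_type, Finset.sum_eq_single a', Finset.sum_comm]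
      · refine Finset.sum_congr rfl fun b' _ => ?_
        rw [mul_apply, Fintype.sum_prod_type, Finset.sum_eq_single a, conjTranspose_apply, hV]
        · dsimp only
          rw [if_pos rfl, Finset.sum_mul]
          refine Finset.sum_congr rfl fun b _ => ?_
          rw [if_pos rfl]
        · intro x _ hx
          refine Finset.sum_eq_zero fun b _ => ?_
          rw [hV]
          dsimp only
          rw [if_neg (Ne.symm hx), zero_mul]
        · intro h
          exact absurd (Finset.mem_univ _) h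
      · intro x _ hx
        refine Finset.sum_eq_zero fun b _ => ?_
        rw [conjTranspose_apply, hV]
        dsimp only
        rw [if_neg (Ne.symm hx), star_zero, mul_zero]
      · intro h
        exact absurd (Finset.mem_univ _) h
    simp only [e1]
    rw [Finset.sum_comm]
    simp only [pB, mul_apply, conjTranspose_apply, Finset.mul_sum]
    refine Finset.sum_congr rfl fun b _ => ?_
    rw [Finset.sum_comm (s := (Finset.univ : Finset B)) (t := (Finset.univ : Finset B))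
      (f := fun b' j => Y (a, b) (a', b') * (star (C j b') * C j b))]
    refine Finset.sum_congr rfl fun j _ => Finset.sum_congr rfl fun b' _ => ?_
    ring
  rw [h2]
  exact posSemidef_sum _ fun j _ => hY.mul_mul_conjTranspose_same _

/-- the partial trace against a Hermitian operator of small trace norm -/
theorem pB_bound {f : Matrix B B ℂ} (hf : f.IsHermitian) (hf1 : traceNorm f ≤ 1)
    {Q : Matrix (A × B) (A × B) ℂ} {η : ℝ} (hη : 0 ≤ η) (h1 : ((η : ℂ) • 1 - Q).PosSemidef)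
    (h2 : ((η : ℂ) • 1 + Q).PosSemidef) : ((η : ℂ) • 1 - pB f Q).PosSemidef := by
  obtain ⟨P, V, hP, -, hPV, hV1, hV2⟩ := exists_abs hf
  have hV : V.trace = ((V.trace.re : ℝ) : ℂ) := by
    have h3 : (V - f + (V + f)).PosSemidef := hV1.add hV2
    have h4 := h3.trace_nonneg
    have h5 : V - f + (V + f) = (2 : ℂ) • V := by rw [two_smul]; abel
    rw [h5, trace_smul, smul_eq_mul] at h4
    have h6 := (Complex.le_def.mp h4).2
    refine Complex.ext (by simp) ?_
    simp only [Complex.zero_im, Complex.mul_im, Complex.re_ofNat, Complex.im_ofNat, zero_mul,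
      add_zero] at h6
    simp only [Complex.ofReal_im]
    linarith
  have htr : V.trace.re ≤ 1 := by
    have h3 := norm_trace_mul_le hP f
    rw [hPV] at h3
    exact (Complex.re_le_norm _).trans (h3.trans hf1)
  obtain ⟨v, hv⟩ : ∃ v : ℝ, v = V.trace.re := ⟨_, rfl⟩
  rw [← hv] at hV htr
  have e : (η : ℂ) • (1 : Matrix A A ℂ) - pB f Q =
      ((1 / 2 : ℝ) : ℂ) • (pB (V + f) ((η : ℂ) • 1 - Q) + pB (V - f) ((η : ℂ) • 1 + Q)) +
        ((η * (1 - v) : ℝ) : ℂ) • 1 := by
    rw [pB_sub_right, pB_add_right, pB_smul_right, pB_smul_right, pB_one, pB_one, trace_add,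
      trace_sub, pB_add_left, pB_sub_left]
    generalize pB V Q = R
    generalize pB f Q = R'
    ext a a'
    simp only [Matrix.sub_apply, Matrix.add_apply, Matrix.smul_apply, smul_eq_mul]
    rw [hV]
    push_cast
    ring
  rw [e]
  refine (PosSemidef.smul ((pB_posSemidef hV2 h1).add (pB_posSemidef hV1 h2))
    (by exact_mod_cast (by norm_num : (0 : ℝ) ≤ 1 / 2))).add (PosSemidef.one.smul ?_)
  exact_mod_cast mul_nonneg hη (sub_nonneg.mpr htr)

/-- `η 1 ⊗ S + Q ⊗ g` is a sum of products. -/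
theorem prod_sum {Q : Matrix A A ℂ} {S g : Matrix B B ℂ} {η : ℝ}
    (h1 : ((η : ℂ) • 1 - Q).PosSemidef) (h2 : ((η : ℂ) • 1 + Q).PosSemidef)
    (h3 : (S - g).PosSemidef) (h4 : (S + g).PosSemidef) :
    IsSep (((η : ℂ) • (1 : Matrix A A ℂ)) ⊗ₖ S + Q ⊗ₖ g) ∧
      (((η : ℂ) • (1 : Matrix A A ℂ)) ⊗ₖ S - Q ⊗ₖ g).PosSemidef := by
  have half : (0 : ℂ) ≤ ((1 / 2 : ℝ) : ℂ) := by
    exact_mod_cast (by norm_num : (0 : ℝ) ≤ 1 / 2)
  constructor
  · have h := IsSep.smul' (show (0 : ℝ) ≤ 1 / 2 by norm_num)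
      (IsSep.add (isSep_kron h2 h4) (isSep_kron h1 h3))
    refine (congrArg IsSep ?_).mp h
    ext p q
    simp only [Matrix.smul_apply, Matrix.add_apply, Matrix.sub_apply, kroneckerMap_apply,
      smul_eq_mul]
    push_cast
    ring
  · have h := ((h2.kronecker h3).add (h1.kronecker h4)).smul half
    refine (congrArg PosSemidef ?_).mp h
    ext p q
    simp only [Matrix.smul_apply, Matrix.add_apply, Matrix.sub_apply, kroneckerMap_apply,
      smul_eq_mul]
    push_cast
    ring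

/-- A decomposition of `ρ` into positive operators whose pairings with the operators in `S` on
Bob's side are those of product operators. -/
def RCert (ρ : Matrix (A × B) (A × B) ℂ) (S : Set (Matrix B B ℂ)) : Prop :=
  ∃ (m : ℕ) (σ : Fin m → Matrix (A × B) (A × B) ℂ) (α : Fin m → Matrix A A ℂ)
    (β : Fin m → Matrix B B ℂ), (∀ τ, (σ τ).PosSemidef) ∧ (∀ τ, (α τ).PosSemidef) ∧
    (∀ τ, (β τ).PosSemidef) ∧ ∑ τ, σ τ = ρ ∧
    ∀ τ, ∀ M ∈ S, pB M (σ τ - α τ ⊗ₖ β τ) = 0

theorem rcert_of_sep {R W : Matrix (A × B) (A × B) ℂ} {S : Set (Matrix B B ℂ)}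
    {α : Matrix A A ℂ} {β : Matrix B B ℂ} (hW : W.PosSemidef) (hα : α.PosSemidef)
    (hβ : β.PosSemidef) (hR : IsSep R) (h : ∀ M ∈ S, pB M (W - α ⊗ₖ β) = 0) :
    RCert (W + R) S := by
  obtain ⟨n, M, N, hM, hN, rfl⟩ := hR
  refine ⟨n + 1, Fin.cons W fun i => M i ⊗ₖ N i, Fin.cons α M, Fin.cons β N, ?_, ?_, ?_, ?_, ?_⟩
  · intro o
    refine Fin.cases ?_ (fun i => ?_) o
    · rw [Fin.cons_zero]; exact hW
    · rw [Fin.cons_succ]; exact (hM i).kronecker (hN i)
  · intro o
    refine Fin.cases ?_ (fun i => ?_) o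
    · rw [Fin.cons_zero]; exact hα
    · rw [Fin.cons_succ]; exact hM i
  · intro o
    refine Fin.cases ?_ (fun i => ?_) o
    · rw [Fin.cons_zero]; exact hβ
    · rw [Fin.cons_succ]; exact hN i
  · rw [Fin.sum_univ_succ, Fin.cons_zero]
    simp only [Fin.cons_succ]
  · intro o L hL
    refine Fin.cases ?_ (fun i => ?_) o
    · simp only [Fin.cons_zero]
      exact h L hL
    · simp only [Fin.cons_succ, sub_self]
      ext a a'
      simp [pB]

/-- The certificate for states close to a multiple of the identity. -/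
theorem near_rcert {ρ : Matrix (A × B) (A × B) ℂ} {c η : ℝ} {D m : ℕ} (hη : 0 ≤ η)
    (h1 : (ρ - ((c - η : ℝ) : ℂ) • 1).PosSemidef) (h2 : (((c + η : ℝ) : ℂ) • 1 - ρ).PosSemidef)
    (hD : (2 * D + 1) * η ≤ c) (S : Fin m → Matrix B B ℂ) (hS1 : ∑ i, S i = 1)
    (f g : Fin m → Fin D → Matrix B B ℂ) (hf : ∀ i y, (f i y).IsHermitian)
    (hf1 : ∀ i y, traceNorm (f i y) ≤ 1) (hg1 : ∀ i y, (S i - g i y).PosSemidef)
    (hg2 : ∀ i y, (S i + g i y).PosSemidef) :
    RCert ρ {M | M = ∑ i, ∑ y, (g i y * M).trace • f i y} := by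
  obtain ⟨Q, hQ⟩ : ∃ Q : Matrix (A × B) (A × B) ℂ, Q = ρ - (c : ℂ) • 1 := ⟨_, rfl⟩
  have hQ1 : ((η : ℂ) • 1 - Q).PosSemidef := by
    refine (congrArg PosSemidef ?_).mp h2
    rw [hQ]
    push_cast
    rw [add_smul]
    abel
  have hQ2 : ((η : ℂ) • 1 + Q).PosSemidef := by
    refine (congrArg PosSemidef ?_).mp h1
    rw [hQ]
    push_cast
    rw [sub_smul]
    abel
  have hq1 : ∀ i y, ((η : ℂ) • 1 - pB (f i y) Q).PosSemidef := fun i y =>
    pB_bound (hf i y) (hf1 i y) hη hQ1 hQ2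
  have hq2 : ∀ i y, ((η : ℂ) • 1 + pB (f i y) Q).PosSemidef := fun i y => by
    have h3 := pB_bound (hf i y).neg (by rw [traceNorm_neg]; exact hf1 i y) hη hQ1 hQ2
    refine (congrArg PosSemidef ?_).mp h3
    have e : pB (-(f i y)) Q = -pB (f i y) Q := by
      have := pB_smul_left (-1) (f i y) Q
      rwa [neg_one_smul, neg_one_smul] at this
    rw [e, sub_neg_eq_add]
  obtain ⟨Z, hZ⟩ : ∃ Z : Matrix (A × B) (A × B) ℂ, Z = ∑ i, ∑ y, pB (f i y) Q ⊗ₖ g i y :=
    ⟨_, rfl⟩
  have hone : ∑ i, ∑ _y : Fin D, ((η : ℂ) • (1 : Matrix A A ℂ)) ⊗ₖ S i =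
      ((D * η : ℝ) : ℂ) • (1 : Matrix (A × B) (A × B) ℂ) := by
    have e1 : ∀ i, ∑ _y : Fin D, ((η : ℂ) • (1 : Matrix A A ℂ)) ⊗ₖ S i =
        ((D * η : ℝ) : ℂ) • ((1 : Matrix A A ℂ) ⊗ₖ S i) := by
      intro i
      rw [Finset.sum_const, Finset.card_univ, Fintype.card_fin, smul_kronecker,
        ← Nat.cast_smul_eq_nsmul ℂ, smul_smul]
      push_cast
      rfl
    simp only [e1]
    rw [← Finset.smul_sum]
    congr 1
    rw [← one_kronecker_one, ← hS1]
    ext p q
    simp only [kroneckerMap_apply, Matrix.sum_apply, Finset.mul_sum]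
  have hZ1 : (((D * η : ℝ) : ℂ) • 1 - Z).PosSemidef := by
    have h3 := posSemidef_sum Finset.univ fun i _ => posSemidef_sum Finset.univ fun y _ =>
      (prod_sum (hq1 i y) (hq2 i y) (hg1 i y) (hg2 i y)).2
    simp only [Finset.sum_sub_distrib] at h3
    rwa [hone, ← hZ] at h3
  have hZ2 : IsSep (((D * η : ℝ) : ℂ) • 1 + Z) := by
    have h3 := IsSep.sum Finset.univ _ fun i => IsSep.sum Finset.univ _ fun y =>
      (prod_sum (hq1 i y) (hq2 i y) (hg1 i y) (hg2 i y)).1
    simp only [Finset.sum_add_distrib] at h3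
    rwa [hone, ← hZ] at h3
  obtain ⟨W, hW⟩ : ∃ W : Matrix (A × B) (A × B) ℂ, W = ρ - Z - ((D * η : ℝ) : ℂ) • 1 := ⟨_, rfl⟩
  have hWp : W.PosSemidef := by
    have h3 := (h1.add hZ1).add ((PosSemidef.one (n := A × B) (R := ℂ)).smul (α := ℂ)
      (a := ((c - (2 * D + 1) * η : ℝ) : ℂ)) (by exact_mod_cast sub_nonneg.mpr hD))
    refine (congrArg PosSemidef ?_).mp h3
    rw [hW]
    ext p q
    simp only [Matrix.sub_apply, Matrix.add_apply, Matrix.smul_apply, smul_eq_mul]
    push_cast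
    ring
  have hρ : ρ = W + (((D * η : ℝ) : ℂ) • 1 + Z) := by
    rw [hW]
    abel
  have hcD : 0 ≤ c - D * η := by nlinarith [mul_nonneg (Nat.cast_nonneg (α := ℝ) D) hη]
  conv_lhs => rw [hρ]
  refine rcert_of_sep (α := ((c - D * η : ℝ) : ℂ) • 1) (β := 1) hWp
    (PosSemidef.one.smul (by exact_mod_cast hcD)) PosSemidef.one hZ2 fun M hM => ?_
  change M = ∑ i, ∑ y, (g i y * M).trace • f i y at hM
  have e1 : W - (((c - D * η : ℝ) : ℂ) • (1 : Matrix A A ℂ)) ⊗ₖ (1 : Matrix B B ℂ) = Q - Z := by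
    rw [smul_kronecker, one_kronecker_one, hW, hQ]
    ext p q
    simp only [Matrix.sub_apply, Matrix.smul_apply, smul_eq_mul]
    push_cast
    ring
  rw [e1, pB_sub_right, hZ]
  simp only [pB_sum_right, pB_kron]
  have e2 : pB M Q = ∑ i, ∑ y, (g i y * M).trace • pB (f i y) Q := by
    conv_lhs => rw [hM]
    simp only [pB_sum_left, pB_smul_left]
  rw [e2, sub_self]

end Lim

end Vale.Agent.P372
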