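import Vale.Agent.P372.Lim.Main
import Vale.Agent.P372.Lim.NearCert

open Matrix Kronecker
open scoped ComplexOrder MatrixOrder

set_option linter.unusedSectionVars false

namespace Vale.Agent.P372

namespace Lim

variable {ι A B : Type} [Fintype ι] [DecidableEq ι] [Fintype A] [DecidableEq A] [Fintype B]
  [DecidableEq B]

theorem rcert_right {ρ : Matrix (A × B) (A × B) ℂ} {S : Set (Matrix B B ℂ)} (h : RCert ρ S)
    (k : ι) (X₀ X₁ : Matrix (ι → A) (ι → A) ℂ) (Y₀ Y₁ : Matrix (ι → B) (ι → B) ℂ)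
    (h0 : ∀ x x', slc k (Y₀ᴴ * Y₀) x x' ∈ S) (h1 : ∀ x x', slc k (Y₁ᴴ * Y₁) x x' ∈ S) :
    Cert ρ k X₀ X₁ Y₀ Y₁ 1 1 := by
  obtain ⟨m, σ, α, β, hσ, hα, hβ, hs, hz⟩ := h
  refine ⟨m, σ, α, β, hσ, hα, hβ, hs, fun τ X _ Y hY s _ => ?_⟩
  have hY' : ∀ x x', slc k (Yᴴ * Y) x x' ∈ S := by
    rcases hY with rfl | hY
    · exact h0
    · rw [Set.mem_singleton_iff] at hY
      rw [hY]
      exact h1
  have h2 : weight (Half.tf (Function.update s k (σ τ))) X Y -
      weight (Half.tf (Function.update s k (α τ ⊗ₖ β τ))) X Y = 0 := by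
    rw [weight_update_sub, Near.weight_eq_trace, pair_zero_right _ k, Complex.zero_re]
    intro x x' b b'
    rw [Function.update_self]
    exact congrFun (congrFun (hz τ _ (hY' x' x)) b) b'
  rw [one_mul]
  exact ⟨(sub_eq_zero.mp h2).symm.le, (sub_eq_zero.mp h2).le⟩

theorem rcert_left {ρ : Matrix (A × B) (A × B) ℂ} {S : Set (Matrix A A ℂ)}
    (h : RCert (ρ.submatrix Prod.swap Prod.swap) S)
    (k : ι) (X₀ X₁ : Matrix (ι → A) (ι → A) ℂ) (Y₀ Y₁ : Matrix (ι → B) (ι → B) ℂ)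
    (h0 : ∀ x x', slc k (X₀ᴴ * X₀) x x' ∈ S) (h1 : ∀ x x', slc k (X₁ᴴ * X₁) x x' ∈ S) :
    Cert ρ k X₀ X₁ Y₀ Y₁ 1 1 := by
  obtain ⟨m, σ, α, β, hσ, hα, hβ, hs, hz⟩ := h
  refine ⟨m, fun τ => (σ τ).submatrix Prod.swap Prod.swap, β, α, fun τ => (hσ τ).submatrix _,
    hβ, hα, ?_, fun τ X hX Y _ s _ => ?_⟩
  · ext p q
    have h1 := congrArg (fun M : Matrix (B × A) (B × A) ℂ => M p.swap q.swap) hs
    simp only [Matrix.sum_apply, submatrix_apply, Prod.swap_swap] at h1 ⊢
    exact h1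
  have hX' : ∀ x x', slc k (Xᴴ * X) x x' ∈ S := by
    rcases hX with rfl | hX
    · exact h0
    · rw [Set.mem_singleton_iff] at hX
      rw [hX]
      exact h1
  have h2 : weight (Half.tf (Function.update s k ((σ τ).submatrix Prod.swap Prod.swap))) X Y -
      weight (Half.tf (Function.update s k (β τ ⊗ₖ α τ))) X Y = 0 := by
    rw [weight_update_sub, Near.weight_eq_trace, pair_zero_left _ k, Complex.zero_re]
    intro x x' b b'
    rw [Function.update_self]
    have h3 := congrFun (congrFun (hz τ _ (hX' x' x)) b) b'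
    refine Eq.trans ?_ h3
    rw [pB]
    refine Finset.sum_congr rfl fun a _ => Finset.sum_congr rfl fun a' _ => ?_
    simp only [Matrix.sub_apply, submatrix_apply, kroneckerMap_apply, Prod.swap_prod_mk]
    rw [mul_comm (β τ a a')]
  rw [one_mul]
  exact ⟨(sub_eq_zero.mp h2).symm.le, (sub_eq_zero.mp h2).le⟩

theorem pad_sum {X : Type} [AddCommMonoid X] {r D : ℕ} (h : r ≤ D) (G : Fin r → X) :
    ∑ y : Fin D, (if h : (y : ℕ) < r then G ⟨y, h⟩ else 0) = ∑ j, G j := by
  obtain ⟨s, rfl⟩ := Nat.exists_eq_add_of_le h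
  rw [Fin.sum_univ_add]
  have h1 : ∀ i : Fin r, (if h : ((Fin.castAdd s i : Fin (r + s)) : ℕ) < r then
      G ⟨(Fin.castAdd s i : Fin (r + s)), h⟩ else 0) = G i := by
    intro i
    rw [dif_pos (by simp)]
    congr 1
  have h2 : ∀ i : Fin s, (if h : ((Fin.natAdd r i : Fin (r + s)) : ℕ) < r then
      G ⟨(Fin.natAdd r i : Fin (r + s)), h⟩ else 0) = 0 := by
    intro i
    rw [dif_neg (by simp)]
  simp only [h1, h2, Finset.sum_const_zero, add_zero]

/-- The data of a block decomposition. -/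
theorem block_data {D n : ℕ} (k : Fin n) {P P' : Matrix (Fin n → A) (Fin n → A) ℂ}
    (hP : Pᴴ = P) (hP' : P'ᴴ = P') (h : BlockLowRank D k P P') :
    ∃ (m : ℕ) (S : Fin m → Matrix A A ℂ) (f g : Fin m → Fin D → Matrix A A ℂ),
      ∑ i, S i = 1 ∧ (∀ i y, (f i y).IsHermitian) ∧ (∀ i y, traceNorm (f i y) ≤ 1) ∧
      (∀ i y, (S i - g i y).PosSemidef) ∧ (∀ i y, (S i + g i y).PosSemidef) ∧
      (∀ x x', slc k P x x' = ∑ i, ∑ y, (g i y * slc k P x x').trace • f i y) ∧
      (∀ x x', slc k P' x x' = ∑ i, ∑ y, (g i y * slc k P' x x').trace • f i y) := by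
  obtain ⟨m, S, Bf, hS1, hS2, hS3, hB, hE, hE'⟩ := h
  -- compressions
  have hcomp : ∀ i (j : Fin m × Fin D), S i * Bf j * S i = if i = j.1 then Bf j else 0 := by
    intro i j
    have h1 : Bf j = S j.1 * Bf j * S j.1 := (hB j.1 j.2).symm
    by_cases hij : i = j.1
    · rw [if_pos hij, hij]
      exact hB j.1 j.2
    · rw [if_neg hij, h1]
      have h2 : S i * (S j.1 * Bf j * S j.1) * S i = (S i * S j.1) * Bf j * (S j.1 * S i) := by
        simp only [Matrix.mul_assoc]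
      rw [h2, hS2, if_neg hij, Matrix.zero_mul, Matrix.zero_mul]
  have hc : ∀ i (c : Fin m × Fin D → ℂ), S i * (∑ y, c y • Bf y) * S i =
      ∑ y, c (i, y) • Bf (i, y) := by
    intro i c
    rw [Finset.mul_sum, Finset.sum_mul]
    simp only [Matrix.mul_smul, Matrix.smul_mul, hcomp]
    rw [Fintype.sum_prod_type, Finset.sum_eq_single i]
    · simp
    · intro j _ hj
      refine Finset.sum_eq_zero fun y _ => ?_
      rw [if_neg (Ne.symm hj), smul_zero]
    · intro h
      exact absurd (Finset.mem_univ _) h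
  have hsum : ∀ c : Fin m × Fin D → ℂ, ∑ i, S i * (∑ y, c y • Bf y) * S i = ∑ y, c y • Bf y := by
    intro c
    simp only [hc]
    rw [Fintype.sum_prod_type]
  obtain ⟨G, hG⟩ : ∃ G : Fin m → Set (Matrix A A ℂ), G = fun i =>
      {M | ∃ x x', M = S i * slc k P x x' * S i ∨ M = S i * slc k P' x x' * S i} := ⟨_, rfl⟩
  have hex : ∀ i, ∃ f g : Fin D → Matrix A A ℂ, (∀ y, (f y).IsHermitian) ∧
      (∀ y, traceNorm (f y) ≤ 1) ∧ (∀ y, (1 - g y).PosSemidef) ∧ (∀ y, (1 + g y).PosSemidef) ∧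
      ∀ M ∈ G i, ∑ y, (g y * M).trace • f y = M := by
    intro i
    have hGs : ∀ M ∈ G i, Mᴴ ∈ G i := by
      intro M hM
      rw [hG] at hM ⊢
      obtain ⟨x, x', hM | hM⟩ := hM
      · refine ⟨x', x, Or.inl ?_⟩
        rw [hM, conjTranspose_mul, conjTranspose_mul, hS1, slc_star k hP, Matrix.mul_assoc]
      · refine ⟨x', x, Or.inr ?_⟩
        rw [hM, conjTranspose_mul, conjTranspose_mul, hS1, slc_star k hP', Matrix.mul_assoc]
    have hmem : ∀ c : Fin m × Fin D → ℂ, S i * (∑ y, c y • Bf y) * S i ∈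
        Submodule.span ℂ (Set.range fun y => Bf (i, y)) := by
      intro c
      rw [hc]
      exact Submodule.sum_mem _ fun y _ =>
        Submodule.smul_mem _ _ (Submodule.subset_span ⟨y, rfl⟩)
    have hGB : ∀ M ∈ G i, M ∈ Submodule.span ℂ (Set.range fun y => Bf (i, y)) := by
      intro M hM
      rw [hG] at hM
      obtain ⟨x, x', hM | hM⟩ := hM
      · obtain ⟨c, h1⟩ := slc_eq_sum k hE x x'
        rw [hM, h1]
        exact hmem c
      · obtain ⟨c, h1⟩ := slc_eq_sum k hE' x x'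
        rw [hM, h1]
        exact hmem c
    obtain ⟨r, b, hr, hb, ho, hbG⟩ := exists_herm_basis (fun y => Bf (i, y)) (G i) hGs hGB
    obtain ⟨f, g, hf, hf1, hg, hg1, hg2, -, hfg⟩ := auerbach b hb ho
    refine ⟨fun y => if h : (y : ℕ) < r then f ⟨y, h⟩ else 0,
      fun y => if h : (y : ℕ) < r then g ⟨y, h⟩ else 0, ?_, ?_, ?_, ?_, ?_⟩
    · intro y
      dsimp only
      split_ifs
      · exact hf _
      · exact isHermitian_zero
    · intro y
      dsimp only
      split_ifs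
      · exact hf1 _
      · rw [traceNorm_zero]; exact zero_le_one
    · intro y
      dsimp only
      split_ifs
      · exact hg1 _
      · rw [sub_zero]; exact PosSemidef.one
    · intro y
      dsimp only
      split_ifs
      · exact hg2 _
      · rw [add_zero]; exact PosSemidef.one
    · intro M hM
      have e1 : ∀ y : Fin D, ((if h : (y : ℕ) < r then g ⟨y, h⟩ else 0) * M).trace •
          (if h : (y : ℕ) < r then f ⟨y, h⟩ else 0) =
          if h : (y : ℕ) < r then (g ⟨y, h⟩ * M).trace • f ⟨y, h⟩ else 0 := by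
        intro y
        split_ifs
        · rfl
        · rw [smul_zero]
      simp only [e1]
      rw [pad_sum hr fun j => (g j * M).trace • f j]
      have e2 : M = ∑ μ, (b μ * M).trace • b μ := by
        ext a a'
        rw [Matrix.sum_apply]
        simp only [Matrix.smul_apply, smul_eq_mul]
        exact (hbG M hM a a').symm
      have e3 : ∀ j, (g j * M).trace = ∑ μ, (b μ * M).trace * (g j * b μ).trace := by
        intro j
        conv_lhs => rw [e2]
        rw [Finset.mul_sum, trace_sum]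
        simp only [Matrix.mul_smul, trace_smul, smul_eq_mul]
      simp only [e3, Finset.sum_smul, mul_smul]
      rw [Finset.sum_comm]
      conv_rhs => rw [e2]
      refine Finset.sum_congr rfl fun μ _ => ?_
      rw [← Finset.smul_sum, hfg]
  choose f g hf hf1 hg1 hg2 hfg using hex
  have htr : ∀ i y (L : Matrix A A ℂ), (S i * g i y * S i * L).trace =
      (g i y * (S i * L * S i)).trace := by
    intro i y L
    rw [Matrix.mul_assoc, Matrix.mul_assoc, trace_mul_comm]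
    simp only [Matrix.mul_assoc]
  have hfin : ∀ L : Matrix A A ℂ, (∀ i, S i * L * S i ∈ G i) → (∑ i, S i * L * S i = L) →
      L = ∑ i, ∑ y, (S i * g i y * S i * L).trace • f i y := by
    intro L h1 h2
    simp only [htr]
    conv_lhs => rw [← h2]
    exact Finset.sum_congr rfl fun i _ => (hfg i _ (h1 i)).symm
  refine ⟨m, S, f, fun i y => S i * g i y * S i, hS3, hf, hf1, fun i y => ?_, fun i y => ?_,
    fun x x' => ?_, fun x x' => ?_⟩
  · have h1 := (hg1 i y).conjTranspose_mul_mul_same (S i)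
    rw [hS1, Matrix.mul_sub, Matrix.sub_mul, Matrix.mul_one, hS2, if_pos rfl] at h1
    exact h1
  · have h1 := (hg2 i y).conjTranspose_mul_mul_same (S i)
    rw [hS1, Matrix.mul_add, Matrix.add_mul, Matrix.mul_one, hS2, if_pos rfl] at h1
    exact h1
  · refine hfin _ (fun i => ?_) ?_
    · rw [hG]; exact ⟨x, x', Or.inl rfl⟩
    · obtain ⟨c, h1⟩ := slc_eq_sum k hE x x'
      rw [h1]
      exact hsum c
  · refine hfin _ (fun i => ?_) ?_
    · rw [hG]; exact ⟨x, x', Or.inr rfl⟩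
    · obtain ⟨c, h1⟩ := slc_eq_sum k hE' x x'
      rw [h1]
      exact hsum c

/-- The test for operators with few terms in every block, for states close to a multiple of the
identity. -/
theorem near_test {n N D : ℕ} {ρ : Matrix (A × B) (A × B) ℂ} {lo hi : ℝ} (hlo : 0 < lo)
    (hle : lo ≤ hi) (h1 : (ρ - (lo : ℂ) • 1).PosSemidef) (h2 : ((hi : ℂ) • 1 - ρ).PosSemidef)
    (hD : D * hi ≤ (D + 1) * lo) (X₀ X₁ : Matrix (Fin n → A) (Fin n → A) ℂ)
    (Y₀ Y₁ : Matrix (Fin n → B) (Fin n → B) ℂ) (C : Finset (Fin n)) (hC : C.card ≤ N)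
    (h : ∀ k ∉ C, BlockLowRank D k (X₀ᴴ * X₀) (X₁ᴴ * X₁) ∨
      BlockLowRank D k (Y₀ᴴ * Y₀) (Y₁ᴴ * Y₁)) :
    traceNorm ((X₀ ⊗ₖ Y₀) * tpow n ρ * (X₁ ⊗ₖ Y₁)ᴴ) ^ 2 ≤
      ((hi / lo) ^ N) ^ 2 * (weight (tpow n ρ) X₀ Y₁ * weight (tpow n ρ) X₁ Y₀) := by
  have hhi : 0 < hi := hlo.trans_le hle
  obtain ⟨l, hl⟩ : ∃ l : Fin n → ℝ, l = fun k => if k ∈ C then lo else 1 := ⟨_, rfl⟩
  obtain ⟨u, hu⟩ : ∃ u : Fin n → ℝ, u = fun k => if k ∈ C then hi else 1 := ⟨_, rfl⟩
  have hl0 : ∀ k, 0 < l k := fun k => by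
    rw [hl]
    dsimp only
    split_ifs
    · exact hlo
    · exact zero_lt_one
  have hu0 : ∀ k, 0 < u k := fun k => by
    rw [hu]
    dsimp only
    split_ifs
    · exact hhi
    · exact zero_lt_one
  have hself : ∀ {Z : Type} [Fintype Z] [DecidableEq Z] (X : Matrix Z Z ℂ),
      (Xᴴ * X)ᴴ = Xᴴ * X := fun X => by
    rw [conjTranspose_mul, conjTranspose_conjTranspose]
  obtain ⟨c, hc⟩ : ∃ c : ℝ, c = (lo + hi) / 2 := ⟨_, rfl⟩
  obtain ⟨η, hη⟩ : ∃ η : ℝ, η = (hi - lo) / 2 := ⟨_, rfl⟩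
  have hη0 : 0 ≤ η := by rw [hη]; linarith
  have e1 : c - η = lo := by rw [hc, hη]; ring
  have e2 : c + η = hi := by rw [hc, hη]; ring
  have hDη : (2 * D + 1) * η ≤ c := by
    rw [hc, hη]
    nlinarith
  have hcert : ∀ k, Cert ρ k X₀ X₁ Y₀ Y₁ (l k) (u k) := by
    intro k
    by_cases hk : k ∈ C
    · have e3 : l k = lo := by rw [hl]; exact if_pos hk
      have e4 : u k = hi := by rw [hu]; exact if_pos hk
      rw [e3, e4]
      exact cert_coherent k X₀ X₁ Y₀ Y₁ hlo.le h1 h2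
    · have e3 : l k = 1 := by rw [hl]; exact if_neg hk
      have e4 : u k = 1 := by rw [hu]; exact if_neg hk
      rw [e3, e4]
      rcases h k hk with hk | hk
      · obtain ⟨m, S, f, g, hS, hf, hf1, hg1, hg2, hm, hm'⟩ :=
          block_data k (hself X₀) (hself X₁) hk
        refine rcert_left (near_rcert (ρ := ρ.submatrix Prod.swap Prod.swap) (c := c) hη0 ?_ ?_
          hDη S hS f g hf hf1 hg1 hg2) k X₀ X₁ Y₀ Y₁ hm hm'
        · rw [e1]
          refine (congrArg PosSemidef ?_).mp (h1.submatrix Prod.swap)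
          ext p q
          simp only [submatrix_apply, Matrix.sub_apply, Matrix.smul_apply, one_apply,
            Prod.swap_inj]
        · rw [e2]
          refine (congrArg PosSemidef ?_).mp (h2.submatrix Prod.swap)
          ext p q
          simp only [submatrix_apply, Matrix.sub_apply, Matrix.smul_apply, one_apply,
            Prod.swap_inj]
      · obtain ⟨m, S, f, g, hS, hf, hf1, hg1, hg2, hm, hm'⟩ :=
          block_data k (hself Y₀) (hself Y₁) hk
        refine rcert_right (near_rcert (ρ := ρ) (c := c) hη0 ?_ ?_ hDη S hS f g hf hf1 hg1 hg2)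
          k X₀ X₁ Y₀ Y₁ hm hm'
        · rw [e1]; exact h1
        · rw [e2]; exact h2
  have hcore := core (fun _ : Fin n => ρ) X₀ X₁ Y₀ Y₁ l u hl0 hu0 hcert
  rw [← tpow_eq] at hcore
  refine hcore.trans ?_
  have hρp : ρ.PosSemidef := by
    have h4 : ρ = (ρ - (lo : ℂ) • 1) + (lo : ℂ) • (1 : Matrix _ _ ℂ) := by abel
    rw [h4]
    exact h1.add (PosSemidef.one.smul (by exact_mod_cast hlo.le))
  have hTp : (tpow n ρ).PosSemidef := by
    rw [tpow_eq]
    exact tf_posSemidef fun _ => hρp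
  refine mul_le_mul_of_nonneg_right ?_ (mul_nonneg (Near.weight_nonneg hTp _ _)
    (Near.weight_nonneg hTp _ _))
  have hratio : (∏ k, u k) / ∏ k, l k = (hi / lo) ^ C.card := by
    rw [← Finset.prod_div_distrib]
    have h5 : ∀ k, u k / l k = if k ∈ C then hi / lo else 1 := by
      intro k
      rw [hl, hu]
      dsimp only
      split_ifs
      · rfl
      · exact div_one 1
    simp only [h5]
    rw [Finset.prod_ite_mem, Finset.univ_inter, Finset.prod_const]
  rw [hratio]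
  have h6 : 1 ≤ hi / lo := by
    rw [le_div_iff₀ hlo, one_mul]
    exact hle
  exact pow_le_pow_left₀ (by positivity) (pow_le_pow_right₀ h6 hC) 2

theorem tpow_trace (n : ℕ) {ρ : Matrix (A × B) (A × B) ℂ} (h : ρ.trace = 1) :
    (tpow n ρ).trace = 1 := by
  rw [tpow_eq, Half.tf]
  have h3 := Equiv.sum_comp (Half.colI (A := A) (B := B) (Fin n))
    fun x => (piT fun _ : Fin n => ρ) x x
  refine h3.trans ?_
  have h4 := piT_trace (fun _ : Fin n => ρ)
  rw [h, Finset.prod_const_one] at h4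
  exact h4

/-- The bound for protocols with few terms in every block. -/
theorem near_copies {n N D ℓ : ℕ} {ρ : Matrix (A × B) (A × B) ℂ} {lo hi : ℝ} (htr : ρ.trace = 1)
    (hlo : 0 < lo) (h1 : (ρ - (lo : ℂ) • 1).PosSemidef) (h2 : ((hi : ℂ) • 1 - ρ).PosSemidef)
    (hD : D * hi ≤ (D + 1) * lo) (E : Type) [Fintype E] [DecidableEq E]
    (Ψ : Matrix (A × B) E ℂ) (hΨ : Ψ * Ψᴴ = ρ) (T : Type) [Fintype T]
    (f : T → (Fin ℓ → Bool) → Matrix (Fin n → A) (Fin n → A) ℂ)
    (g : T → (Fin ℓ → Bool) → Matrix (Fin n → B) (Fin n → B) ℂ) (ε : ℝ)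
    (hL : LOCC (Fin ℓ → Bool) (Fin n → A) (Fin n → B) T f g)
    (hlim : ∀ τ, ∀ a b, a ≠ b → ∃ C : Finset (Fin n), C.card ≤ N ∧ ∀ k ∉ C,
      BlockLowRank D k (f τ a) (f τ b) ∨ BlockLowRank D k (g τ a) (g τ b))
    (herr : KeyError f g (copies n Ψ) ε) : (2 ^ ℓ - 1) * (1 - ε) ≤ (hi / lo) ^ N * ε := by
  have hle : lo ≤ hi := by
    have h3 := (h1.add h2).trace_nonneg
    have h4 : ρ - (lo : ℂ) • 1 + ((hi : ℂ) • 1 - ρ) =
        ((hi - lo : ℝ) : ℂ) • (1 : Matrix (A × B) (A × B) ℂ) := by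
      push_cast
      rw [sub_smul]
      abel
    rw [h4, trace_smul, trace_one, smul_eq_mul] at h3
    have h5 : (0 : ℝ) ≤ (hi - lo) * Fintype.card (A × B) := by
      have h6 : (0 : ℂ) ≤ (((hi - lo) * Fintype.card (A × B) : ℝ) : ℂ) := by
        push_cast at h3 ⊢
        exact h3
      exact_mod_cast h6
    have h7 : 0 < Fintype.card (A × B) := by
      rw [Fintype.card_pos_iff]
      by_contra hcon
      rw [not_nonempty_iff] at hcon
      rw [trace, Finset.univ_eq_empty, Finset.sum_empty] at htr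
      exact zero_ne_one htr
    have h8 : (0 : ℝ) < Fintype.card (A × B) := by exact_mod_cast h7
    nlinarith
  have hΨ1 : copies n Ψ * (copies n Ψ)ᴴ = tpow n ρ := by
    rw [copies_mul, hΨ]
  have htr' : (copies n Ψ * (copies n Ψ)ᴴ).trace = 1 := by
    rw [hΨ1]
    exact tpow_trace n htr
  have hκ : 0 ≤ (hi / lo) ^ N := pow_nonneg (div_nonneg (hlo.le.trans hle) hlo.le) N
  refine key_bound (copies n Ψ) htr' f g hL hκ herr ?_
  intro τ a b hab X₀ X₁ Y₀ Y₁ hX₀ hX₁ hY₀ hY₁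
  obtain ⟨C, hC, hCl⟩ := hlim τ a b hab
  rw [hΨ1]
  refine near_test hlo hle h1 h2 hD X₀ X₁ Y₀ Y₁ C hC fun k hk => ?_
  rw [hX₀, hX₁, hY₀, hY₁]
  exact hCl k hk

end Lim

end Vale.Agent.P372
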