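import Vale.Agent.P372.Lim.Blk

open Matrix Kronecker
open scoped ComplexOrder MatrixOrder

set_option linter.unusedSectionVars false

namespace Vale.Agent.P372

namespace Lim

theorem pow_bound {N D : ℕ} {t : ℝ} (ht : 0 ≤ t) (ht2 : 2 * t ≤ 1)
    (h : 2 * N * (D + 1) * t ≤ 1) : D * (1 + t) ^ N ≤ (D + 1) * (1 - t) ^ N := by
  have hD : (0 : ℝ) ≤ D := Nat.cast_nonneg D
  have h1 : (1 + t) * (1 - 2 * t) ≤ 1 - t := by nlinarith
  have h2 : 1 + (N : ℝ) * (-(2 * t)) ≤ (1 + -(2 * t)) ^ N :=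
    one_add_mul_le_pow (by linarith) N
  have h3 : ((1 + t) * (1 - 2 * t)) ^ N ≤ (1 - t) ^ N :=
    pow_le_pow_left₀ (mul_nonneg (by linarith) (by linarith)) h1 N
  rw [mul_pow] at h3
  have h4 : (D : ℝ) ≤ (D + 1) * (1 - 2 * t) ^ N := by
    have h5 : (D + 1) * (1 + (N : ℝ) * (-(2 * t))) ≤ (D + 1) * (1 - 2 * t) ^ N := by
      refine mul_le_mul_of_nonneg_left ?_ (by linarith)
      rw [sub_eq_add_neg]
      exact h2
    refine le_trans ?_ h5
    nlinarith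
  have h6 : (0 : ℝ) ≤ (1 + t) ^ N := pow_nonneg (by linarith) N
  calc (D : ℝ) * (1 + t) ^ N ≤ ((D + 1) * (1 - 2 * t) ^ N) * (1 + t) ^ N :=
        mul_le_mul_of_nonneg_right h4 h6
    _ = (D + 1) * ((1 + t) ^ N * (1 - 2 * t) ^ N) := by ring
    _ ≤ _ := mul_le_mul_of_nonneg_left h3 (by linarith)

/-- Blocks of `N` copies of Werner states. -/
theorem block_copies (d D N : ℕ) (t : ℝ) (hN : 0 < N) (h1 : 1 < d * t)
    (h2 : 2 * N * (D + 1) * t ≤ 1) (E : Type) [Fintype E] [DecidableEq E]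
    (Ψ : Matrix (Fin d × Fin d) E ℂ) (hΨ : Ψ * Ψᴴ = wernerState d t) (n M ℓ : ℕ) (T : Type)
    [Fintype T]
    (f g : T → (Fin ℓ → Bool) → Matrix (Fin n → Fin N → Fin d) (Fin n → Fin N → Fin d) ℂ) (ε : ℝ)
    (hL : LOCC (Fin ℓ → Bool) (Fin n → Fin N → Fin d) (Fin n → Fin N → Fin d) T f g)
    (hlim : ∀ τ, ∀ a b, a ≠ b → ∃ C : Finset (Fin n), C.card ≤ M ∧ ∀ k ∉ C,
      BlockLowRank D k (f τ a) (f τ b) ∨ BlockLowRank D k (g τ a) (g τ b))
    (herr : KeyError f g (copies n (copies N Ψ)) ε) :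
    (2 ^ ℓ - 1) * (1 - ε) ≤ ((1 + t) / (1 - t)) ^ (N * M) * ε := by
  have ht : 0 < t := by
    by_contra hcon
    push Not at hcon
    have h3 : (d : ℝ) * t ≤ 0 := mul_nonpos_of_nonneg_of_nonpos (Nat.cast_nonneg d) hcon
    linarith
  have hN1 : (1 : ℝ) ≤ N := by exact_mod_cast hN
  have hDp : (0 : ℝ) ≤ D := Nat.cast_nonneg D
  have ht2 : 2 * t ≤ 1 := by
    have h3 : 2 * t ≤ 2 * N * (D + 1) * t := by
      have h4 : (1 : ℝ) ≤ N * (D + 1) := by nlinarith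
      nlinarith
    linarith
  have ht1 : t < 1 := by linarith
  have hd1 : (1 : ℝ) < d := by nlinarith
  have hD0 : 0 < (d : ℝ) ^ 2 - t * d := by nlinarith
  obtain ⟨q, hq⟩ : ∃ q : ℝ, q = ((d : ℝ) ^ 2 - t * d)⁻¹ := ⟨_, rfl⟩
  have hq0 : 0 < q := hq ▸ inv_pos.mpr hD0
  rw [wernerState_eq] at hΨ
  have hlo := Near.werner_low ht.le hD0
  have hhi := Near.werner_high ht.le hD0
  rw [← hq] at hlo hhi
  have hρ := Near.werner_posSemidef ht.le ht1.le hD0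
  have hlo0 : 0 < (1 - t) * q := mul_pos (by linarith) hq0
  have hlo' := Near.tpow_low hlo0.le hlo N
  have hhi' := Near.tpow_high hρ hhi N
  have hpow := pow_bound ht.le ht2 h2
  have hcond : D * ((1 + t) * q) ^ N ≤ (D + 1) * ((1 - t) * q) ^ N := by
    rw [mul_pow, mul_pow, ← mul_assoc, ← mul_assoc]
    exact mul_le_mul_of_nonneg_right hpow (pow_nonneg hq0.le N)
  have hΨ2 : copies N Ψ * (copies N Ψ)ᴴ = tpow N (Near.werner d t) := by
    rw [copies_mul, hΨ]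
  have hfin := near_copies (N := M) (tpow_trace N (Near.werner_trace hD0)) (pow_pos hlo0 N) hlo'
    hhi' hcond (Fin N → E) (copies N Ψ) hΨ2 T f g ε hL hlim herr
  have hratio : ((1 + t) * q) ^ N / ((1 - t) * q) ^ N = ((1 + t) / (1 - t)) ^ N := by
    rw [← div_pow, mul_div_mul_right _ _ hq0.ne']
  rw [hratio, ← pow_mul] at hfin
  exact hfin

end Lim

end Vale.Agent.P372
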