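import Vale.Agent.P372.Bdl.B1

open Matrix Kronecker
open scoped ComplexOrder MatrixOrder

set_option linter.unusedSectionVars false

namespace Vale.Agent.P372

namespace Lim

variable {ι A B : Type} [Fintype ι] [DecidableEq ι] [Fintype A] [DecidableEq A] [Fintype B]
  [DecidableEq B]

/-- The slices of `P` at the site `k`. -/
def slc (k : ι) (P : Matrix (ι → A) (ι → A) ℂ) (x x' : {j // j ≠ k} → A) : Matrix A A ℂ :=
  fun a a' => P ((Equiv.funSplitAt k A).symm (a, x)) ((Equiv.funSplitAt k A).symm (a', x'))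

theorem split_at (k : ι) (a : A) (x : {j // j ≠ k} → A) :
    (Equiv.funSplitAt k A).symm (a, x) k = a := by
  simp [Equiv.funSplitAt]

theorem split_ne (k : ι) (a : A) (x : {j // j ≠ k} → A) (j : {j // j ≠ k}) :
    (Equiv.funSplitAt k A).symm (a, x) j = x j := by
  have := j.2
  simp [Equiv.funSplitAt, this]

theorem slice_sum (k : ι) (P : Matrix (ι → A) (ι → A) ℂ) (w : ι → A → A → ℂ) :
    ∑ p, ∑ q, (∏ j, w j (p j) (q j)) * P q p =
      ∑ x : {j // j ≠ k} → A, ∑ x' : {j // j ≠ k} → A, (∏ j : {j // j ≠ k}, w j (x j) (x' j)) *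
        ∑ a, ∑ a', w k a a' * slc k P x' x a' a := by
  have h1 : ∀ F : (ι → A) → ℂ, ∑ p, F p =
      ∑ x : {j // j ≠ k} → A, ∑ a, F ((Equiv.funSplitAt k A).symm (a, x)) := by
    intro F
    rw [← (Equiv.funSplitAt k A).symm.sum_comp, Fintype.sum_prod_type, Finset.sum_comm]
  rw [h1]
  refine Finset.sum_congr rfl fun x _ => ?_
  simp only [h1]
  rw [Finset.sum_comm]
  refine Finset.sum_congr rfl fun x' _ => ?_
  rw [Finset.mul_sum]
  refine Finset.sum_congr rfl fun a _ => ?_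
  rw [Finset.mul_sum]
  refine Finset.sum_congr rfl fun a' _ => ?_
  rw [Fintype.prod_eq_mul_prod_subtype_ne _ k, split_at, split_at]
  simp only [split_ne, slc]
  ring

/-- the trace pairing of a tensor product with a product of local operators -/
theorem trace_pair (s : ι → Matrix (A × B) (A × B) ℂ) (P : Matrix (ι → A) (ι → A) ℂ)
    (Q : Matrix (ι → B) (ι → B) ℂ) : (Half.tf s * (P ⊗ₖ Q)).trace =
      ∑ p₂, ∑ q₂, Q q₂ p₂ * ∑ p₁, ∑ q₁, (∏ j, s j (p₁ j, p₂ j) (q₁ j, q₂ j)) * P q₁ p₁ := by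
  rw [trace]
  simp only [diag_apply, mul_apply, Fintype.sum_prod_type, kroneckerMap_apply, Half.tf,
    submatrix_apply, piT_apply, Finset.mul_sum]
  rw [Finset.sum_comm]
  refine Finset.sum_congr rfl fun p₂ _ => ?_
  have h : ∀ p₁ : ι → A, (∑ q₁ : ι → A, ∑ q₂ : ι → B, (∏ j, s j (p₁ j, p₂ j) (q₁ j, q₂ j)) *
      (P q₁ p₁ * Q q₂ p₂)) = ∑ q₂ : ι → B, ∑ q₁ : ι → A,
        (∏ j, s j (p₁ j, p₂ j) (q₁ j, q₂ j)) * (P q₁ p₁ * Q q₂ p₂) := fun _ => Finset.sum_comm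
  simp only [h]
  rw [Finset.sum_comm]
  refine Finset.sum_congr rfl fun q₂ _ => Finset.sum_congr rfl fun p₁ _ =>
    Finset.sum_congr rfl fun q₁ _ => ?_
  ring

theorem trace_pair' (s : ι → Matrix (A × B) (A × B) ℂ) (P : Matrix (ι → A) (ι → A) ℂ)
    (Q : Matrix (ι → B) (ι → B) ℂ) : (Half.tf s * (P ⊗ₖ Q)).trace =
      ∑ p₁, ∑ q₁, P q₁ p₁ * ∑ p₂, ∑ q₂, (∏ j, s j (p₁ j, p₂ j) (q₁ j, q₂ j)) * Q q₂ p₂ := by
  rw [trace]
  simp only [diag_apply, mul_apply, Fintype.sum_prod_type, kroneckerMap_apply, Half.tf,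
    submatrix_apply, piT_apply, Finset.mul_sum]
  refine Finset.sum_congr rfl fun p₁ _ => ?_
  rw [Finset.sum_comm]
  refine Finset.sum_congr rfl fun q₁ _ => Finset.sum_congr rfl fun p₂ _ =>
    Finset.sum_congr rfl fun q₂ _ => ?_
  ring

theorem pair_zero_left (s : ι → Matrix (A × B) (A × B) ℂ) (k : ι)
    (P : Matrix (ι → A) (ι → A) ℂ) (Q : Matrix (ι → B) (ι → B) ℂ)
    (h : ∀ x x' b b', ∑ a, ∑ a', s k (a, b) (a', b') * slc k P x' x a' a = 0) :
    (Half.tf s * (P ⊗ₖ Q)).trace = 0 := by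
  rw [trace_pair]
  refine Finset.sum_eq_zero fun p₂ _ => Finset.sum_eq_zero fun q₂ _ => ?_
  rw [slice_sum k P fun j a a' => s j (a, p₂ j) (a', q₂ j)]
  rw [Finset.sum_eq_zero, mul_zero]
  intro x _
  refine Finset.sum_eq_zero fun x' _ => ?_
  rw [h, mul_zero]

theorem pair_zero_right (s : ι → Matrix (A × B) (A × B) ℂ) (k : ι)
    (P : Matrix (ι → A) (ι → A) ℂ) (Q : Matrix (ι → B) (ι → B) ℂ)
    (h : ∀ y y' a a', ∑ b, ∑ b', s k (a, b) (a', b') * slc k Q y' y b' b = 0) :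
    (Half.tf s * (P ⊗ₖ Q)).trace = 0 := by
  rw [trace_pair']
  refine Finset.sum_eq_zero fun p₁ _ => Finset.sum_eq_zero fun q₁ _ => ?_
  rw [slice_sum k Q fun j b b' => s j (p₁ j, b) (q₁ j, b')]
  rw [Finset.sum_eq_zero, mul_zero]
  intro x _
  refine Finset.sum_eq_zero fun x' _ => ?_
  rw [h, mul_zero]

theorem tf_update_sub (s : ι → Matrix (A × B) (A × B) ℂ) (k : ι) (x y : Matrix (A × B) (A × B) ℂ) :
    Half.tf (Function.update s k x) - Half.tf (Function.update s k y) =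
      Half.tf (Function.update s k (x - y)) := by
  ext p q
  simp only [Matrix.sub_apply, Half.tf, submatrix_apply, piT_apply]
  rw [Fintype.prod_eq_mul_prod_subtype_ne _ k, Fintype.prod_eq_mul_prod_subtype_ne _ k,
    Fintype.prod_eq_mul_prod_subtype_ne _ k]
  have h : ∀ (z : Matrix (A × B) (A × B) ℂ) (j : {j // j ≠ k}), Function.update s k z j = s j :=
    fun z j => Function.update_of_ne j.2 _ _
  simp only [h, Function.update_self, Matrix.sub_apply]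
  ring

theorem tf_update_smul (s : ι → Matrix (A × B) (A × B) ℂ) (k : ι) (c : ℂ)
    (x : Matrix (A × B) (A × B) ℂ) :
    Half.tf (Function.update s k (c • x)) = c • Half.tf (Function.update s k x) := by
  ext p q
  simp only [Matrix.smul_apply, Half.tf, submatrix_apply, piT_apply, smul_eq_mul]
  rw [Fintype.prod_eq_mul_prod_subtype_ne _ k, Fintype.prod_eq_mul_prod_subtype_ne _ k]
  have h : ∀ (z : Matrix (A × B) (A × B) ℂ) (j : {j // j ≠ k}), Function.update s k z j = s j :=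
    fun z j => Function.update_of_ne j.2 _ _
  simp only [h, Function.update_self, Matrix.smul_apply, smul_eq_mul]
  ring

theorem tf_posSemidef {s : ι → Matrix (A × B) (A × B) ℂ} (h : ∀ j, (s j).PosSemidef) :
    (Half.tf s).PosSemidef :=
  (piT_posSemidef h).submatrix _

theorem pair_nonneg {s : ι → Matrix (A × B) (A × B) ℂ} (h : ∀ j, (s j).PosSemidef)
    (X : Matrix (ι → A) (ι → A) ℂ) (Y : Matrix (ι → B) (ι → B) ℂ) :
    0 ≤ weight (Half.tf s) X Y :=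
  Near.weight_nonneg (tf_posSemidef h) X Y

/-- The hybrid argument, upper and lower bounds. -/
theorem hybrid (σ π : ι → Matrix (A × B) (A × B) ℂ) (hσ : ∀ j, (σ j).PosSemidef)
    (hπ : ∀ j, (π j).PosSemidef) (lo hi : ι → ℝ) (hlo : ∀ k, 0 ≤ lo k) (hhi : ∀ k, 0 ≤ hi k)
    (X : Matrix (ι → A) (ι → A) ℂ) (Y : Matrix (ι → B) (ι → B) ℂ)
    (h : ∀ k (s : ι → Matrix (A × B) (A × B) ℂ), (∀ j, (s j).PosSemidef) →
      lo k * weight (Half.tf (Function.update s k (π k))) X Y ≤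
        weight (Half.tf (Function.update s k (σ k))) X Y ∧
      weight (Half.tf (Function.update s k (σ k))) X Y ≤
        hi k * weight (Half.tf (Function.update s k (π k))) X Y) :
    (∏ k, lo k) * weight (Half.tf π) X Y ≤ weight (Half.tf σ) X Y ∧
      weight (Half.tf σ) X Y ≤ (∏ k, hi k) * weight (Half.tf π) X Y := by
  have key : ∀ T : Finset ι, (∏ k ∈ T, lo k) * weight (Half.tf (T.piecewise π σ)) X Y ≤
      weight (Half.tf σ) X Y ∧ weight (Half.tf σ) X Y ≤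
        (∏ k ∈ T, hi k) * weight (Half.tf (T.piecewise π σ)) X Y := by
    intro T
    induction T using Finset.induction_on with
    | empty =>
      rw [Finset.piecewise_empty, Finset.prod_empty, Finset.prod_empty, one_mul]
      exact ⟨le_rfl, le_rfl⟩
    | insert k T hk ih =>
      rw [Finset.piecewise_insert, Finset.prod_insert hk, Finset.prod_insert hk]
      have hs : ∀ j, ((T.piecewise π σ) j).PosSemidef := by
        intro j
        by_cases hj : j ∈ T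
        · rw [Finset.piecewise_eq_of_mem _ _ _ hj]; exact hπ j
        · rw [Finset.piecewise_eq_of_notMem _ _ _ hj]; exact hσ j
      have h1 := h k _ hs
      have h2 : Function.update (T.piecewise π σ) k (σ k) = T.piecewise π σ := by
        rw [← Finset.piecewise_eq_of_notMem T π σ hk]
        exact Function.update_eq_self _ _
      rw [h2] at h1
      constructor
      · refine le_trans ?_ ih.1
        rw [mul_comm (lo k), mul_assoc]
        exact mul_le_mul_of_nonneg_left h1.1 (Finset.prod_nonneg fun j _ => hlo j)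
      · refine le_trans ih.2 ?_
        rw [mul_comm (hi k), mul_assoc]
        exact mul_le_mul_of_nonneg_left h1.2 (Finset.prod_nonneg fun j _ => hhi j)
  have h1 := key Finset.univ
  rwa [Finset.piecewise_univ] at h1

/-- weights of product operators -/
theorem weight_prod (α : ι → Matrix A A ℂ) (β : ι → Matrix B B ℂ)
    (X : Matrix (ι → A) (ι → A) ℂ) (Y : Matrix (ι → B) (ι → B) ℂ)
    (hα : ∀ j, (α j).PosSemidef) (hβ : ∀ j, (β j).PosSemidef) :
    weight (Half.tf fun k => α k ⊗ₖ β k) X Y =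
      (piT α * (Xᴴ * X)).trace.re * (piT β * (Yᴴ * Y)).trace.re ∧
    0 ≤ (piT α * (Xᴴ * X)).trace.re ∧ 0 ≤ (piT β * (Yᴴ * Y)).trace.re := by
  have hT : (Half.tf fun k => α k ⊗ₖ β k) = piT α ⊗ₖ piT β := by
    ext p q
    simp only [Half.tf, submatrix_apply, piT_apply, kroneckerMap_apply, Finset.prod_mul_distrib]
  have hre : ∀ {C : Type} [Fintype C] [DecidableEq C] {M Z : Matrix C C ℂ}, M.PosSemidef →
      0 ≤ (M * (Zᴴ * Z)).trace := by
    intro C _ _ M Z hM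
    rw [← Matrix.mul_assoc, trace_mul_comm, ← Matrix.mul_assoc]
    exact (hM.mul_mul_conjTranspose_same Z).trace_nonneg
  have h1 := hre (Z := X) (piT_posSemidef hα)
  have h2 := hre (Z := Y) (piT_posSemidef hβ)
  refine ⟨?_, (Complex.le_def.mp h1).1, (Complex.le_def.mp h2).1⟩
  rw [Near.weight_eq_trace, hT, ← mul_kronecker_mul, trace_kronecker, Complex.mul_re]
  have h3 : (piT α * (Xᴴ * X)).trace.im = 0 := by
    have := (Complex.le_def.mp h1).2
    simpa using this.symm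
  rw [h3, zero_mul, sub_zero]

/-- a decomposition at the site `k` -/
def Cert (ρ : Matrix (A × B) (A × B) ℂ) (k : ι) (X₀ X₁ : Matrix (ι → A) (ι → A) ℂ)
    (Y₀ Y₁ : Matrix (ι → B) (ι → B) ℂ) (lo hi : ℝ) : Prop :=
  ∃ (m : ℕ) (σ : Fin m → Matrix (A × B) (A × B) ℂ) (α : Fin m → Matrix A A ℂ)
    (β : Fin m → Matrix B B ℂ), (∀ τ, (σ τ).PosSemidef) ∧ (∀ τ, (α τ).PosSemidef) ∧
    (∀ τ, (β τ).PosSemidef) ∧ ∑ τ, σ τ = ρ ∧
    ∀ τ, ∀ X ∈ ({X₀, X₁} : Set _), ∀ Y ∈ ({Y₀, Y₁} : Set _),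
      ∀ s : ι → Matrix (A × B) (A × B) ℂ, (∀ j, (s j).PosSemidef) →
      lo * weight (Half.tf (Function.update s k (α τ ⊗ₖ β τ))) X Y ≤
        weight (Half.tf (Function.update s k (σ τ))) X Y ∧
      weight (Half.tf (Function.update s k (σ τ))) X Y ≤
        hi * weight (Half.tf (Function.update s k (α τ ⊗ₖ β τ))) X Y

theorem tf_sum (m : ι → ℕ) (σ : ∀ k, Fin (m k) → Matrix (A × B) (A × B) ℂ) :
    Half.tf (fun k => ∑ τ, σ k τ) = ∑ τ : ∀ k, Fin (m k), Half.tf (fun k => σ k (τ k)) := by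
  ext p q
  simp only [Half.tf, submatrix_apply, piT_apply, Matrix.sum_apply]
  rw [Finset.prod_univ_sum]
  simp only [Fintype.piFinset_univ]

/-- The main estimate. -/
theorem core (ρ : ι → Matrix (A × B) (A × B) ℂ) (X₀ X₁ : Matrix (ι → A) (ι → A) ℂ)
    (Y₀ Y₁ : Matrix (ι → B) (ι → B) ℂ) (lo hi : ι → ℝ) (hlo : ∀ k, 0 < lo k)
    (hhi : ∀ k, 0 < hi k) (h : ∀ k, Cert (ρ k) k X₀ X₁ Y₀ Y₁ (lo k) (hi k)) :
    traceNorm ((X₀ ⊗ₖ Y₀) * Half.tf ρ * (X₁ ⊗ₖ Y₁)ᴴ) ^ 2 ≤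
      ((∏ k, hi k) / ∏ k, lo k) ^ 2 *
        (weight (Half.tf ρ) X₀ Y₁ * weight (Half.tf ρ) X₁ Y₀) := by
  choose m σ α β hσ hα hβ hsum hw using h
  obtain ⟨L, hL⟩ : ∃ L, L = ∏ k, lo k := ⟨_, rfl⟩
  obtain ⟨H, hH⟩ : ∃ H, H = ∏ k, hi k := ⟨_, rfl⟩
  have hL0 : 0 < L := hL ▸ Finset.prod_pos fun k _ => hlo k
  have hH0 : 0 < H := hH ▸ Finset.prod_pos fun k _ => hhi k
  rw [← hL, ← hH]
  have hρ : Half.tf ρ = ∑ τ : ∀ k, Fin (m k), Half.tf (fun k => σ k (τ k)) := by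
    rw [← tf_sum]
    simp only [hsum]
  obtain ⟨S, hS⟩ : ∃ S : (∀ k, Fin (m k)) → Matrix ((ι → A) × (ι → B)) ((ι → A) × (ι → B)) ℂ,
      S = fun τ => Half.tf (fun k => σ k (τ k)) := ⟨_, rfl⟩
  have hSp : ∀ τ, (S τ).PosSemidef := fun τ => by
    rw [hS]
    exact tf_posSemidef fun k => hσ k (τ k)
  have hρS : Half.tf ρ = ∑ τ, S τ := by rw [hρ, hS]
  -- the product approximations
  have hb : ∀ τ, ∀ X ∈ ({X₀, X₁} : Set _), ∀ Y ∈ ({Y₀, Y₁} : Set _),
      L * weight (Half.tf fun k => α k (τ k) ⊗ₖ β k (τ k)) X Y ≤ weight (S τ) X Y ∧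
      weight (S τ) X Y ≤ H * weight (Half.tf fun k => α k (τ k) ⊗ₖ β k (τ k)) X Y := by
    intro τ X hX Y hY
    rw [hS, hL, hH]
    exact hybrid (fun k => σ k (τ k)) (fun k => α k (τ k) ⊗ₖ β k (τ k)) (fun k => hσ k (τ k))
      (fun k => (hα k (τ k)).kronecker (hβ k (τ k))) lo hi (fun k => (hlo k).le)
      (fun k => (hhi k).le) X Y (fun k s hs => hw k (τ k) X hX Y hY s hs)
  have hW0 : ∀ τ X Y, 0 ≤ weight (S τ) X Y := fun τ X Y => Near.weight_nonneg (hSp τ) X Y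
  have hpiece : ∀ τ, traceNorm ((X₀ ⊗ₖ Y₀) * S τ * (X₁ ⊗ₖ Y₁)ᴴ) ≤
      (H / L) * (√(weight (S τ) X₀ Y₁) * √(weight (S τ) X₁ Y₀)) := by
    intro τ
    refine (Near.fid_le_weights (hSp τ) X₀ X₁ Y₀ Y₁).trans ?_
    have h00 := (hb τ X₀ (by simp) Y₀ (by simp)).2
    have h11 := (hb τ X₁ (by simp) Y₁ (by simp)).2
    have h01 := (hb τ X₀ (by simp) Y₁ (by simp)).1
    have h10 := (hb τ X₁ (by simp) Y₀ (by simp)).1
    have hp : ∀ X Y, _ := fun X Y => weight_prod (fun k => α k (τ k)) (fun k => β k (τ k)) X Y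
      (fun k => hα k (τ k)) (fun k => hβ k (τ k))
    rw [(hp X₀ Y₀).1] at h00
    rw [(hp X₁ Y₁).1] at h11
    rw [(hp X₀ Y₁).1] at h01
    rw [(hp X₁ Y₀).1] at h10
    obtain ⟨-, ha0, hb0⟩ := hp X₀ Y₀
    obtain ⟨-, ha1, hb1⟩ := hp X₁ Y₁
    obtain ⟨a0, ea0⟩ : ∃ a0, a0 = (piT (fun k => α k (τ k)) * (X₀ᴴ * X₀)).trace.re := ⟨_, rfl⟩
    obtain ⟨a1, ea1⟩ : ∃ a1, a1 = (piT (fun k => α k (τ k)) * (X₁ᴴ * X₁)).trace.re := ⟨_, rfl⟩
    obtain ⟨b0, eb0⟩ : ∃ b0, b0 = (piT (fun k => β k (τ k)) * (Y₀ᴴ * Y₀)).trace.re := ⟨_, rfl⟩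
    obtain ⟨b1, eb1⟩ : ∃ b1, b1 = (piT (fun k => β k (τ k)) * (Y₁ᴴ * Y₁)).trace.re := ⟨_, rfl⟩
    rw [← ea0, ← eb0] at h00
    rw [← ea1, ← eb1] at h11
    rw [← ea0, ← eb1] at h01
    rw [← ea1, ← eb0] at h10
    rw [← ea0] at ha0
    rw [← eb0] at hb0
    rw [← ea1] at ha1
    rw [← eb1] at hb1
    calc √(weight (S τ) X₀ Y₀) * √(weight (S τ) X₁ Y₁)
        ≤ √(H * (a0 * b0)) * √(H * (a1 * b1)) :=
          mul_le_mul (Real.sqrt_le_sqrt h00) (Real.sqrt_le_sqrt h11) (Real.sqrt_nonneg _)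
            (Real.sqrt_nonneg _)
      _ = (H / L) * (√(L * (a0 * b1)) * √(L * (a1 * b0))) := by
          rw [← Real.sqrt_mul (by positivity), ← Real.sqrt_mul (by positivity)]
          have e1 : H * (a0 * b0) * (H * (a1 * b1)) = H ^ 2 * (a0 * b0 * a1 * b1) := by ring
          have e2 : L * (a0 * b1) * (L * (a1 * b0)) = L ^ 2 * (a0 * b0 * a1 * b1) := by ring
          have e3 : ∀ c z : ℝ, 0 ≤ c → √(c ^ 2 * z) = c * √z := fun c z hc => by
            rw [Real.sqrt_mul (sq_nonneg c), Real.sqrt_sq hc]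
          rw [e1, e2, e3 _ _ hH0.le, e3 _ _ hL0.le, ← mul_assoc, div_mul_cancel₀ _ hL0.ne']
      _ ≤ _ := by
          refine mul_le_mul_of_nonneg_left ?_ (by positivity)
          exact mul_le_mul (Real.sqrt_le_sqrt h01) (Real.sqrt_le_sqrt h10) (Real.sqrt_nonneg _)
            (Real.sqrt_nonneg _)
  have hF : traceNorm ((X₀ ⊗ₖ Y₀) * Half.tf ρ * (X₁ ⊗ₖ Y₁)ᴴ) ≤
      (H / L) * ∑ τ, √(weight (S τ) X₀ Y₁) * √(weight (S τ) X₁ Y₀) := by
    rw [hρS, Finset.mul_sum, Finset.sum_mul, Finset.mul_sum]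
    exact (traceNorm_sum_le _ _).trans (Finset.sum_le_sum fun τ _ => hpiece τ)
  have hcs := Finset.sum_mul_sq_le_sq_mul_sq Finset.univ (fun τ => √(weight (S τ) X₀ Y₁))
    (fun τ => √(weight (S τ) X₁ Y₀))
  simp only [Real.sq_sqrt (hW0 _ _ _)] at hcs
  rw [hρS, Half.weight_sum, Half.weight_sum, ← hρS]
  calc _ ≤ ((H / L) * ∑ τ, √(weight (S τ) X₀ Y₁) * √(weight (S τ) X₁ Y₀)) ^ 2 :=
        pow_le_pow_left₀ (traceNorm_nonneg _) hF 2
    _ = (H / L) ^ 2 * (∑ τ, √(weight (S τ) X₀ Y₁) * √(weight (S τ) X₁ Y₀)) ^ 2 := by ring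
    _ ≤ _ := mul_le_mul_of_nonneg_left hcs (by positivity)

end Lim

end Vale.Agent.P372
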