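import Vale.Agent.P372.TestDefs

open Matrix

namespace Vale.Agent.P372

/-- The Werner state `(1 - t F) / (d² - t d)` on `ℂ^d ⊗ ℂ^d`, where `F (a ⊗ b) = b ⊗ a`. -/
noncomputable def wernerState (d : ℕ) (t : ℝ) : Matrix (Fin d × Fin d) (Fin d × Fin d) ℂ :=
  fun p q => ((if p = q then 1 else 0) - (t : ℂ) * (if p.1 = q.2 ∧ p.2 = q.1 then 1 else 0)) /
    ((d : ℂ) ^ 2 - (t : ℂ) * (d : ℂ))

/-- The state `(1 - (s / k) (1 - F) ⊗ F') / (d² k² - s (d² - d))` on `ℂ^d ⊗ ℂ^k` (Alice) and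
`ℂ^d ⊗ ℂ^k` (Bob), where `F` swaps the systems `ℂ^d` of Alice and Bob and `F'` swaps their systems
`ℂ^k`. -/
noncomputable def pptState (d k : ℕ) (s : ℝ) :
    Matrix ((Fin d × Fin k) × (Fin d × Fin k)) ((Fin d × Fin k) × (Fin d × Fin k)) ℂ :=
  fun p q => ((if p = q then 1 else 0) - (s : ℂ) / (k : ℂ) *
    (((if p.1.1 = q.1.1 ∧ p.2.1 = q.2.1 then 1 else 0) -
      (if p.1.1 = q.2.1 ∧ p.2.1 = q.1.1 then 1 else 0)) *
    (if p.1.2 = q.2.2 ∧ p.2.2 = q.1.2 then 1 else 0))) /
    ((d : ℂ) ^ 2 * (k : ℂ) ^ 2 - (s : ℂ) * ((d : ℂ) ^ 2 - (d : ℂ)))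

/-- `P = ∑ y, B y ⊗ M y` for some operators `M y`, where `B y` acts on the `k`-th of the `n`
systems and `M y` on the other ones. -/
def ExpandsIn {A Y : Type} [Fintype Y] {n : ℕ} (k : Fin n) (B : Y → Matrix A A ℂ)
    (P : Matrix (Fin n → A) (Fin n → A) ℂ) : Prop :=
  ∃ M : Y → Matrix ({j // j ≠ k} → A) ({j // j ≠ k} → A) ℂ,
    ∀ p q, P p q = ∑ y, B y (p k) (q k) * M y (fun j => p j) (fun j => q j)

/-- The operators `P` and `P'` on `n` systems are both of the form `∑ y, B y ⊗ M y`, with the same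
`D` operators `B y` on the `k`-th system. -/
def LowRank {A : Type} {n : ℕ} (D : ℕ) (k : Fin n)
    (P P' : Matrix (Fin n → A) (Fin n → A) ℂ) : Prop :=
  ∃ B : Fin D → Matrix A A ℂ, ExpandsIn k B P ∧ ExpandsIn k B P'

/-- The operators `P` and `P'` on `n` systems are block diagonal with respect to the same orthogonal
decomposition of the `k`-th system (with projections `S i`), and there are `D` operators
`B (i, y)` on each block such that `P` and `P'` are both of the form `∑ i y, B (i, y) ⊗ M (i, y)`. -/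
def BlockLowRank {A : Type} [Fintype A] [DecidableEq A] {n : ℕ} (D : ℕ) (k : Fin n)
    (P P' : Matrix (Fin n → A) (Fin n → A) ℂ) : Prop :=
  ∃ (m : ℕ) (S : Fin m → Matrix A A ℂ) (B : Fin m × Fin D → Matrix A A ℂ),
    (∀ i, (S i)ᴴ = S i) ∧ (∀ i j, S i * S j = if i = j then S i else 0) ∧ ∑ i, S i = 1 ∧
    (∀ i y, S i * B (i, y) * S i = B (i, y)) ∧ ExpandsIn k B P ∧ ExpandsIn k B P'

/-- The operator `S` on the `k`-th of the `n` systems, the identity on the other ones. -/
def onCopy {A : Type} [DecidableEq A] {n : ℕ} (k : Fin n) (S : Matrix A A ℂ) :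
    Matrix (Fin n → A) (Fin n → A) ℂ :=
  fun p q => S (p k) (q k) * if ∀ j, j ≠ k → p j = q j then 1 else 0

/-- The operators `P` and `P'` on `n` systems both commute with the same projection, different from
`0` and `1`, on the `k`-th system. -/
def BlockDiag {A : Type} [Fintype A] [DecidableEq A] {n : ℕ} (k : Fin n)
    (P P' : Matrix (Fin n → A) (Fin n → A) ℂ) : Prop :=
  ∃ S : Matrix A A ℂ, Sᴴ = S ∧ S * S = S ∧ S ≠ 0 ∧ S ≠ 1 ∧
    onCopy k S * P = P * onCopy k S ∧ onCopy k S * P' = P' * onCopy k S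

/-- `P` is a matrix product operator of bond dimension `χ`, on the `n` systems in their order. This
is the case with `χ = μ ^ 2` if `P` is the effect of a measurement made by reading in the `n`
systems one after the other with a memory of dimension `μ`. -/
def BondDim {A : Type} {n : ℕ} (χ : ℕ) (P : Matrix (Fin n → A) (Fin n → A) ℂ) : Prop :=
  ∃ (u v : Fin χ → ℂ) (W : Fin n → Fin χ → Fin χ → Matrix A A ℂ), ∀ p q, P p q =
    ∑ s : Fin (n + 1) → Fin χ,
      u (s 0) * (∏ j, W j (s j.castSucc) (s j.succ) (p j) (q j)) * v (s (Fin.last n))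

end Vale.Agent.P372
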