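import Vale.Agent.P372.Lim.Core

open Matrix Kronecker
open scoped ComplexOrder MatrixOrder

set_option linter.unusedSectionVars false

namespace Vale.Agent.P372

namespace Lim

variable {ι A B : Type} [Fintype ι] [DecidableEq ι] [Fintype A] [DecidableEq A] [Fintype B]
  [DecidableEq B]

/-- A decomposition of `ρ` into positive operators whose pairings with the operators in `S`, on
either side, are those of product operators. -/
def LocalCert (ρ : Matrix (A × A) (A × A) ℂ) (S : Set (Matrix A A ℂ)) : Prop :=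
  ∃ (m : ℕ) (σ : Fin m → Matrix (A × A) (A × A) ℂ) (α β : Fin m → Matrix A A ℂ),
    (∀ τ, (σ τ).PosSemidef) ∧ (∀ τ, (α τ).PosSemidef) ∧ (∀ τ, (β τ).PosSemidef) ∧
    ∑ τ, σ τ = ρ ∧ ∀ τ, ∀ M ∈ S,
      (∀ b b', ∑ a, ∑ a', (σ τ - α τ ⊗ₖ β τ) (a, b) (a', b') * M a' a = 0) ∧
      (∀ a a', ∑ b, ∑ b', (σ τ - α τ ⊗ₖ β τ) (a, b) (a', b') * M b' b = 0)

theorem LocalCert.smul {ρ : Matrix (A × A) (A × A) ℂ} {S : Set (Matrix A A ℂ)}
    (h : LocalCert ρ S) {c : ℝ} (hc : 0 ≤ c) : LocalCert ((c : ℂ) • ρ) S := by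
  obtain ⟨m, σ, α, β, hσ, hα, hβ, hs, hz⟩ := h
  have hc' : (0 : ℂ) ≤ (c : ℂ) := by exact_mod_cast hc
  have e : ∀ τ (p q : A × A), ((c : ℂ) • σ τ - ((c : ℂ) • α τ) ⊗ₖ β τ) p q =
      (c : ℂ) * (σ τ - α τ ⊗ₖ β τ) p q := by
    intro τ p q
    simp only [Matrix.sub_apply, Matrix.smul_apply, kroneckerMap_apply, smul_eq_mul]
    ring
  refine ⟨m, fun τ => (c : ℂ) • σ τ, fun τ => (c : ℂ) • α τ, β, fun τ => (hσ τ).smul hc',
    fun τ => (hα τ).smul hc', hβ, ?_, fun τ M hM => ⟨fun b b' => ?_, fun a a' => ?_⟩⟩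
  · rw [← Finset.smul_sum, hs]
  · simp only [e, mul_assoc, ← Finset.mul_sum]
    rw [(hz τ M hM).1, mul_zero]
  · simp only [e, mul_assoc, ← Finset.mul_sum]
    rw [(hz τ M hM).2, mul_zero]

theorem weight_update_sub (s : ι → Matrix (A × B) (A × B) ℂ) (k : ι)
    (x y : Matrix (A × B) (A × B) ℂ) (X : Matrix (ι → A) (ι → A) ℂ)
    (Y : Matrix (ι → B) (ι → B) ℂ) :
    weight (Half.tf (Function.update s k x)) X Y - weight (Half.tf (Function.update s k y)) X Y =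
      weight (Half.tf (Function.update s k (x - y))) X Y := by
  rw [← Near.weight_sub, tf_update_sub]

theorem weight_update_smul (s : ι → Matrix (A × B) (A × B) ℂ) (k : ι) (c : ℝ)
    (x : Matrix (A × B) (A × B) ℂ) (X : Matrix (ι → A) (ι → A) ℂ)
    (Y : Matrix (ι → B) (ι → B) ℂ) :
    weight (Half.tf (Function.update s k ((c : ℂ) • x))) X Y =
      c * weight (Half.tf (Function.update s k x)) X Y := by
  rw [tf_update_smul, Near.weight_eq_trace, Matrix.smul_mul, trace_smul, smul_eq_mul,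
    Complex.re_ofReal_mul, ← Near.weight_eq_trace]

theorem update_posSemidef {s : ι → Matrix (A × B) (A × B) ℂ} (hs : ∀ j, (s j).PosSemidef) (k : ι)
    {x : Matrix (A × B) (A × B) ℂ} (hx : x.PosSemidef) (j : ι) :
    (Function.update s k x j).PosSemidef := by
  by_cases h : j = k
  · subst h
    rwa [Function.update_self]
  · rw [Function.update_of_ne h]
    exact hs j

/-- A coherent site. -/
theorem cert_coherent {ρ : Matrix (A × B) (A × B) ℂ} (k : ι) (X₀ X₁ : Matrix (ι → A) (ι → A) ℂ)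
    (Y₀ Y₁ : Matrix (ι → B) (ι → B) ℂ) {lo hi : ℝ} (hlo : 0 ≤ lo)
    (h1 : (ρ - (lo : ℂ) • 1).PosSemidef) (h2 : ((hi : ℂ) • 1 - ρ).PosSemidef) :
    Cert ρ k X₀ X₁ Y₀ Y₁ lo hi := by
  have hρ : ρ.PosSemidef := by
    have h4 : ρ = (ρ - (lo : ℂ) • 1) + (lo : ℂ) • (1 : Matrix _ _ ℂ) := by abel
    rw [h4]
    exact h1.add (PosSemidef.one.smul (by exact_mod_cast hlo))
  refine ⟨1, fun _ => ρ, fun _ => 1, fun _ => 1, fun _ => hρ, fun _ => PosSemidef.one,
    fun _ => PosSemidef.one, by simp, fun _ X _ Y _ s hs => ?_⟩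
  rw [one_kronecker_one]
  constructor
  · rw [← sub_nonneg, ← weight_update_smul, weight_update_sub]
    exact pair_nonneg (update_posSemidef hs k h1) X Y
  · rw [← sub_nonneg, ← weight_update_smul, weight_update_sub]
    exact pair_nonneg (update_posSemidef hs k h2) X Y

theorem cert_left {ρ : Matrix (A × A) (A × A) ℂ} {S : Set (Matrix A A ℂ)} (h : LocalCert ρ S)
    (k : ι) (X₀ X₁ Y₀ Y₁ : Matrix (ι → A) (ι → A) ℂ)
    (h0 : ∀ x x', slc k (X₀ᴴ * X₀) x x' ∈ S) (h1 : ∀ x x', slc k (X₁ᴴ * X₁) x x' ∈ S) :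
    Cert ρ k X₀ X₁ Y₀ Y₁ 1 1 := by
  obtain ⟨m, σ, α, β, hσ, hα, hβ, hs, hz⟩ := h
  refine ⟨m, σ, α, β, hσ, hα, hβ, hs, fun τ X hX Y _ s _ => ?_⟩
  have hX' : ∀ x x', slc k (Xᴴ * X) x x' ∈ S := by
    rcases hX with rfl | hX
    · exact h0
    · rw [Set.mem_singleton_iff] at hX
      rw [hX]
      exact h1
  have h2 : weight (Half.tf (Function.update s k (σ τ))) X Y -
      weight (Half.tf (Function.update s k (α τ ⊗ₖ β τ))) X Y = 0 := by
    rw [weight_update_sub, Near.weight_eq_trace, pair_zero_left _ k, Complex.zero_re]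
    intro x x' b b'
    rw [Function.update_self]
    exact (hz τ _ (hX' x' x)).1 b b'
  rw [one_mul]
  exact ⟨(sub_eq_zero.mp h2).symm.le, (sub_eq_zero.mp h2).le⟩

theorem cert_right {ρ : Matrix (A × A) (A × A) ℂ} {S : Set (Matrix A A ℂ)} (h : LocalCert ρ S)
    (k : ι) (X₀ X₁ Y₀ Y₁ : Matrix (ι → A) (ι → A) ℂ)
    (h0 : ∀ x x', slc k (Y₀ᴴ * Y₀) x x' ∈ S) (h1 : ∀ x x', slc k (Y₁ᴴ * Y₁) x x' ∈ S) :
    Cert ρ k X₀ X₁ Y₀ Y₁ 1 1 := by
  obtain ⟨m, σ, α, β, hσ, hα, hβ, hs, hz⟩ := h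
  refine ⟨m, σ, α, β, hσ, hα, hβ, hs, fun τ X _ Y hY s _ => ?_⟩
  have hY' : ∀ x x', slc k (Yᴴ * Y) x x' ∈ S := by
    rcases hY with rfl | hY
    · exact h0
    · rw [Set.mem_singleton_iff] at hY
      rw [hY]
      exact h1
  have h2 : weight (Half.tf (Function.update s k (σ τ))) X Y -
      weight (Half.tf (Function.update s k (α τ ⊗ₖ β τ))) X Y = 0 := by
    rw [weight_update_sub, Near.weight_eq_trace, pair_zero_right _ k, Complex.zero_re]
    intro x x' b b'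
    rw [Function.update_self]
    exact (hz τ _ (hY' x' x)).2 b b'
  rw [one_mul]
  exact ⟨(sub_eq_zero.mp h2).symm.le, (sub_eq_zero.mp h2).le⟩

end Lim

end Vale.Agent.P372
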