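import Vale.Agent.P372.Lim.Sep

open Matrix Kronecker
open scoped ComplexOrder MatrixOrder

set_option linter.unusedSectionVars false

namespace Vale.Agent.P372

namespace Lim

variable {I : Type} [Fintype I] [DecidableEq I]

/-- matrix units -/
def eu (k l : I) : Matrix I I ℂ := fun i j => if i = k ∧ j = l then 1 else 0

theorem sum_eu (G : I → I → ℂ) (i j : I) : ∑ k, ∑ l, G k l * eu k l i j = G i j := by
  rw [Finset.sum_eq_single i, Finset.sum_eq_single j]
  · rw [eu, if_pos ⟨rfl, rfl⟩, mul_one]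
  · intro l _ hl
    rw [eu, if_neg (fun h => hl h.2.symm), mul_zero]
  · intro h
    exact absurd (Finset.mem_univ _) h
  · intro k _ hk
    refine Finset.sum_eq_zero fun l _ => ?_
    rw [eu, if_neg (fun h => hk h.1.symm), mul_zero]
  · intro h
    exact absurd (Finset.mem_univ _) h

theorem sum_eu' (G : I → I → ℂ) (i j : I) : ∑ k, ∑ l, G k l * eu l k i j = G j i := by
  rw [Finset.sum_comm]
  exact sum_eu (fun k l => G l k) i j

theorem sum_diag (G : I → ℂ) (i j : I) : ∑ k, G k * eu k k i j = if i = j then G i else 0 := by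
  by_cases h : i = j
  · subst h
    rw [if_pos rfl, Finset.sum_eq_single i]
    · rw [eu, if_pos ⟨rfl, rfl⟩, mul_one]
    · intro k _ hk
      rw [eu, if_neg (fun h => hk h.1.symm), mul_zero]
    · intro h
      exact absurd (Finset.mem_univ _) h
  · rw [if_neg h]
    refine Finset.sum_eq_zero fun k _ => ?_
    rw [eu, if_neg (fun h' => h (h'.1.trans h'.2.symm)), mul_zero]

/-- the weighted diagonal part -/
noncomputable def dd (w : I → ℝ) (k l : I) : Matrix I I ℂ :=
  ((w l / w k : ℝ) : ℂ) • eu k k + ((w k / w l : ℝ) : ℂ) • eu l l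

/-- the weighted rank one operator -/
theorem bet_posSemidef (w : I → ℝ) (hw : ∀ k, 0 < w k) (c : ℂ) (hc : c * star c = 1) (k l : I) :
    (dd w k l + (star c • eu k l + c • eu l k)).PosSemidef := by
  obtain ⟨u, hu⟩ : ∃ u : I → ℂ, u = fun i => (if i = k then ((w l : ℝ) : ℂ) else 0) +
      (if i = l then c * ((w k : ℝ) : ℂ) else 0) := ⟨_, rfl⟩
  have hk : ((w k : ℝ) : ℂ) ≠ 0 := by exact_mod_cast (hw k).ne'
  have hl : ((w l : ℝ) : ℂ) ≠ 0 := by exact_mod_cast (hw l).ne'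
  have h : dd w k l + (star c • eu k l + c • eu l k) =
      (((w k * w l)⁻¹ : ℝ) : ℂ) • vecMulVec u (star u) := by
    ext i j
    simp only [dd, eu, Matrix.add_apply, Matrix.smul_apply, smul_eq_mul, vecMulVec_apply,
      Pi.star_apply, hu]
    have e1 : star ((if j = k then ((w l : ℝ) : ℂ) else 0) +
        (if j = l then c * ((w k : ℝ) : ℂ) else 0)) = (if j = k then ((w l : ℝ) : ℂ) else 0) +
        (if j = l then star c * ((w k : ℝ) : ℂ) else 0) := by
      rw [star_add]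
      congr 1
      · split_ifs
        · rw [Complex.star_def, Complex.conj_ofReal]
        · exact star_zero _
      · split_ifs
        · rw [star_mul']
          congr 1
          exact Complex.conj_ofReal _
        · exact star_zero _
    rw [e1]
    push_cast
    have e2 : ∀ (P Q : Prop) [Decidable P] [Decidable Q], (if P ∧ Q then (1 : ℂ) else 0) =
        (if P then 1 else 0) * (if Q then 1 else 0) := by
      intro P Q _ _
      by_cases hP : P <;> by_cases hQ : Q <;> simp [hP, hQ]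
    have e3 : ∀ (P : Prop) [Decidable P] (z : ℂ), (if P then z else 0) =
        z * (if P then 1 else 0) := by
      intro P _ z
      by_cases hP : P <;> simp [hP]
    simp only [e2]
    rw [e3 (i = k) ((w l : ℝ) : ℂ), e3 (i = l) (c * _), e3 (j = k) ((w l : ℝ) : ℂ),
      e3 (j = l) (star c * _)]
    generalize (if i = k then (1 : ℂ) else 0) = a
    generalize (if i = l then (1 : ℂ) else 0) = b
    generalize (if j = k then (1 : ℂ) else 0) = a'
    generalize (if j = l then (1 : ℂ) else 0) = b'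
    field_simp
    linear_combination (-(w k : ℂ) ^ 2 * b * b') * hc
  rw [h]
  exact (posSemidef_vecMulVec_self_star u).smul
    (by exact_mod_cast (inv_pos.mpr (mul_pos (hw k) (hw l))).le)

theorem T_sep (w : I → ℝ) (hw : ∀ k, 0 < w k) (c : ℂ) (hc : c * star c = 1) (k l : I)
    {M : Matrix I I ℂ} (hM : M.IsHermitian) {h : ℝ} (h0 : 0 ≤ h) (h1 : hs M ≤ h ^ 2) :
    IsSep ((1 / 2 : ℂ) • (((h : ℂ) • (1 : Matrix I I ℂ)) ⊗ₖ dd w k l -
      M ⊗ₖ (star c • eu k l + c • eu l k))) := by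
  have p1 := hs_bound hM h0 h1
  have p2 := hs_bound hM.neg h0 (by simpa [hs] using h1)
  rw [sub_neg_eq_add] at p2
  have q1 := bet_posSemidef w hw c hc k l
  have q2 := bet_posSemidef w hw (-c) (by rw [star_neg, neg_mul_neg, hc]) k l
  have hs := IsSep.add (isSep_kron p1 q1) (isSep_kron p2 q2)
  have hs2 := IsSep.smul' (show (0 : ℝ) ≤ 1 / 4 by norm_num) hs
  refine (congrArg IsSep ?_).mp hs2
  ext ⟨i, i'⟩ ⟨j, j'⟩
  simp only [Matrix.smul_apply, Matrix.add_apply, Matrix.sub_apply, kroneckerMap_apply, smul_eq_mul,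
    star_neg]
  push_cast
  ring

/-- A block version of the Gurvits-Barnum theorem. -/
theorem sep_main {r : ℕ} (b : Fin r → Matrix I I ℂ) (hb : ∀ μ, (b μ).IsHermitian)
    (horth : ∀ μ ν, (b μ * b ν).trace = if μ = ν then 1 else 0) {lam : ℝ} (hl : 0 < lam)
    (h : 2 * (r : ℝ) < lam ^ 2) :
    IsSep ((lam : ℂ) • (1 : Matrix (I × I) (I × I) ℂ) - ∑ μ, b μ ⊗ₖ b μ) := by
  -- real linear combinations
  have hcomb : ∀ x : Fin r → ℝ, (∑ μ, ((x μ : ℝ) : ℂ) • b μ).IsHermitian ∧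
      hs (∑ μ, ((x μ : ℝ) : ℂ) • b μ) = ∑ μ, x μ ^ 2 := by
    intro x
    have h1 : (∑ μ, ((x μ : ℝ) : ℂ) • b μ)ᴴ = ∑ μ, ((x μ : ℝ) : ℂ) • b μ := by
      rw [conjTranspose_sum]
      refine Finset.sum_congr rfl fun μ _ => ?_
      rw [conjTranspose_smul, (hb μ).eq, Complex.star_def, Complex.conj_ofReal]
    refine ⟨h1, ?_⟩
    rw [hs_eq_re, h1, Finset.sum_mul_sum, trace_sum, Complex.re_sum]
    refine Finset.sum_congr rfl fun μ _ => ?_
    rw [trace_sum, Complex.re_sum, Finset.sum_eq_single μ]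
    · rw [smul_mul_smul_comm, trace_smul, horth, if_pos rfl, smul_eq_mul, mul_one,
        ← Complex.ofReal_mul, Complex.ofReal_re, sq]
    · intro ν _ hν
      rw [smul_mul_smul_comm, trace_smul, horth, if_neg (Ne.symm hν), smul_zero, Complex.zero_re]
    · intro h
      exact absurd (Finset.mem_univ _) h
  have hsym : ∀ μ k l, b μ l k = star (b μ k l) := by
    intro μ k l
    conv_lhs => rw [← (hb μ).eq, conjTranspose_apply]
  obtain ⟨x, hx⟩ : ∃ x : I → I → Fin r → ℝ, x = fun k l μ => (b μ k l).re := ⟨_, rfl⟩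
  obtain ⟨y, hy⟩ : ∃ y : I → I → Fin r → ℝ, y = fun k l μ => (b μ k l).im := ⟨_, rfl⟩
  have hxs : ∀ k l μ, x l k μ = x k l μ := by
    intro k l μ
    simp only [hx]
    rw [hsym μ k l, Complex.star_def, Complex.conj_re]
  have hys : ∀ k l μ, y l k μ = - y k l μ := by
    intro k l μ
    simp only [hy]
    rw [hsym μ k l, Complex.star_def, Complex.conj_im]
  obtain ⟨H, hH⟩ : ∃ H : I → I → Matrix I I ℂ, H = fun k l => ∑ μ, ((x k l μ : ℝ) : ℂ) • b μ :=
    ⟨_, rfl⟩
  obtain ⟨K, hK⟩ : ∃ K : I → I → Matrix I I ℂ, K = fun k l => ∑ μ, ((y k l μ : ℝ) : ℂ) • b μ :=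
    ⟨_, rfl⟩
  obtain ⟨f, hf⟩ : ∃ f : I → I → ℝ, f = fun k l => √(∑ μ, x k l μ ^ 2) := ⟨_, rfl⟩
  obtain ⟨g, hg⟩ : ∃ g : I → I → ℝ, g = fun k l => √(∑ μ, y k l μ ^ 2) := ⟨_, rfl⟩
  have hf2 : ∀ k l, f k l ^ 2 = ∑ μ, x k l μ ^ 2 := fun k l => by
    rw [hf]
    exact Real.sq_sqrt (Finset.sum_nonneg fun _ _ => sq_nonneg _)
  have hg2 : ∀ k l, g k l ^ 2 = ∑ μ, y k l μ ^ 2 := fun k l => by
    rw [hg]
    exact Real.sq_sqrt (Finset.sum_nonneg fun _ _ => sq_nonneg _)
  have hf0 : ∀ k l, 0 ≤ f k l := fun k l => by rw [hf]; exact Real.sqrt_nonneg _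
  have hg0 : ∀ k l, 0 ≤ g k l := fun k l => by rw [hg]; exact Real.sqrt_nonneg _
  have hfs : ∀ k l, f l k = f k l := fun k l => by simp only [hf, hxs k l]
  have hgs : ∀ k l, g l k = g k l := fun k l => by simp only [hg, hys k l, neg_sq]
  have hnn : ∑ k, ∑ l, (f k l + g k l) ^ 2 < lam ^ 2 := by
    refine lt_of_le_of_lt ?_ h
    have h1 : ∀ k l, (f k l + g k l) ^ 2 ≤ 2 * ∑ μ, ‖b μ k l‖ ^ 2 := by
      intro k l
      have h2 : ∑ μ, ‖b μ k l‖ ^ 2 = f k l ^ 2 + g k l ^ 2 := by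
        rw [hf2, hg2, ← Finset.sum_add_distrib]
        refine Finset.sum_congr rfl fun μ _ => ?_
        simp only [hx, hy]
        rw [← Complex.normSq_eq_norm_sq, Complex.normSq_apply]
        ring
      rw [h2]
      nlinarith [sq_nonneg (f k l - g k l)]
    calc ∑ k, ∑ l, (f k l + g k l) ^ 2 ≤ ∑ k, ∑ l, 2 * ∑ μ, ‖b μ k l‖ ^ 2 :=
          Finset.sum_le_sum fun k _ => Finset.sum_le_sum fun l _ => h1 k l
      _ = 2 * ∑ μ, hs (b μ) := by
          simp only [hs, ← Finset.mul_sum]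
          congr 1
          rw [Finset.sum_comm' (t' := Finset.univ) (s' := fun _ => Finset.univ) (by simp)]
          have h3 : ∀ k : I, ∑ l, ∑ μ, ‖b μ k l‖ ^ 2 = ∑ μ, ∑ l, ‖b μ k l‖ ^ 2 :=
            fun k => Finset.sum_comm
          rw [Finset.sum_comm]
          simp only [h3]
          rw [Finset.sum_comm]
      _ = 2 * r := by
          have h4 : ∀ μ, hs (b μ) = 1 := by
            intro μ
            rw [hs_eq_re, (hb μ).eq, horth, if_pos rfl, Complex.one_re]
          simp only [h4, Finset.sum_const, Finset.card_univ, Fintype.card_fin, nsmul_eq_mul,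
            mul_one]
      _ ≤ _ := le_rfl
  obtain ⟨w, hw, hwn⟩ := exists_weights (fun k l => f k l + g k l)
    (fun k l => add_nonneg (hf0 k l) (hg0 k l)) hl hnn
  -- the pieces
  have hT1 : ∀ k l, IsSep ((1 / 2 : ℂ) • (((f k l : ℂ) • (1 : Matrix I I ℂ)) ⊗ₖ dd w k l -
      H k l ⊗ₖ (star (1 : ℂ) • eu k l + (1 : ℂ) • eu l k))) := by
    intro k l
    refine T_sep w hw 1 (by simp) k l ?_ (hf0 k l) ?_
    · rw [hH]; exact (hcomb _).1
    · rw [hf2, hH]; exact (hcomb _).2.le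
  have hT2 : ∀ k l, IsSep ((1 / 2 : ℂ) • (((g k l : ℂ) • (1 : Matrix I I ℂ)) ⊗ₖ dd w k l -
      K k l ⊗ₖ (star (-Complex.I) • eu k l + (-Complex.I) • eu l k))) := by
    intro k l
    refine T_sep w hw (-Complex.I) (by simp) k l ?_ (hg0 k l) ?_
    · rw [hK]; exact (hcomb _).1
    · rw [hg2, hK]; exact (hcomb _).2.le
  have hD : ∀ k, IsSep ((1 : Matrix I I ℂ) ⊗ₖ
      (((lam - (∑ l, (f k l + g k l) * w l) / w k : ℝ) : ℂ) • eu k k)) := by
    intro k
    refine isSep_kron PosSemidef.one (PosSemidef.smul ?_ ?_)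
    · have h5 : eu k k = vecMulVec (fun i => if i = k then (1 : ℂ) else 0)
          (star fun i => if i = k then (1 : ℂ) else 0) := by
        ext i j
        simp only [eu, vecMulVec_apply, Pi.star_apply]
        by_cases h1 : i = k <;> by_cases h2 : j = k <;> simp [h1, h2]
      rw [h5]
      exact posSemidef_vecMulVec_self_star _
    · have h6 : 0 ≤ lam - (∑ l, (f k l + g k l) * w l) / w k := by
        rw [sub_nonneg, div_le_iff₀ (hw k)]
        exact hwn k
      exact_mod_cast h6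
  have hall := IsSep.add (IsSep.sum Finset.univ _ hD) (IsSep.sum Finset.univ _ fun k =>
    IsSep.sum Finset.univ _ fun l => IsSep.add (hT1 k l) (hT2 k l))
  refine (congrArg IsSep ?_).mp hall
  ext ⟨i, k'⟩ ⟨j, l'⟩
  rw [Matrix.add_apply, Matrix.sum_apply, Matrix.sum_apply, Matrix.sub_apply, Matrix.sum_apply,
    Matrix.smul_apply]
  simp only [Matrix.sum_apply]
  obtain ⟨δ, hδ⟩ : ∃ δ : ℂ, δ = (1 : Matrix I I ℂ) i j := ⟨_, rfl⟩
  have e1 : ∀ k, ((1 : Matrix I I ℂ) ⊗ₖ
      (((lam - (∑ l, (f k l + g k l) * w l) / w k : ℝ) : ℂ) • eu k k)) (i, k') (j, l') =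
      (δ * ((lam - (∑ l, (f k l + g k l) * w l) / w k : ℝ) : ℂ)) * eu k k k' l' := by
    intro k
    rw [kroneckerMap_apply, Matrix.smul_apply, smul_eq_mul, hδ]
    ring
  have e2 : ∀ k l, ((1 / 2 : ℂ) • (((f k l : ℂ) • (1 : Matrix I I ℂ)) ⊗ₖ dd w k l -
      H k l ⊗ₖ (star (1 : ℂ) • eu k l + (1 : ℂ) • eu l k)) +
      (1 / 2 : ℂ) • (((g k l : ℂ) • (1 : Matrix I I ℂ)) ⊗ₖ dd w k l -
      K k l ⊗ₖ (star (-Complex.I) • eu k l + (-Complex.I) • eu l k))) (i, k') (j, l') =
      (δ / 2 * (((f k l + g k l) * (w l / w k) : ℝ) : ℂ)) * eu k k k' l' +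
      (δ / 2 * (((f k l + g k l) * (w k / w l) : ℝ) : ℂ)) * eu l l k' l' +
      (-(H k l i j + Complex.I * K k l i j) / 2) * eu k l k' l' +
      (-(H k l i j - Complex.I * K k l i j) / 2) * eu l k k' l' := by
    intro k l
    simp only [Matrix.add_apply, Matrix.smul_apply, Matrix.sub_apply, kroneckerMap_apply, dd,
      smul_eq_mul, star_one, ← hδ]
    have h7 : star (-Complex.I) = Complex.I := by simp
    rw [h7]
    push_cast
    ring
  simp only [e1, e2, Finset.sum_add_distrib]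
  rw [sum_diag, sum_eu, sum_eu']
  have e3 : ∑ k, ∑ l, (δ / 2 * (((f k l + g k l) * (w l / w k) : ℝ) : ℂ)) * eu k k k' l' =
      if k' = l' then δ / 2 * (((∑ l, (f k' l + g k' l) * w l) / w k' : ℝ) : ℂ) else 0 := by
    rw [← sum_diag (fun k => δ / 2 * (((∑ l, (f k l + g k l) * w l) / w k : ℝ) : ℂ)) k' l']
    refine Finset.sum_congr rfl fun k _ => ?_
    rw [← Finset.sum_mul, ← Finset.mul_sum, ← Complex.ofReal_sum, Finset.sum_div]
    simp only [mul_div_assoc]
  have e4 : ∑ k, ∑ l, (δ / 2 * (((f k l + g k l) * (w k / w l) : ℝ) : ℂ)) * eu l l k' l' =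
      if k' = l' then δ / 2 * (((∑ l, (f k' l + g k' l) * w l) / w k' : ℝ) : ℂ) else 0 := by
    rw [← e3, Finset.sum_comm]
    refine Finset.sum_congr rfl fun k _ => Finset.sum_congr rfl fun l _ => ?_
    rw [hfs k l, hgs k l]
  have h8 : (1 : Matrix (I × I) (I × I) ℂ) (i, k') (j, l') = if k' = l' then δ else 0 := by
    rw [hδ, one_apply, one_apply]
    by_cases h1 : i = j <;> by_cases h2 : k' = l' <;> simp [h1, h2]
  have h9 : H l' k' = H k' l' := by
    rw [hH]
    simp only [hxs k' l']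
  have h10 : K l' k' = -K k' l' := by
    rw [hK]
    simp only [hys k' l', Complex.ofReal_neg, neg_smul, Finset.sum_neg_distrib]
  have h11 : H k' l' i j + Complex.I * K k' l' i j = ∑ μ, (b μ ⊗ₖ b μ) (i, k') (j, l') := by
    have hH' : H k' l' = ∑ μ, ((x k' l' μ : ℝ) : ℂ) • b μ := by rw [hH]
    have hK' : K k' l' = ∑ μ, ((y k' l' μ : ℝ) : ℂ) • b μ := by rw [hK]
    rw [hH', hK', Matrix.sum_apply, Matrix.sum_apply, Finset.mul_sum, ← Finset.sum_add_distrib]
    refine Finset.sum_congr rfl fun μ _ => ?_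
    rw [Matrix.smul_apply, Matrix.smul_apply, kroneckerMap_apply, smul_eq_mul, smul_eq_mul]
    have h12 : b μ k' l' = ((x k' l' μ : ℝ) : ℂ) + ((y k' l' μ : ℝ) : ℂ) * Complex.I := by
      simp only [hx, hy]
      exact (Complex.re_add_im _).symm
    rw [h12]
    ring
  rw [e3, e4, h8, h9, h10, Matrix.neg_apply, ← h11, smul_eq_mul]
  split_ifs
  · push_cast
    ring
  · ring

end Lim

end Vale.Agent.P372
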