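import Vale.Agent.P372.Lim.Local
import Vale.Agent.P372.Lim.Sep2

open Matrix Kronecker
open scoped ComplexOrder MatrixOrder

set_option linter.unusedSectionVars false

namespace Vale.Agent.P372

namespace Lim

variable {A : Type} [Fintype A] [DecidableEq A]

theorem localCert_of {κ : Type} [Fintype κ] {ρ : Matrix (A × A) (A × A) ℂ}
    {S : Set (Matrix A A ℂ)} (σ : κ → Matrix (A × A) (A × A) ℂ) (α β : κ → Matrix A A ℂ)
    (h1 : ∀ τ, (σ τ).PosSemidef) (h2 : ∀ τ, (α τ).PosSemidef) (h3 : ∀ τ, (β τ).PosSemidef)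
    (h4 : ∑ τ, σ τ = ρ) (h5 : ∀ τ, ∀ M ∈ S,
      (∀ b b', ∑ a, ∑ a', (σ τ - α τ ⊗ₖ β τ) (a, b) (a', b') * M a' a = 0) ∧
      (∀ a a', ∑ b, ∑ b', (σ τ - α τ ⊗ₖ β τ) (a, b) (a', b') * M b' b = 0)) :
    LocalCert ρ S := by
  obtain ⟨e⟩ : Nonempty (κ ≃ Fin (Fintype.card κ)) := ⟨Fintype.equivFin κ⟩
  refine ⟨Fintype.card κ, fun i => σ (e.symm i), fun i => α (e.symm i), fun i => β (e.symm i),
    fun _ => h1 _, fun _ => h2 _, fun _ => h3 _, ?_, fun τ M hM => h5 _ M hM⟩
  rw [← h4]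
  exact e.symm.sum_comp σ

/-- One special piece and a separable rest. -/
theorem localCert_of_sep {R W : Matrix (A × A) (A × A) ℂ} {S : Set (Matrix A A ℂ)}
    {α β : Matrix A A ℂ} (hW : W.PosSemidef) (hα : α.PosSemidef) (hβ : β.PosSemidef)
    (hR : IsSep R) (h : ∀ M ∈ S,
      (∀ b b', ∑ a, ∑ a', (W - α ⊗ₖ β) (a, b) (a', b') * M a' a = 0) ∧
      (∀ a a', ∑ b, ∑ b', (W - α ⊗ₖ β) (a, b) (a', b') * M b' b = 0)) :
    LocalCert (W + R) S := by
  obtain ⟨n, M, N, hM, hN, rfl⟩ := hR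
  refine localCert_of (κ := Option (Fin n)) (fun o => o.elim W fun i => M i ⊗ₖ N i)
    (fun o => o.elim α M) (fun o => o.elim β N) ?_ ?_ ?_ ?_ ?_
  · intro o
    cases o with
    | none => exact hW
    | some i => exact (hM i).kronecker (hN i)
  · intro o
    cases o with
    | none => exact hα
    | some i => exact hM i
  · intro o
    cases o with
    | none => exact hβ
    | some i => exact hN i
  · rw [Fintype.sum_option]
    rfl
  · intro o L hL
    cases o with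
    | none => exact h L hL
    | some i =>
      simp only [Option.elim_some, sub_self, Matrix.zero_apply, zero_mul,
        Finset.sum_const_zero, implies_true, and_self]

theorem hs_kron_sum {r : ℕ} (b : Fin r → Matrix A A ℂ) (hb : ∀ μ, (b μ).IsHermitian)
    (horth : ∀ μ ν, (b μ * b ν).trace = if μ = ν then 1 else 0) :
    (∑ μ, b μ ⊗ₖ b μ).IsHermitian ∧ hs (∑ μ, b μ ⊗ₖ b μ) = r := by
  have h1 : (∑ μ, b μ ⊗ₖ b μ)ᴴ = ∑ μ, b μ ⊗ₖ b μ := by
    rw [conjTranspose_sum]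
    refine Finset.sum_congr rfl fun μ _ => ?_
    rw [conjTranspose_kronecker, (hb μ).eq]
  refine ⟨h1, ?_⟩
  rw [hs_eq_re, h1, Finset.sum_mul_sum, trace_sum, Complex.re_sum]
  have h2 : ∀ μ, (∑ ν, b μ ⊗ₖ b μ * b ν ⊗ₖ b ν).trace.re = 1 := by
    intro μ
    rw [trace_sum, Complex.re_sum, Finset.sum_eq_single μ]
    · rw [← mul_kronecker_mul, trace_kronecker, horth, if_pos rfl, mul_one, Complex.one_re]
    · intro ν _ hν
      rw [← mul_kronecker_mul, trace_kronecker, horth, if_neg (Ne.symm hν), mul_zero,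
        Complex.zero_re]
    · intro h
      exact absurd (Finset.mem_univ _) h
  simp only [h2, Finset.sum_const, Finset.card_univ, Fintype.card_fin, nsmul_eq_mul, mul_one]

/-- The local certificate for operators in the span of a small orthonormal family. -/
theorem low_cert {d r D : ℕ} (b : Fin r → Matrix (Fin d) (Fin d) ℂ)
    (hb : ∀ μ, (b μ).IsHermitian)
    (horth : ∀ μ ν, (b μ * b ν).trace = if μ = ν then 1 else 0) (hrD : r ≤ D) {t : ℝ}
    (ht : 0 < t) (hD : t * (1 + (1 + √2) * √D) < 1) :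
    LocalCert (1 - (t : ℂ) • Near.flip d)
      {M | ∀ i j, ∑ μ, (b μ * M).trace * b μ i j = M i j} := by
  obtain ⟨F, hF⟩ : ∃ F, F = ∑ μ, b μ ⊗ₖ b μ := ⟨_, rfl⟩
  obtain ⟨hF1, hF2⟩ := hs_kron_sum b hb horth
  rw [← hF] at hF1 hF2
  have hrD' : (r : ℝ) ≤ D := by exact_mod_cast hrD
  have hD0 : (0 : ℝ) ≤ D := by positivity
  have hs2 : √(D : ℝ) ^ 2 = D := Real.sq_sqrt hD0
  have hs0 : 0 ≤ √(D : ℝ) := Real.sqrt_nonneg _
  have h20 : 0 ≤ √(2 : ℝ) := Real.sqrt_nonneg _
  have h22 : √(2 : ℝ) ^ 2 = 2 := Real.sq_sqrt (by norm_num)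
  obtain ⟨δ, hδ⟩ : ∃ δ : ℝ, δ = t * (1 + √D) := ⟨_, rfl⟩
  obtain ⟨lam, hlam⟩ : ∃ lam : ℝ, lam = (1 - δ) / t := ⟨_, rfl⟩
  have hδ0 : 0 ≤ δ := by rw [hδ]; positivity
  have h1 : t * (√2 * √D) < 1 - δ := by
    rw [hδ]
    nlinarith only [hD]
  have h2 : √2 * √D < lam := by
    rw [hlam, lt_div_iff₀ ht]
    linarith only [h1]
  have hlam0 : 0 < lam := lt_of_le_of_lt (by positivity) h2
  have htl : t * lam = 1 - δ := by
    rw [hlam, mul_div_cancel₀ _ ht.ne']
  have h3 : 2 * (r : ℝ) < lam ^ 2 := by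
    have h4 : (√2 * √(D : ℝ)) ^ 2 < lam ^ 2 := pow_lt_pow_left₀ h2 (by positivity) (by norm_num)
    rw [mul_pow, h22, hs2] at h4
    linarith only [h4, hrD']
  have hsep := IsSep.smul' ht.le (sep_main b hb horth hlam0 h3)
  rw [← hF] at hsep
  obtain ⟨W, hW⟩ : ∃ W : Matrix (Fin d × Fin d) (Fin d × Fin d) ℂ,
      W = (t : ℂ) • ((1 - Near.flip d) + (((√D : ℝ) : ℂ) • 1 - (-F))) := ⟨_, rfl⟩
  have hWp : W.PosSemidef := by
    rw [hW]
    refine PosSemidef.smul ?_ (by exact_mod_cast ht.le)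
    refine (Near.one_sub_flip d).add (hs_bound hF1.neg hs0 ?_)
    have h5 : hs (-F) = hs F := by simp [hs]
    rw [h5, hF2, hs2]
    exact hrD'
  have hWe : W = (δ : ℂ) • 1 - (t : ℂ) • Near.flip d + (t : ℂ) • F := by
    rw [hW, hδ]
    push_cast
    rw [sub_neg_eq_add, mul_add, mul_one, add_smul, smul_add, smul_sub, smul_add, smul_smul]
    abel
  have hsum : (1 : Matrix (Fin d × Fin d) (Fin d × Fin d) ℂ) - (t : ℂ) • Near.flip d =
      W + (t : ℂ) • ((lam : ℂ) • 1 - F) := by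
    rw [hWe, smul_sub, smul_smul, ← Complex.ofReal_mul, htl]
    push_cast
    rw [sub_smul, one_smul]
    abel
  rw [hsum]
  refine localCert_of_sep (α := (δ : ℂ) • 1) (β := 1) hWp
    (PosSemidef.one.smul (by exact_mod_cast hδ0)) PosSemidef.one hsep fun M hM => ?_
  have hz : ∀ p q : Fin d × Fin d, (W - ((δ : ℂ) • (1 : Matrix (Fin d) (Fin d) ℂ)) ⊗ₖ
      (1 : Matrix (Fin d) (Fin d) ℂ)) p q =
      (t : ℂ) * (∑ μ, b μ p.1 q.1 * b μ p.2 q.2 - if p.1 = q.2 ∧ p.2 = q.1 then 1 else 0) := by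
    intro p q
    rw [smul_kronecker, one_kronecker_one, hWe, hF]
    simp only [Matrix.sub_apply, Matrix.add_apply, Matrix.smul_apply, Matrix.sum_apply,
      kroneckerMap_apply, Near.flip, smul_eq_mul]
    ring
  have hbM : ∀ c : Fin r → ℂ, ∑ a, ∑ a', (∑ μ, b μ a a' * c μ) * M a' a =
      ∑ μ, (b μ * M).trace * c μ := by
    intro c
    have htr : ∀ μ, (b μ * M).trace = ∑ a, ∑ a', b μ a a' * M a' a := by
      intro μ
      simp only [trace, diag_apply, mul_apply]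
    simp only [htr, Finset.sum_mul]
    rw [Finset.sum_comm (s := (Finset.univ : Finset (Fin r)))]
    refine Finset.sum_congr rfl fun a _ => ?_
    rw [Finset.sum_comm (s := (Finset.univ : Finset (Fin r)))]
    refine Finset.sum_congr rfl fun a' _ => Finset.sum_congr rfl fun μ _ => ?_
    ring
  have hfM : ∀ i j : Fin d, ∑ a, ∑ a', (if a = j ∧ i = a' then (1 : ℂ) else 0) * M a' a =
      M i j := by
    intro i j
    rw [Finset.sum_eq_single j, Finset.sum_eq_single i]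
    · rw [if_pos ⟨rfl, rfl⟩, one_mul]
    · intro a' _ ha'
      rw [if_neg (fun h => ha' h.2.symm), zero_mul]
    · intro h
      exact absurd (Finset.mem_univ _) h
    · intro a _ ha
      refine Finset.sum_eq_zero fun a' _ => ?_
      rw [if_neg (fun h => ha h.1), zero_mul]
    · intro h
      exact absurd (Finset.mem_univ _) h
  constructor
  · intro i j
    simp only [hz, mul_assoc, ← Finset.mul_sum]
    rw [mul_eq_zero]
    right
    simp only [sub_mul, Finset.sum_sub_distrib]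
    rw [hbM fun μ => b μ i j, hfM i j, hM i j, sub_self]
  · intro i j
    simp only [hz, mul_assoc, ← Finset.mul_sum]
    rw [mul_eq_zero]
    right
    simp only [sub_mul, Finset.sum_sub_distrib]
    have e1 : ∀ a a' : Fin d, (∑ μ, b μ i j * b μ a a') = ∑ μ, b μ a a' * b μ i j :=
      fun a a' => Finset.sum_congr rfl fun μ _ => mul_comm _ _
    have e2 : ∀ a a' : Fin d, (if i = a' ∧ a = j then (1 : ℂ) else 0) =
        if a = j ∧ i = a' then 1 else 0 := fun a a' => by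
      by_cases h1 : i = a' <;> by_cases h2 : a = j <;> simp [h1, h2]
    simp only [e1, e2]
    rw [hbM fun μ => b μ i j, hfM i j, hM i j, sub_self]

end Lim

end Vale.Agent.P372
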