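import Vale.Agent.P372.Lim.Low

open Matrix Kronecker
open scoped ComplexOrder MatrixOrder

set_option linter.unusedSectionVars false

namespace Vale.Agent.P372

namespace Lim

variable {I A : Type} [Fintype I] [DecidableEq I] [Fintype A] [DecidableEq A]

/-- `|v i⟩⟨v j|` -/
def ro (v : I → A → ℂ) (i j : I) : Matrix A A ℂ := vecMulVec (v i) (star (v j))

theorem ro_self (v : I → A → ℂ) (i : I) : (ro v i i).PosSemidef :=
  posSemidef_vecMulVec_self_star _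

/-- the antisymmetrising product vectors -/
theorem avg_sep (v : I → A → ℂ) (i j : I) :
    IsSep (ro v i i ⊗ₖ ro v i i + ro v j j ⊗ₖ ro v j j + ro v i i ⊗ₖ ro v j j +
      ro v j j ⊗ₖ ro v i i - ro v i j ⊗ₖ ro v j i - ro v j i ⊗ₖ ro v i j) := by
  have hp : ∀ ω : ℂ, IsSep (vecMulVec (v i + ω • v j) (star (v i + ω • v j)) ⊗ₖ
      vecMulVec (v i - ω • v j) (star (v i - ω • v j))) := fun ω =>
    isSep_kron (posSemidef_vecMulVec_self_star _) (posSemidef_vecMulVec_self_star _)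
  have h := IsSep.smul' (show (0 : ℝ) ≤ 1 / 4 by norm_num)
    (IsSep.add (IsSep.add (hp 1) (hp (-1))) (IsSep.add (hp Complex.I) (hp (-Complex.I))))
  refine (congrArg IsSep ?_).mp h
  ext ⟨a, b⟩ ⟨a', b'⟩
  simp only [ro, Matrix.smul_apply, Matrix.add_apply, Matrix.sub_apply, kroneckerMap_apply,
    vecMulVec_apply, Pi.star_apply, Pi.add_apply, Pi.sub_apply, Pi.smul_apply, smul_eq_mul,
    star_add, star_sub, star_mul', star_neg, star_one]
  have hI : star Complex.I = -Complex.I := Complex.conj_I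
  rw [hI]
  have hI2 : Complex.I ^ 2 = -1 := Complex.I_sq
  have hI4 : Complex.I ^ 4 = 1 := Complex.I_pow_four
  push_cast
  ring_nf
  rw [hI2, hI4]
  ring

theorem swap_sep (s : Finset I) (v : I → A → ℂ) :
    IsSep (((s.card : ℝ) : ℂ) • (∑ i ∈ s, ∑ j ∈ s, ro v i i ⊗ₖ ro v j j) -
      ∑ i ∈ s, ∑ j ∈ s, ro v i j ⊗ₖ ro v j i) := by
  rcases s.eq_empty_or_nonempty with rfl | hs
  · simp only [Finset.sum_empty, smul_zero, sub_zero]
    exact isSep_zero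
  have hc : (0 : ℝ) ≤ (s.card : ℝ) - 1 := by
    have : (1 : ℝ) ≤ s.card := by exact_mod_cast hs.card_pos
    linarith
  have h1 : IsSep (∑ i ∈ s, ∑ j ∈ s, if i = j then 0 else
      (ro v i i ⊗ₖ ro v i i + ro v j j ⊗ₖ ro v j j + ro v i i ⊗ₖ ro v j j +
      ro v j j ⊗ₖ ro v i i - ro v i j ⊗ₖ ro v j i - ro v j i ⊗ₖ ro v i j)) := by
    refine IsSep.sum _ _ fun i => IsSep.sum _ _ fun j => ?_
    split_ifs
    · exact isSep_zero
    · exact avg_sep v i j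
  have h2 : IsSep (∑ i ∈ s, ∑ j ∈ s, if i = j then 0 else ro v i i ⊗ₖ ro v j j) := by
    refine IsSep.sum _ _ fun i => IsSep.sum _ _ fun j => ?_
    split_ifs
    · exact isSep_zero
    · exact isSep_kron (ro_self v i) (ro_self v j)
  have h := IsSep.add (IsSep.smul' (show (0 : ℝ) ≤ 1 / 2 by norm_num) h1) (IsSep.smul' hc h2)
  refine (congrArg IsSep ?_).mp h
  have hoff : ∀ X : I → I → Matrix (A × A) (A × A) ℂ,
      (∑ i ∈ s, ∑ j ∈ s, if i = j then 0 else X i j) = ∑ i ∈ s, ∑ j ∈ s, X i j - ∑ i ∈ s, X i i := by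
    intro X
    rw [← Finset.sum_sub_distrib]
    refine Finset.sum_congr rfl fun i hi => ?_
    have h3 : ∀ j, (if i = j then (0 : Matrix (A × A) (A × A) ℂ) else X i j) =
        X i j - if i = j then X i j else 0 := by
      intro j
      split_ifs <;> simp
    simp only [h3, Finset.sum_sub_distrib, Finset.sum_ite_eq, if_pos hi]
  rw [hoff, hoff]
  obtain ⟨G, hG⟩ : ∃ G : I → I → Matrix (A × A) (A × A) ℂ, G = fun i j => ro v i i ⊗ₖ ro v j j :=
    ⟨_, rfl⟩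
  obtain ⟨H, hH⟩ : ∃ H : I → I → Matrix (A × A) (A × A) ℂ, H = fun i j => ro v i j ⊗ₖ ro v j i :=
    ⟨_, rfl⟩
  have e1 : ∀ i j, ro v i i ⊗ₖ ro v j j = G i j := fun i j => by rw [hG]
  have e2 : ∀ i j, ro v i j ⊗ₖ ro v j i = H i j := fun i j => by rw [hH]
  simp only [e1, e2]
  have e4 : ∑ i ∈ s, ∑ j ∈ s, G j i = ∑ i ∈ s, ∑ j ∈ s, G i j := Finset.sum_comm
  have e5 : ∑ i ∈ s, ∑ j ∈ s, H j i = ∑ i ∈ s, ∑ j ∈ s, H i j := Finset.sum_comm
  have e6 : ∑ i ∈ s, ∑ _j ∈ s, G i i = ((s.card : ℝ) : ℂ) • ∑ i ∈ s, G i i := by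
    simp only [Finset.sum_const, Finset.smul_sum]
    refine Finset.sum_congr rfl fun i _ => ?_
    rw [← Nat.cast_smul_eq_nsmul ℂ]
    push_cast
    rfl
  have e7 : ∑ _i ∈ s, ∑ j ∈ s, G j j = ((s.card : ℝ) : ℂ) • ∑ i ∈ s, G i i := by
    rw [Finset.sum_const, ← Nat.cast_smul_eq_nsmul ℂ]
    push_cast
    rfl
  simp only [Finset.sum_add_distrib, Finset.sum_sub_distrib, e4, e5, e6, e7]
  generalize ∑ i ∈ s, ∑ j ∈ s, G i j = GG
  generalize ∑ i ∈ s, ∑ j ∈ s, H i j = HH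
  generalize ∑ i ∈ s, G i i = G0
  ext p q
  simp only [Matrix.add_apply, Matrix.smul_apply, Matrix.sub_apply, smul_eq_mul]
  push_cast
  ring

/-- a Hermitian idempotent in an orthonormal eigenbasis -/
theorem proj_basis {S : Matrix A A ℂ} (h1 : Sᴴ = S) (h2 : S * S = S) (h3 : S ≠ 0) (h4 : S ≠ 1) :
    ∃ (v : A → A → ℂ) (s : Finset A), 0 < s.card ∧ 0 < sᶜ.card ∧
      (∀ a b, ∑ i, v i a * star (v i b) = if a = b then 1 else 0) ∧
      (∀ i ∈ s, S *ᵥ v i = v i) ∧ (∀ i ∈ sᶜ, S *ᵥ v i = 0) ∧ S = ∑ i ∈ s, ro v i i := by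
  have hS : S.IsHermitian := h1
  obtain ⟨U, hU⟩ : ∃ U : Matrix A A ℂ, U = (hS.eigenvectorUnitary : Matrix A A ℂ) := ⟨_, rfl⟩
  have hUU : U * Uᴴ = 1 := by rw [hU]; exact eigU_mul hS
  have hUU' : Uᴴ * U = 1 := by rw [hU]; exact eigU_mul' hS
  obtain ⟨l, hl⟩ : ∃ l : A → ℂ, l = fun i => (hS.eigenvalues i : ℂ) := ⟨_, rfl⟩
  have hSU : S = U * diagonal l * Uᴴ := by rw [hU, hl]; exact spectral_eq hS
  have hl2 : ∀ i, l i * l i = l i := by
    have h5 : Uᴴ * (S * S) * U = Uᴴ * S * U := by rw [h2]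
    have h6 : Uᴴ * (S * S) * U = diagonal l * diagonal l := by
      rw [hSU]
      calc Uᴴ * (U * diagonal l * Uᴴ * (U * diagonal l * Uᴴ)) * U
          = (Uᴴ * U) * diagonal l * (Uᴴ * U) * diagonal l * (Uᴴ * U) := by
            simp only [Matrix.mul_assoc]
        _ = _ := by rw [hUU', one_mul, mul_one, mul_one]
    have h7 : Uᴴ * S * U = diagonal l := by
      rw [hSU]
      calc Uᴴ * (U * diagonal l * Uᴴ) * U = (Uᴴ * U) * diagonal l * (Uᴴ * U) := by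
            simp only [Matrix.mul_assoc]
        _ = _ := by rw [hUU', one_mul, mul_one]
    rw [h6, h7, diagonal_mul_diagonal] at h5
    intro i
    have := congrArg (fun N : Matrix A A ℂ => N i i) h5
    simpa using this
  have hl01 : ∀ i, l i = 0 ∨ l i = 1 := by
    intro i
    have h5 : l i * (l i - 1) = 0 := by rw [mul_sub, hl2, mul_one, sub_self]
    rcases mul_eq_zero.mp h5 with h | h
    · exact Or.inl h
    · exact Or.inr (sub_eq_zero.mp h)
  have hSv : ∀ i, S *ᵥ (fun a => U a i) = l i • fun a => U a i := by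
    intro i
    have h5 : S * U = U * diagonal l := by
      rw [hSU, Matrix.mul_assoc, hUU', mul_one]
    ext a
    have h6 := congrArg (fun N : Matrix A A ℂ => N a i) h5
    simp only [mul_diagonal] at h6
    rw [Pi.smul_apply, smul_eq_mul, mul_comm, ← h6]
    rfl
  obtain ⟨s, hs⟩ : ∃ s : Finset A, s = Finset.univ.filter fun i => l i = 1 := ⟨_, rfl⟩
  have hSs : S = ∑ i ∈ s, ro (fun i a => U a i) i i := by
    have h5 : S = ∑ i, l i • ro (fun i a => U a i) i i := by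
      rw [hSU]
      ext a b
      rw [mul_apply]
      simp only [mul_diagonal, conjTranspose_apply, Matrix.sum_apply, Matrix.smul_apply, ro,
        vecMulVec_apply, Pi.star_apply, smul_eq_mul]
      refine Finset.sum_congr rfl fun i _ => ?_
      ring
    rw [h5, hs, Finset.sum_filter]
    refine Finset.sum_congr rfl fun i _ => ?_
    rcases hl01 i with h | h
    · rw [h, zero_smul, if_neg zero_ne_one]
    · rw [h, one_smul, if_pos rfl]
  have hcomp : ∀ a b, ∑ i, U a i * star (U b i) = if a = b then 1 else 0 := by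
    intro a b
    have := congrArg (fun N : Matrix A A ℂ => N a b) hUU
    simp only [mul_apply, conjTranspose_apply, one_apply] at this
    exact this
  refine ⟨fun i a => U a i, s, ?_, ?_, hcomp, ?_, ?_, hSs⟩
  · rw [Finset.card_pos, Finset.nonempty_iff_ne_empty]
    intro h
    apply h3
    rw [hSs, h, Finset.sum_empty]
  · rw [Finset.card_pos, Finset.nonempty_iff_ne_empty]
    intro h
    apply h4
    rw [Finset.compl_eq_empty_iff] at h
    rw [hSs, h]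
    ext a b
    rw [Matrix.sum_apply, one_apply, ← hcomp a b]
    rfl
  · intro i hi
    rw [hs, Finset.mem_filter] at hi
    rw [hSv, hi.2, one_smul]
  · intro i hi
    rw [hs, Finset.mem_compl, Finset.mem_filter, not_and] at hi
    rw [hSv, (hl01 i).resolve_right (hi (Finset.mem_univ _)), zero_smul]

theorem anti_posSemidef (v : I → A → ℂ) (i j : I) :
    (ro v i i ⊗ₖ ro v j j + ro v j j ⊗ₖ ro v i i - ro v i j ⊗ₖ ro v j i -
      ro v j i ⊗ₖ ro v i j).PosSemidef := by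
  have h := posSemidef_vecMulVec_self_star
    (fun p : A × A => v i p.1 * v j p.2 - v j p.1 * v i p.2)
  refine (congrArg PosSemidef ?_).mp h
  ext ⟨a, b⟩ ⟨a', b'⟩
  simp only [ro, Matrix.add_apply, Matrix.sub_apply, kroneckerMap_apply, vecMulVec_apply,
    Pi.star_apply, star_sub, star_mul']
  ring

/-- The local certificate for operators commuting with a projection. -/
theorem proj_cert {d : ℕ} {S : Matrix (Fin d) (Fin d) ℂ} (h1 : Sᴴ = S) (h2 : S * S = S)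
    (h3 : S ≠ 0) (h4 : S ≠ 1) {t : ℝ} (ht : 0 < t) (ht1 : t < 1)
    (hd : d * t ≤ 1 + (d - 2) * t ^ 2) :
    LocalCert (1 - (t : ℂ) • Near.flip d) {M | M * S = S * M} := by
  obtain ⟨v, s, hs, hs', hcomp, hv, hv', hS⟩ := proj_basis h1 h2 h3 h4
  obtain ⟨m, hm⟩ : ∃ m : ℝ, m = s.card := ⟨_, rfl⟩
  obtain ⟨m', hm'⟩ : ∃ m' : ℝ, m' = sᶜ.card := ⟨_, rfl⟩
  have hm1 : 1 ≤ m := by rw [hm]; exact_mod_cast hs
  have hm1' : 1 ≤ m' := by rw [hm']; exact_mod_cast hs'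
  have hmm : m + m' = d := by
    rw [hm, hm']
    have := Finset.card_add_card_compl s
    rw [Fintype.card_fin] at this
    exact_mod_cast this
  have hprod : t ^ 2 ≤ (1 - m * t) * (1 - m' * t) := by
    have h5 : (d : ℝ) - 1 ≤ m * m' := by nlinarith only [hm1, hm1', hmm]
    have h6 : (1 - m * t) * (1 - m' * t) = 1 - d * t + m * m' * t ^ 2 := by rw [← hmm]; ring
    rw [h6]
    nlinarith only [hd, h5, sq_nonneg t]
  have hlast : 0 < 1 - (d - 1) * t := by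
    have h5 : t ^ 2 ≤ (1 - t) * (1 - (d - 1) * t) := by nlinarith only [hd]
    by_contra hcon
    push Not at hcon
    nlinarith only [h5, hcon, ht, ht1]
  have hX : 0 < 1 - m * t := by nlinarith only [hlast, ht, hmm, hm1']
  have hY : 0 < 1 - m' * t := by nlinarith only [hlast, ht, hmm, hm1]
  obtain ⟨x, hx⟩ : ∃ x : ℝ, x = √(1 - m * t) := ⟨_, rfl⟩
  have hx0 : 0 < x := by rw [hx]; exact Real.sqrt_pos.mpr hX
  have hx2 : x ^ 2 = 1 - m * t := by rw [hx]; exact Real.sq_sqrt hX.le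
  obtain ⟨y, hy⟩ : ∃ y : ℝ, y = t / x := ⟨_, rfl⟩
  have hy0 : 0 < y := by rw [hy]; positivity
  have hxy : x * y = t := by rw [hy, mul_div_cancel₀ _ hx0.ne']
  have hy2 : y ^ 2 ≤ 1 - m' * t := by
    have h5 : x ^ 2 * y ^ 2 = t ^ 2 := by rw [← mul_pow, hxy]
    rw [hx2] at h5
    by_contra hcon
    push Not at hcon
    nlinarith only [h5, hprod, mul_lt_mul_of_pos_left hcon hX]
  obtain ⟨G, hG⟩ : ∃ G : Fin d → Fin d → Matrix (Fin d × Fin d) (Fin d × Fin d) ℂ,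
      G = fun i j => ro v i i ⊗ₖ ro v j j := ⟨_, rfl⟩
  obtain ⟨H, hH⟩ : ∃ H : Fin d → Fin d → Matrix (Fin d × Fin d) (Fin d × Fin d) ℂ,
      H = fun i j => ro v i j ⊗ₖ ro v j i := ⟨_, rfl⟩
  have hone : (1 : Matrix (Fin d × Fin d) (Fin d × Fin d) ℂ) = ∑ i, ∑ j, G i j := by
    ext ⟨a, b⟩ ⟨a', b'⟩
    rw [hG]
    simp only [Matrix.sum_apply, kroneckerMap_apply, ro, vecMulVec_apply, Pi.star_apply,
      ← Finset.mul_sum, ← Finset.sum_mul]
    rw [hcomp, hcomp, one_apply]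
    by_cases h5 : a = a' <;> by_cases h6 : b = b' <;> simp [h5, h6]
  have hflip : Near.flip d = ∑ i, ∑ j, H i j := by
    ext ⟨a, b⟩ ⟨a', b'⟩
    rw [hH]
    simp only [Matrix.sum_apply, kroneckerMap_apply, ro, vecMulVec_apply, Pi.star_apply]
    have h5 : ∀ i j, v i a * star (v j a') * (v j b * star (v i b')) =
        (v i a * star (v i b')) * (v j b * star (v j a')) := fun i j => by ring
    simp only [h5, ← Finset.mul_sum, ← Finset.sum_mul]
    rw [hcomp, hcomp, Near.flip]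
    by_cases h5 : a = b' <;> by_cases h6 : b = a' <;> simp [h5, h6]
  have hsplit : ∀ X : Fin d → Fin d → Matrix (Fin d × Fin d) (Fin d × Fin d) ℂ,
      ∑ i, ∑ j, X i j = ∑ i ∈ s, ∑ j ∈ s, X i j + ∑ i ∈ s, ∑ j ∈ sᶜ, X i j +
        (∑ i ∈ s, ∑ j ∈ sᶜ, X j i + ∑ i ∈ sᶜ, ∑ j ∈ sᶜ, X i j) := by
    intro X
    rw [← Finset.sum_add_sum_compl s]
    have h5 : ∀ i, ∑ j, X i j = ∑ j ∈ s, X i j + ∑ j ∈ sᶜ, X i j := fun i =>
      (Finset.sum_add_sum_compl s _).symm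
    simp only [h5, Finset.sum_add_distrib]
    rw [Finset.sum_comm (s := sᶜ) (t := s)]
  rw [hsplit] at hone hflip
  -- the special piece
  obtain ⟨W, hW⟩ : ∃ W : Matrix (Fin d × Fin d) (Fin d × Fin d) ℂ,
      W = ((x ^ 2 : ℝ) : ℂ) • (∑ i ∈ s, ∑ j ∈ s, G i j) +
        ((y ^ 2 : ℝ) : ℂ) • (∑ i ∈ sᶜ, ∑ j ∈ sᶜ, G i j) +
        (t : ℂ) • ∑ i ∈ s, ∑ j ∈ sᶜ, (G i j + G j i - H i j - H j i) := ⟨_, rfl⟩
  have hGp : ∀ i j, (G i j).PosSemidef := fun i j => by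
    rw [hG]
    exact (ro_self v i).kronecker (ro_self v j)
  have hWp : W.PosSemidef := by
    rw [hW]
    refine ((PosSemidef.smul (posSemidef_sum _ fun i _ => posSemidef_sum _ fun j _ => hGp i j)
      (by exact_mod_cast sq_nonneg x)).add (PosSemidef.smul (posSemidef_sum _ fun i _ =>
        posSemidef_sum _ fun j _ => hGp i j) (by exact_mod_cast sq_nonneg y))).add
          (PosSemidef.smul (posSemidef_sum _ fun i _ => posSemidef_sum _ fun j _ => ?_)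
            (by exact_mod_cast ht.le))
    rw [hG, hH]
    exact anti_posSemidef v i j
  obtain ⟨α, hα⟩ : ∃ α : Matrix (Fin d) (Fin d) ℂ,
      α = (x : ℂ) • (∑ i ∈ s, ro v i i) + (y : ℂ) • ∑ i ∈ sᶜ, ro v i i := ⟨_, rfl⟩
  have hαp : α.PosSemidef := by
    rw [hα]
    exact (PosSemidef.smul (posSemidef_sum _ fun i _ => ro_self v i)
      (by exact_mod_cast hx0.le)).add (PosSemidef.smul (posSemidef_sum _ fun i _ => ro_self v i)
        (by exact_mod_cast hy0.le))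
  have hkr : ∀ s₁ s₂ : Finset (Fin d), (∑ i ∈ s₁, ro v i i) ⊗ₖ (∑ j ∈ s₂, ro v j j) =
      ∑ i ∈ s₁, ∑ j ∈ s₂, G i j := by
    intro s₁ s₂
    ext ⟨a, b⟩ ⟨a', b'⟩
    rw [hG]
    simp only [kroneckerMap_apply, Matrix.sum_apply, Finset.sum_mul_sum]
  have hαα : α ⊗ₖ α = ((x ^ 2 : ℝ) : ℂ) • (∑ i ∈ s, ∑ j ∈ s, G i j) +
      ((y ^ 2 : ℝ) : ℂ) • (∑ i ∈ sᶜ, ∑ j ∈ sᶜ, G i j) +
      (t : ℂ) • ∑ i ∈ s, ∑ j ∈ sᶜ, (G i j + G j i) := by
    have h5 : ∑ i ∈ s, ∑ j ∈ sᶜ, G j i = ∑ i ∈ sᶜ, ∑ j ∈ s, G i j := Finset.sum_comm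
    simp only [Finset.sum_add_distrib]
    rw [h5, ← hkr, ← hkr, ← hkr, ← hkr, hα, ← hxy]
    generalize (∑ i ∈ s, ro v i i) = Z
    generalize (∑ i ∈ sᶜ, ro v i i) = Z'
    ext p q
    simp only [kroneckerMap_apply, Matrix.add_apply, Matrix.smul_apply, smul_eq_mul]
    push_cast
    ring
  have hdiff : W - α ⊗ₖ α = -((t : ℂ) • ∑ i ∈ s, ∑ j ∈ sᶜ, (H i j + H j i)) := by
    rw [hαα, hW]
    simp only [Finset.sum_add_distrib, Finset.sum_sub_distrib, smul_add, smul_sub]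
    abel
  -- the separable rest
  have hR : IsSep ((((1 - t : ℝ)) : ℂ) • (∑ i ∈ s, ∑ j ∈ sᶜ, (G i j + G j i)) +
      ((t : ℂ) • (((s.card : ℝ) : ℂ) • (∑ i ∈ s, ∑ j ∈ s, ro v i i ⊗ₖ ro v j j) -
        ∑ i ∈ s, ∑ j ∈ s, ro v i j ⊗ₖ ro v j i) +
      ((t : ℂ) • (((sᶜ.card : ℝ) : ℂ) • (∑ i ∈ sᶜ, ∑ j ∈ sᶜ, ro v i i ⊗ₖ ro v j j) -
        ∑ i ∈ sᶜ, ∑ j ∈ sᶜ, ro v i j ⊗ₖ ro v j i) +
      (((1 - m' * t - y ^ 2 : ℝ) : ℂ) • (∑ i ∈ sᶜ, ∑ j ∈ sᶜ, G i j))))) := by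
    have hGs : ∀ i j, IsSep (G i j) := fun i j => by
      rw [hG]
      exact isSep_kron (ro_self v i) (ro_self v j)
    refine IsSep.add (IsSep.smul' (by linarith) (IsSep.sum _ _ fun i => IsSep.sum _ _ fun j =>
      IsSep.add (hGs i j) (hGs j i))) (IsSep.add (IsSep.smul' ht.le (swap_sep s v))
        (IsSep.add (IsSep.smul' ht.le (swap_sep sᶜ v)) (IsSep.smul' (by linarith)
          (IsSep.sum _ _ fun i => IsSep.sum _ _ fun j => hGs i j))))
  have e1 : ∀ i j, ro v i i ⊗ₖ ro v j j = G i j := fun i j => by rw [hG]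
  have e2 : ∀ i j, ro v i j ⊗ₖ ro v j i = H i j := fun i j => by rw [hH]
  simp only [e1, e2, ← hm, ← hm'] at hR
  have htot : (1 : Matrix (Fin d × Fin d) (Fin d × Fin d) ℂ) - (t : ℂ) • Near.flip d = W +
      ((((1 - t : ℝ)) : ℂ) • (∑ i ∈ s, ∑ j ∈ sᶜ, (G i j + G j i)) +
      ((t : ℂ) • ((m : ℂ) • (∑ i ∈ s, ∑ j ∈ s, G i j) - ∑ i ∈ s, ∑ j ∈ s, H i j) +
      ((t : ℂ) • ((m' : ℂ) • (∑ i ∈ sᶜ, ∑ j ∈ sᶜ, G i j) - ∑ i ∈ sᶜ, ∑ j ∈ sᶜ, H i j) +
      (((1 - m' * t - y ^ 2 : ℝ) : ℂ) • (∑ i ∈ sᶜ, ∑ j ∈ sᶜ, G i j))))) := by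
    rw [hone, hflip, hW, hx2]
    simp only [Finset.sum_add_distrib, Finset.sum_sub_distrib]
    generalize ∑ i ∈ s, ∑ j ∈ s, G i j = Gss
    generalize ∑ i ∈ sᶜ, ∑ j ∈ sᶜ, G i j = Gcc
    generalize ∑ i ∈ s, ∑ j ∈ sᶜ, G i j = Gsc
    generalize ∑ i ∈ s, ∑ j ∈ sᶜ, G j i = Gcs
    generalize ∑ i ∈ s, ∑ j ∈ s, H i j = Hss
    generalize ∑ i ∈ sᶜ, ∑ j ∈ sᶜ, H i j = Hcc
    generalize ∑ i ∈ s, ∑ j ∈ sᶜ, H i j = Hsc
    generalize ∑ i ∈ s, ∑ j ∈ sᶜ, H j i = Hcs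
    ext p q
    simp only [Matrix.add_apply, Matrix.smul_apply, Matrix.sub_apply, smul_eq_mul]
    push_cast
    ring
  rw [htot]
  refine localCert_of_sep hWp hαp hαp hR fun M hM => ?_
  change M * S = S * M at hM
  rw [hdiff]
  have hor : ∀ i j, (i ∈ s ∧ j ∈ sᶜ) ∨ (i ∈ sᶜ ∧ j ∈ s) → star (v j) ⬝ᵥ (M *ᵥ v i) = 0 := by
    intro i j hij
    have hst : ∀ j, star (S *ᵥ v j) = star (v j) ᵥ* S := fun j => by rw [star_mulVec, h1]
    rcases hij with ⟨hi, hj⟩ | ⟨hi, hj⟩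
    · rw [← hv i hi, mulVec_mulVec, hM, ← mulVec_mulVec, dotProduct_mulVec, ← hst, hv' j hj,
        star_zero, zero_dotProduct]
    · rw [← hv j hj, hst, ← dotProduct_mulVec, mulVec_mulVec, ← hM, ← mulVec_mulVec, hv' i hi,
        mulVec_zero, dotProduct_zero]
  have hpair : ∀ i j, ∑ a, ∑ a', ro v i j a a' * M a' a = star (v j) ⬝ᵥ (M *ᵥ v i) := by
    intro i j
    rw [Finset.sum_comm]
    simp only [ro, vecMulVec_apply, dotProduct, mulVec, Finset.mul_sum, Pi.star_apply]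
    refine Finset.sum_congr rfl fun a' _ => Finset.sum_congr rfl fun a _ => ?_
    ring
  have hzero : ∀ i ∈ s, ∀ j ∈ sᶜ, ∀ c c' : ℂ,
      ∑ a, ∑ a', (ro v i j a a' * c + ro v j i a a' * c') * M a' a = 0 := by
    intro i hi j hj c c'
    have h5 : ∀ a a', (ro v i j a a' * c + ro v j i a a' * c') * M a' a =
        c * (ro v i j a a' * M a' a) + c' * (ro v j i a a' * M a' a) := fun a a' => by ring
    simp only [h5, Finset.sum_add_distrib, ← Finset.mul_sum]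
    rw [hpair, hpair, hor i j (Or.inl ⟨hi, hj⟩), hor j i (Or.inr ⟨hj, hi⟩), mul_zero, mul_zero,
      add_zero]
  constructor
  · intro b b'
    obtain ⟨φ, hφ⟩ : ∃ φ : Matrix (Fin d × Fin d) (Fin d × Fin d) ℂ →ₗ[ℂ] ℂ,
        ∀ ζ, φ ζ = ∑ a, ∑ a', ζ (a, b) (a', b') * M a' a :=
      ⟨{ toFun := fun ζ => ∑ a, ∑ a', ζ (a, b) (a', b') * M a' a
         map_add' := fun ζ ξ => by simp only [Matrix.add_apply, add_mul, Finset.sum_add_distrib]
         map_smul' := fun c ζ => by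
          simp only [Matrix.smul_apply, smul_eq_mul, mul_assoc, Finset.mul_sum, RingHom.id_apply] },
        fun _ => rfl⟩
    rw [← hφ, map_neg, map_smul, map_sum, Finset.sum_eq_zero, smul_zero, neg_zero]
    intro i hi
    rw [map_sum]
    refine Finset.sum_eq_zero fun j hj => ?_
    rw [hφ, hH]
    simp only [Matrix.add_apply, kroneckerMap_apply]
    exact hzero i hi j hj _ _
  · intro b b'
    obtain ⟨φ, hφ⟩ : ∃ φ : Matrix (Fin d × Fin d) (Fin d × Fin d) ℂ →ₗ[ℂ] ℂ,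
        ∀ ζ, φ ζ = ∑ a, ∑ a', ζ (b, a) (b', a') * M a' a :=
      ⟨{ toFun := fun ζ => ∑ a, ∑ a', ζ (b, a) (b', a') * M a' a
         map_add' := fun ζ ξ => by simp only [Matrix.add_apply, add_mul, Finset.sum_add_distrib]
         map_smul' := fun c ζ => by
          simp only [Matrix.smul_apply, smul_eq_mul, mul_assoc, Finset.mul_sum, RingHom.id_apply] },
        fun _ => rfl⟩
    rw [← hφ, map_neg, map_smul, map_sum, Finset.sum_eq_zero, smul_zero, neg_zero]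
    intro i hi
    rw [map_sum]
    refine Finset.sum_eq_zero fun j hj => ?_
    rw [hφ, hH]
    have h5 : ∀ a a', (ro v i j ⊗ₖ ro v j i + ro v j i ⊗ₖ ro v i j) (b, a) (b', a') * M a' a =
        (ro v i j a a' * ro v j i b b' + ro v j i a a' * ro v i j b b') * M a' a := by
      intro a a'
      simp only [Matrix.add_apply, kroneckerMap_apply]
      ring
    simp only [h5]
    exact hzero i hi j hj _ _

end Lim

end Vale.Agent.P372
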