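import Vale.Agent.P372.Lim.Core

open Matrix Kronecker
open scoped ComplexOrder MatrixOrder

set_option linter.unusedSectionVars false

namespace Vale.Agent.P372

namespace Lim

variable {A : Type} [Fintype A] [DecidableEq A]

/-- A self-adjoint set of matrices in the span of `D` matrices lies in the span of at most `D`
orthonormal Hermitian matrices. -/
theorem exists_herm_basis {D : ℕ} (B : Fin D → Matrix A A ℂ) (G : Set (Matrix A A ℂ))
    (hG : ∀ M ∈ G, Mᴴ ∈ G) (hB : ∀ M ∈ G, M ∈ Submodule.span ℂ (Set.range B)) :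
    ∃ (r : ℕ) (b : Fin r → Matrix A A ℂ), r ≤ D ∧ (∀ μ, (b μ).IsHermitian) ∧
      (∀ μ ν, (b μ * b ν).trace = if μ = ν then 1 else 0) ∧
      ∀ M ∈ G, ∀ i j, ∑ μ, (b μ * M).trace * b μ i j = M i j := by
  obtain ⟨V, hV⟩ : ∃ V, V = Submodule.span ℂ G := ⟨_, rfl⟩
  have hVB : V ≤ Submodule.span ℂ (Set.range B) := by
    rw [hV, Submodule.span_le]
    exact hB
  have hVstar : ∀ M ∈ V, Mᴴ ∈ V := by
    intro M hM
    rw [hV] at hM
    induction hM using Submodule.span_induction with
    | mem x hx => rw [hV]; exact Submodule.subset_span (hG x hx)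
    | zero => rw [conjTranspose_zero]; exact V.zero_mem
    | add x y _ _ hx hy => rw [conjTranspose_add]; exact V.add_mem hx hy
    | smul c x _ hx => rw [conjTranspose_smul]; exact V.smul_mem _ hx
  obtain ⟨P, hP⟩ : ∃ P : ℕ → Prop, P = fun r => ∃ b : Fin r → Matrix A A ℂ,
      (∀ μ, (b μ).IsHermitian) ∧ (∀ μ, b μ ∈ V) ∧
      (∀ μ ν, (b μ * b ν).trace = if μ = ν then 1 else 0) := ⟨_, rfl⟩
  have hPD : ∀ r, P r → r ≤ D := by
    intro r hr
    rw [hP] at hr
    obtain ⟨b, -, h2, h3⟩ := hr
    have hli : LinearIndependent ℂ fun μ => (⟨b μ, h2 μ⟩ : V) := by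
      rw [Fintype.linearIndependent_iff]
      intro c hc ν
      have h4 : ∑ μ, c μ • b μ = 0 := by
        have := congrArg Subtype.val hc
        simpa using this
      have h5 : (b ν * ∑ μ, c μ • b μ).trace = c ν := by
        rw [Finset.mul_sum, trace_sum, Finset.sum_eq_single ν]
        · rw [Matrix.mul_smul, trace_smul, h3, if_pos rfl, smul_eq_mul, mul_one]
        · intro μ _ hμ
          rw [Matrix.mul_smul, trace_smul, h3, if_neg (Ne.symm hμ), smul_zero]
        · intro h
          exact absurd (Finset.mem_univ _) h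
      rw [← h5, h4, Matrix.mul_zero, trace_zero]
    have h6 := hli.fintype_card_le_finrank
    rw [Fintype.card_fin] at h6
    have h7 : Module.finrank ℂ V ≤ Module.finrank ℂ (Submodule.span ℂ (Set.range B)) :=
      Submodule.finrank_mono hVB
    have h8 := finrank_range_le_card (R := ℂ) B
    rw [Fintype.card_fin] at h8
    exact h6.trans (h7.trans h8)
  obtain ⟨r, hr, hr'⟩ : ∃ r, P r ∧ ¬ P (r + 1) := by
    by_contra hcon
    push Not at hcon
    have hall : ∀ r, P r := by
      intro r
      induction r with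
      | zero =>
        rw [hP]
        exact ⟨fun μ => μ.elim0, fun μ => μ.elim0, fun μ => μ.elim0, fun μ => μ.elim0⟩
      | succ r ih => exact hcon r ih
    have := hPD (D + 1) (hall _)
    omega
  have hrD := hPD r hr
  rw [hP] at hr hr'
  obtain ⟨b, h1, h2, h3⟩ := hr
  -- a Hermitian element of `V` orthogonal to the family vanishes
  have hmax : ∀ R ∈ V, R.IsHermitian → (∀ μ, (b μ * R).trace = 0) → R = 0 := by
    intro R hR hRh hRo
    by_contra hne
    have hpos : 0 < hs R := by
      rcases (hs_nonneg R).lt_or_eq with h | h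
      · exact h
      · exfalso
        apply hne
        ext i j
        have h4 : ∑ i, ∑ j, ‖R i j‖ ^ 2 = 0 := h.symm
        have h5 := (Finset.sum_eq_zero_iff_of_nonneg fun i _ =>
          Finset.sum_nonneg fun j _ => sq_nonneg _).mp h4 i (Finset.mem_univ _)
        have h6 := (Finset.sum_eq_zero_iff_of_nonneg fun j _ => sq_nonneg _).mp h5 j
          (Finset.mem_univ _)
        simpa using h6
    obtain ⟨c, hc⟩ : ∃ c : ℝ, c = (√(hs R))⁻¹ := ⟨_, rfl⟩
    have hc2 : c * c * hs R = 1 := by
      rw [hc, ← mul_inv, Real.mul_self_sqrt hpos.le, inv_mul_cancel₀ hpos.ne']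
    have hRR : (R * R).trace = ((hs R : ℝ) : ℂ) := by
      rw [← trace_conjTranspose_mul_self, hRh.eq]
    apply hr'
    refine ⟨Fin.cons ((c : ℂ) • R) b, ?_, ?_, ?_⟩
    · intro μ
      refine Fin.cases ?_ (fun μ => ?_) μ
      · rw [Fin.cons_zero, IsHermitian, conjTranspose_smul, hRh.eq, Complex.star_def,
          Complex.conj_ofReal]
      · rw [Fin.cons_succ]; exact h1 μ
    · intro μ
      refine Fin.cases ?_ (fun μ => ?_) μ
      · rw [Fin.cons_zero]; exact V.smul_mem _ hR
      · rw [Fin.cons_succ]; exact h2 μ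
    · intro μ ν
      refine Fin.cases ?_ (fun μ => ?_) μ
      · refine Fin.cases ?_ (fun ν => ?_) ν
        · rw [Fin.cons_zero, smul_mul_smul_comm, trace_smul, hRR, if_pos rfl, smul_eq_mul,
            ← Complex.ofReal_mul, ← Complex.ofReal_mul, hc2, Complex.ofReal_one]
        · rw [Fin.cons_zero, Fin.cons_succ, Matrix.smul_mul, trace_smul, trace_mul_comm, hRo,
            smul_zero, if_neg (Fin.succ_ne_zero ν).symm]
      · refine Fin.cases ?_ (fun ν => ?_) ν
        · rw [Fin.cons_zero, Fin.cons_succ, Matrix.mul_smul, trace_smul, hRo,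
            smul_zero, if_neg (Fin.succ_ne_zero μ)]
        · rw [Fin.cons_succ, Fin.cons_succ, h3]
          simp only [Fin.succ_inj]
  refine ⟨r, b, hrD, h1, h3, fun M hM i j => ?_⟩
  have hMV : M ∈ V := by rw [hV]; exact Submodule.subset_span hM
  obtain ⟨R, hR⟩ : ∃ R, R = M - ∑ μ, (b μ * M).trace • b μ := ⟨_, rfl⟩
  have hRV : R ∈ V := by
    rw [hR]
    exact V.sub_mem hMV (V.sum_mem fun μ _ => V.smul_mem _ (h2 μ))
  have hRo : ∀ μ, (b μ * R).trace = 0 := by
    intro μ
    rw [hR, Matrix.mul_sub, trace_sub, Finset.mul_sum, trace_sum, Finset.sum_eq_single μ]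
    · rw [Matrix.mul_smul, trace_smul, h3, if_pos rfl, smul_eq_mul, mul_one, sub_self]
    · intro ν _ hν
      rw [Matrix.mul_smul, trace_smul, h3, if_neg (Ne.symm hν), smul_zero]
    · intro h
      exact absurd (Finset.mem_univ _) h
  have hRo' : ∀ μ, (b μ * Rᴴ).trace = 0 := by
    intro μ
    have h4 : (b μ * Rᴴ) = (R * b μ)ᴴ := by rw [conjTranspose_mul, (h1 μ).eq]
    rw [h4, trace_conjTranspose, trace_mul_comm, hRo, star_zero]
  have e1 : R + Rᴴ = 0 := by
    refine hmax _ (V.add_mem hRV (hVstar R hRV)) ?_ fun μ => ?_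
    · rw [IsHermitian, conjTranspose_add, conjTranspose_conjTranspose, add_comm]
    · rw [Matrix.mul_add, trace_add, hRo, hRo', add_zero]
  have e2 : Complex.I • (R - Rᴴ) = 0 := by
    refine hmax _ (V.smul_mem _ (V.sub_mem hRV (hVstar R hRV))) ?_ fun μ => ?_
    · rw [IsHermitian, conjTranspose_smul, conjTranspose_sub, conjTranspose_conjTranspose,
        Complex.star_def, Complex.conj_I, neg_smul, ← smul_neg, neg_sub]
    · rw [Matrix.mul_smul, trace_smul, Matrix.mul_sub, trace_sub, hRo, hRo', sub_self, smul_zero]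
  have e3 : R - Rᴴ = 0 := (smul_eq_zero.mp e2).resolve_left Complex.I_ne_zero
  have e4 : R = 0 := by
    have h5 : R + R = 0 := by
      calc R + R = (R + Rᴴ) + (R - Rᴴ) := by abel
        _ = 0 := by rw [e1, e3, add_zero]
    have h6 : (2 : ℂ) • R = 0 := by rw [two_smul]; exact h5
    exact (smul_eq_zero.mp h6).resolve_left two_ne_zero
  have h7 : M = ∑ μ, (b μ * M).trace • b μ := by
    rw [hR] at e4
    exact sub_eq_zero.mp e4
  have h8 := congrArg (fun N : Matrix A A ℂ => N i j) h7
  simp only [Matrix.sum_apply, Matrix.smul_apply, smul_eq_mul] at h8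
  exact h8.symm

end Lim

end Vale.Agent.P372
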