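import Vale.Agent.P372.Lim.Defs
import Vale.Agent.P372.Lim.Proj
import Vale.Agent.P372.Lim.Span
import Vale.Agent.P372.Lim.Count

open Matrix Kronecker
open scoped ComplexOrder MatrixOrder

set_option linter.unusedSectionVars false

namespace Vale.Agent.P372

namespace Lim

theorem wernerState_eq (d : ℕ) (t : ℝ) : wernerState d t = Near.werner d t := by
  ext p q
  rw [wernerState, Near.werner, Matrix.smul_apply, Matrix.sub_apply, Matrix.smul_apply, Near.flip,
    one_apply, smul_eq_mul, smul_eq_mul, div_eq_inv_mul]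
  push_cast
  rfl

theorem tpow_eq {A B : Type} (n : ℕ) (ρ : Matrix (A × B) (A × B) ℂ) :
    tpow n ρ = Half.tf (fun _ : Fin n => ρ) := by
  ext p q
  rfl

section slices

variable {A : Type} [Fintype A] [DecidableEq A] {n : ℕ}

theorem slc_star (k : Fin n) {P : Matrix (Fin n → A) (Fin n → A) ℂ} (hP : Pᴴ = P)
    (x x' : {j // j ≠ k} → A) : (slc k P x x')ᴴ = slc k P x' x := by
  ext a a'
  have h := congrArg (fun N : Matrix (Fin n → A) (Fin n → A) ℂ =>
    N ((Equiv.funSplitAt k A).symm (a, x')) ((Equiv.funSplitAt k A).symm (a', x))) hP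
  exact h

theorem slc_eq_sum {Y : Type} [Fintype Y] (k : Fin n) {B : Y → Matrix A A ℂ}
    {P : Matrix (Fin n → A) (Fin n → A) ℂ} (h : ExpandsIn k B P) (x x' : {j // j ≠ k} → A) :
    ∃ c : Y → ℂ, slc k P x x' = ∑ y, c y • B y := by
  obtain ⟨M, hM⟩ := h
  refine ⟨fun y => M y x x', ?_⟩
  have h1 : slc k P x x' = ∑ y, M y x x' • B y := by
    ext a a'
    rw [slc, hM, Matrix.sum_apply]
    refine Finset.sum_congr rfl fun y _ => ?_
    rw [split_at, split_at, Matrix.smul_apply, smul_eq_mul, mul_comm]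
    have h2 : ∀ (a : A) (x : {j // j ≠ k} → A),
        (fun j : {j // j ≠ k} => (Equiv.funSplitAt k A).symm (a, x) j) = x := fun a x =>
      funext fun j => split_ne k a x j
    rw [h2, h2]
  exact h1

theorem slc_mem_span {Y : Type} [Fintype Y] (k : Fin n) {B : Y → Matrix A A ℂ}
    {P : Matrix (Fin n → A) (Fin n → A) ℂ} (h : ExpandsIn k B P) (x x' : {j // j ≠ k} → A) :
    slc k P x x' ∈ Submodule.span ℂ (Set.range B) := by
  obtain ⟨c, h1⟩ := slc_eq_sum k h x x'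
  rw [h1]
  exact Submodule.sum_mem _ fun y _ => Submodule.smul_mem _ _ (Submodule.subset_span ⟨y, rfl⟩)

theorem slc_comm (k : Fin n) {S : Matrix A A ℂ} {P : Matrix (Fin n → A) (Fin n → A) ℂ}
    (h : onCopy k S * P = P * onCopy k S) (x x' : {j // j ≠ k} → A) :
    slc k P x x' * S = S * slc k P x x' := by
  have hsum : ∀ F : (Fin n → A) → ℂ, ∑ r, F r =
      ∑ z : {j // j ≠ k} → A, ∑ a, F ((Equiv.funSplitAt k A).symm (a, z)) := by
    intro F
    rw [← (Equiv.funSplitAt k A).symm.sum_comp, Fintype.sum_prod_type, Finset.sum_comm]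
  have hon : ∀ (a a' : A) (z z' : {j // j ≠ k} → A),
      onCopy k S ((Equiv.funSplitAt k A).symm (a, z)) ((Equiv.funSplitAt k A).symm (a', z')) =
        if z = z' then S a a' else 0 := by
    intro a a' z z'
    rw [onCopy, split_at, split_at]
    by_cases hz : z = z'
    · subst hz
      rw [if_pos rfl, if_pos, mul_one]
      intro j hj
      exact (split_ne k a z ⟨j, hj⟩).trans (split_ne k a' z ⟨j, hj⟩).symm
    · rw [if_neg hz, if_neg, mul_zero]
      intro hall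
      apply hz
      funext j
      have := hall j j.2
      rwa [split_ne, split_ne] at this
  ext a a'
  have h1 := congrArg (fun N : Matrix (Fin n → A) (Fin n → A) ℂ =>
    N ((Equiv.funSplitAt k A).symm (a, x)) ((Equiv.funSplitAt k A).symm (a', x'))) h
  simp only [mul_apply] at h1
  rw [hsum, hsum] at h1
  simp only [hon] at h1
  rw [Finset.sum_eq_single x, Finset.sum_eq_single x'] at h1
  · simp only [if_true] at h1
    rw [mul_apply, mul_apply]
    exact h1.symm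
  · intro z _ hz
    refine Finset.sum_eq_zero fun b _ => ?_
    rw [if_neg hz, mul_zero]
  · intro hx
    exact absurd (Finset.mem_univ _) hx
  · intro z _ hz
    refine Finset.sum_eq_zero fun b _ => ?_
    rw [if_neg (Ne.symm hz), zero_mul]
  · intro hx
    exact absurd (Finset.mem_univ _) hx

end slices

/-- the set of matrices whose slices have a local certificate -/
theorem limited_cert {d D n : ℕ} {t : ℝ} (ht : 0 < t) (ht1 : t < 1)
    (hD : t * (1 + (1 + √2) * √D) < 1) (k : Fin n)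
    {P P' : Matrix (Fin n → Fin d) (Fin n → Fin d) ℂ} (hP : Pᴴ = P) (hP' : P'ᴴ = P')
    (h : LowRank D k P P' ∨ (d * t ≤ 1 + (d - 2) * t ^ 2 ∧ BlockDiag k P P')) :
    ∃ S : Set (Matrix (Fin d) (Fin d) ℂ), LocalCert (1 - (t : ℂ) • Near.flip d) S ∧
      (∀ x x', slc k P x x' ∈ S) ∧ ∀ x x', slc k P' x x' ∈ S := by
  rcases h with ⟨B, hB, hB'⟩ | ⟨hd, S, h1, h2, h3, h4, h5, h6⟩
  · obtain ⟨G, hG⟩ : ∃ G : Set (Matrix (Fin d) (Fin d) ℂ),
        G = {M | ∃ x x', M = slc k P x x' ∨ M = slc k P' x x'} := ⟨_, rfl⟩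
    have hGs : ∀ M ∈ G, Mᴴ ∈ G := by
      intro M hM
      rw [hG] at hM ⊢
      obtain ⟨x, x', hM | hM⟩ := hM
      · exact ⟨x', x, Or.inl (by rw [hM, slc_star k hP])⟩
      · exact ⟨x', x, Or.inr (by rw [hM, slc_star k hP'])⟩
    have hGB : ∀ M ∈ G, M ∈ Submodule.span ℂ (Set.range B) := by
      intro M hM
      rw [hG] at hM
      obtain ⟨x, x', hM | hM⟩ := hM
      · rw [hM]; exact slc_mem_span k hB x x'
      · rw [hM]; exact slc_mem_span k hB' x x'
    obtain ⟨r, b, hr, hb, ho, hbG⟩ := exists_herm_basis B G hGs hGB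
    refine ⟨_, low_cert b hb ho hr ht hD, fun x x' => ?_, fun x x' => ?_⟩
    · exact hbG _ (by rw [hG]; exact ⟨x, x', Or.inl rfl⟩)
    · exact hbG _ (by rw [hG]; exact ⟨x, x', Or.inr rfl⟩)
  · exact ⟨_, proj_cert h1 h2 h3 h4 ht ht1 hd, fun x x' => slc_comm k h5 x x',
      fun x x' => slc_comm k h6 x x'⟩

/-- The test for limited operators. -/
theorem limited_test {d D n N : ℕ} {t : ℝ} (h1 : 1 < d * t)
    (h2 : t * (1 + (1 + √2) * √D) < 1) (X₀ X₁ Y₀ Y₁ : Matrix (Fin n → Fin d) (Fin n → Fin d) ℂ)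
    (C : Finset (Fin n)) (hC : C.card ≤ N)
    (h : ∀ k ∉ C,
      (LowRank D k (X₀ᴴ * X₀) (X₁ᴴ * X₁) ∨
        (d * t ≤ 1 + (d - 2) * t ^ 2 ∧ BlockDiag k (X₀ᴴ * X₀) (X₁ᴴ * X₁))) ∨
      (LowRank D k (Y₀ᴴ * Y₀) (Y₁ᴴ * Y₁) ∨
        (d * t ≤ 1 + (d - 2) * t ^ 2 ∧ BlockDiag k (Y₀ᴴ * Y₀) (Y₁ᴴ * Y₁)))) :
    traceNorm ((X₀ ⊗ₖ Y₀) * tpow n (Near.werner d t) * (X₁ ⊗ₖ Y₁)ᴴ) ^ 2 ≤
      (((1 + t) / (1 - t)) ^ N) ^ 2 *
        (weight (tpow n (Near.werner d t)) X₀ Y₁ * weight (tpow n (Near.werner d t)) X₁ Y₀) := by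
  have ht : 0 < t := by
    by_contra hcon
    push Not at hcon
    have h3 : (d : ℝ) * t ≤ 0 := mul_nonpos_of_nonneg_of_nonpos (Nat.cast_nonneg d) hcon
    linarith
  have ht1 : t < 1 := by
    have h3 : 0 ≤ t * ((1 + √2) * √(D : ℝ)) := by positivity
    nlinarith
  have hd1 : (1 : ℝ) < d := by nlinarith
  have hD0 : 0 < (d : ℝ) ^ 2 - t * d := by nlinarith
  obtain ⟨q, hq⟩ : ∃ q : ℝ, q = ((d : ℝ) ^ 2 - t * d)⁻¹ := ⟨_, rfl⟩
  have hq0 : 0 < q := hq ▸ inv_pos.mpr hD0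
  have hρ : Near.werner d t = (q : ℂ) • (1 - (t : ℂ) • Near.flip d) := by rw [Near.werner, hq]
  obtain ⟨lo, hlo⟩ : ∃ lo : Fin n → ℝ, lo = fun k => if k ∈ C then (1 - t) * q else 1 := ⟨_, rfl⟩
  obtain ⟨hi, hhi⟩ : ∃ hi : Fin n → ℝ, hi = fun k => if k ∈ C then (1 + t) * q else 1 := ⟨_, rfl⟩
  have hlo0 : ∀ k, 0 < lo k := fun k => by
    rw [hlo]
    dsimp only
    split_ifs
    · exact mul_pos (by linarith) hq0
    · exact zero_lt_one
  have hhi0 : ∀ k, 0 < hi k := fun k => by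
    rw [hhi]
    dsimp only
    split_ifs
    · exact mul_pos (by linarith) hq0
    · exact zero_lt_one
  have hself : ∀ X : Matrix (Fin n → Fin d) (Fin n → Fin d) ℂ, (Xᴴ * X)ᴴ = Xᴴ * X := fun X => by
    rw [conjTranspose_mul, conjTranspose_conjTranspose]
  have hcert : ∀ k, Cert (Near.werner d t) k X₀ X₁ Y₀ Y₁ (lo k) (hi k) := by
    intro k
    by_cases hk : k ∈ C
    · have e1 : lo k = (1 - t) * q := by rw [hlo]; exact if_pos hk
      have e2 : hi k = (1 + t) * q := by rw [hhi]; exact if_pos hk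
      rw [e1, e2, hq]
      exact cert_coherent k X₀ X₁ Y₀ Y₁ (mul_nonneg (by linarith) (inv_nonneg.mpr hD0.le))
        (Near.werner_low ht.le hD0) (Near.werner_high ht.le hD0)
    · have e1 : lo k = 1 := by rw [hlo]; exact if_neg hk
      have e2 : hi k = 1 := by rw [hhi]; exact if_neg hk
      rw [e1, e2, hρ]
      rcases h k hk with hk | hk
      · obtain ⟨S, hS, hS0, hS1⟩ := limited_cert ht ht1 h2 k (hself X₀) (hself X₁) hk
        exact cert_left (hS.smul hq0.le) k X₀ X₁ Y₀ Y₁ hS0 hS1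
      · obtain ⟨S, hS, hS0, hS1⟩ := limited_cert ht ht1 h2 k (hself Y₀) (hself Y₁) hk
        exact cert_right (hS.smul hq0.le) k X₀ X₁ Y₀ Y₁ hS0 hS1
  have hcore := core (fun _ : Fin n => Near.werner d t) X₀ X₁ Y₀ Y₁ lo hi hlo0 hhi0 hcert
  rw [← tpow_eq] at hcore
  refine hcore.trans ?_
  have hρp := Near.werner_posSemidef ht.le ht1.le hD0
  have hTp : (tpow n (Near.werner d t)).PosSemidef := by
    rw [tpow_eq]
    exact tf_posSemidef fun _ => hρp
  refine mul_le_mul_of_nonneg_right ?_ (mul_nonneg (Near.weight_nonneg hTp _ _)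
    (Near.weight_nonneg hTp _ _))
  have hratio : (∏ k, hi k) / ∏ k, lo k = ((1 + t) / (1 - t)) ^ C.card := by
    rw [← Finset.prod_div_distrib]
    have h5 : ∀ k, hi k / lo k = if k ∈ C then (1 + t) / (1 - t) else 1 := by
      intro k
      rw [hlo, hhi]
      dsimp only
      split_ifs
      · rw [mul_div_mul_right _ _ hq0.ne']
      · exact div_one 1
    simp only [h5]
    rw [Finset.prod_ite_mem, Finset.univ_inter, Finset.prod_const]
  rw [hratio]
  have h6 : 1 ≤ (1 + t) / (1 - t) := by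
    rw [le_div_iff₀ (by linarith)]
    linarith
  exact pow_le_pow_left₀ (by positivity) (pow_le_pow_right₀ h6 hC) 2

theorem limited_copies (d D : ℕ) (t : ℝ) (h1 : 1 < d * t)
    (h2 : t * (1 + (1 + √2) * √D) < 1) :
    (wernerState d t).PosDef ∧ (wernerState d t).trace = 1 ∧ ¬ IsSep (wernerState d t) ∧
    ∀ (E : Type) [Fintype E] [DecidableEq E] (Ψ : Matrix (Fin d × Fin d) E ℂ),
      Ψ * Ψᴴ = wernerState d t → ∀ (n N ℓ : ℕ) (T : Type) [Fintype T]
        (f g : T → (Fin ℓ → Bool) → Matrix (Fin n → Fin d) (Fin n → Fin d) ℂ) (ε : ℝ),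
        LOCC (Fin ℓ → Bool) (Fin n → Fin d) (Fin n → Fin d) T f g →
        (∀ τ, ∀ a b, a ≠ b → ∃ C : Finset (Fin n), C.card ≤ N ∧ ∀ k ∉ C,
          (LowRank D k (f τ a) (f τ b) ∨ LowRank D k (g τ a) (g τ b)) ∨
          d * t ≤ 1 + (d - 2) * t ^ 2 ∧ (BlockDiag k (f τ a) (f τ b) ∨
            BlockDiag k (g τ a) (g τ b))) →
        KeyError f g (copies n Ψ) ε → (2 ^ ℓ - 1) * (1 - ε) ≤ ((1 + t) / (1 - t)) ^ N * ε := by
  have ht : 0 < t := by
    by_contra hcon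
    push Not at hcon
    have h3 : (d : ℝ) * t ≤ 0 := mul_nonpos_of_nonneg_of_nonpos (Nat.cast_nonneg d) hcon
    linarith
  have ht1 : t < 1 := by
    have h3 : 0 ≤ t * ((1 + √2) * √(D : ℝ)) := by positivity
    nlinarith
  have hd1 : (1 : ℝ) < d := by nlinarith
  have hD0 : 0 < (d : ℝ) ^ 2 - t * d := by nlinarith
  rw [wernerState_eq]
  have hq0 : 0 < ((d : ℝ) ^ 2 - t * d)⁻¹ := inv_pos.mpr hD0
  refine ⟨?_, Near.werner_trace hD0, Near.werner_not_sep hD0 (by nlinarith), ?_⟩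
  · have h3 := Near.werner_low ht.le hD0
    have h4 : ((((1 - t) * ((d : ℝ) ^ 2 - t * d)⁻¹ : ℝ) : ℂ) •
        (1 : Matrix (Fin d × Fin d) (Fin d × Fin d) ℂ)).PosDef :=
      PosDef.one.smul (by exact_mod_cast mul_pos (sub_pos.mpr ht1) hq0)
    have h5 := h4.add_posSemidef h3
    rwa [add_sub_cancel] at h5
  · intro E _ _ Ψ hΨ n N ℓ T _ f g ε hL hlim herr
    have hΨ1 : copies n Ψ * (copies n Ψ)ᴴ = tpow n (Near.werner d t) := by
      rw [copies_mul, hΨ]
    have htr : (copies n Ψ * (copies n Ψ)ᴴ).trace = 1 := by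
      rw [copies_mul, hΨ, tpow_eq, Half.tf]
      have h3 := Equiv.sum_comp (Half.colI (A := Fin d) (B := Fin d) (Fin n))
        fun x => (piT fun _ : Fin n => Near.werner d t) x x
      refine h3.trans ?_
      have h4 := piT_trace (fun _ : Fin n => Near.werner d t)
      rw [Near.werner_trace hD0, Finset.prod_const_one] at h4
      exact h4
    have hκ : 0 ≤ ((1 + t) / (1 - t)) ^ N :=
      pow_nonneg (div_nonneg (by linarith) (by linarith)) N
    refine key_bound (copies n Ψ) htr f g hL hκ herr ?_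
    intro τ a b hab X₀ X₁ Y₀ Y₁ hX₀ hX₁ hY₀ hY₁
    obtain ⟨C, hC, hCl⟩ := hlim τ a b hab
    rw [hΨ1]
    refine limited_test h1 h2 X₀ X₁ Y₀ Y₁ C hC fun k hk => ?_
    rw [hX₀, hX₁, hY₀, hY₁]
    rcases hCl k hk with (h | h) | ⟨h, h' | h'⟩
    · exact Or.inl (Or.inl h)
    · exact Or.inr (Or.inl h)
    · exact Or.inl (Or.inr ⟨h, h'⟩)
    · exact Or.inr (Or.inr ⟨h, h'⟩)

end Lim

end Vale.Agent.P372
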