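import Vale.Agent.P372.Lim.Defs
import Vale.Agent.P372.Lim.Blocks
import Vale.Agent.P372.R2.helper492.LetterDefs

open Matrix Kronecker
open scoped ComplexOrder MatrixOrder

set_option linter.unusedSectionVars false

namespace Vale.Agent.P372

namespace Lim

/-- A vector of `ℂ^d ⊗ ℂ^k` has Schmidt rank at most `k`. -/
theorem rank_ineq {d k : ℕ} (a b : Fin d → Fin k → ℂ) :
    ‖∑ i, ∑ x, star (a i x) * b i x‖ ^ 2 ≤ k * ∑ i, ∑ j, ‖∑ x, star (a i x) * b j x‖ ^ 2 := by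
  obtain ⟨A, hA⟩ : ∃ A : Matrix (Fin d) (Fin k) ℂ, A = fun i x => star (a i x) := ⟨_, rfl⟩
  obtain ⟨B, hB⟩ : ∃ B : Matrix (Fin k) (Fin d) ℂ, B = fun x j => b j x := ⟨_, rfl⟩
  have hAB : ∀ i j, (A * B) i j = ∑ x, star (a i x) * b j x := fun i j => by
    rw [mul_apply, hA, hB]
  have e1 : ∑ i, ∑ x, star (a i x) * b i x = (A * B).trace := by
    simp only [trace, diag_apply, hAB]
  have e2 : ∑ i, ∑ j, ‖∑ x, star (a i x) * b j x‖ ^ 2 = hs (A * B) := by
    simp only [hs, hAB]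
  rw [e1, e2]
  have key : ∀ ε : ℝ, 0 < ε → ‖(A * B).trace‖ ^ 2 ≤ k * (hs (A * B) + ε * hs B) := by
    intro ε hε
    have hG : (Aᴴ * A + (ε : ℂ) • (1 : Matrix (Fin k) (Fin k) ℂ)).PosDef := by
      have h1 : ((ε : ℂ) • (1 : Matrix (Fin k) (Fin k) ℂ)).PosDef :=
        PosDef.one.smul (by exact_mod_cast hε)
      rw [add_comm]
      exact h1.add_posSemidef (posSemidef_conjTranspose_mul_self A)
    obtain ⟨K, hK⟩ := exists_eq_conjTranspose_mul_self hG.posSemidef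
    have hdet : IsUnit K.det := by
      rw [isUnit_iff_ne_zero]
      intro h0
      have h1 := hG.det_pos
      rw [hK, det_mul, h0, mul_zero] at h1
      exact lt_irrefl _ h1
    have hinv : K⁻¹ * K = 1 := nonsing_inv_mul K hdet
    have hinv' : K * K⁻¹ = 1 := mul_nonsing_inv K hdet
    have h1 : A * B = (A * K⁻¹) * (K * B) := by
      rw [Matrix.mul_assoc, ← Matrix.mul_assoc K⁻¹, hinv, Matrix.one_mul]
    have h2 : hs (K * B) = hs (A * B) + ε * hs B := by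
      rw [hs_eq_re, hs_eq_re, hs_eq_re, conjTranspose_mul, Matrix.mul_assoc, ← Matrix.mul_assoc Kᴴ,
        ← hK, Matrix.add_mul, Matrix.mul_add, trace_add, Complex.add_re, Matrix.smul_mul,
        Matrix.one_mul, Matrix.mul_smul, trace_smul, smul_eq_mul, Complex.re_ofReal_mul,
        conjTranspose_mul]
      simp only [Matrix.mul_assoc]
    have h3 : hs (A * K⁻¹) ≤ k := by
      have h4 : Aᴴ * A = Kᴴ * K - (ε : ℂ) • 1 := by rw [← hK, add_sub_cancel_right]
      have h5 : (A * K⁻¹)ᴴ * (A * K⁻¹) = 1 - (ε : ℂ) • ((K⁻¹)ᴴ * K⁻¹) := by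
        rw [conjTranspose_mul, Matrix.mul_assoc, ← Matrix.mul_assoc Aᴴ, h4, Matrix.sub_mul,
          Matrix.mul_sub, Matrix.mul_assoc, hinv', Matrix.mul_one, ← conjTranspose_mul, hinv',
          conjTranspose_one, Matrix.smul_mul, Matrix.one_mul, Matrix.mul_smul]
      rw [hs_eq_re, h5, trace_sub, trace_one, Fintype.card_fin, trace_smul, smul_eq_mul,
        Complex.sub_re, Complex.re_ofReal_mul, ← hs_eq_re, Complex.natCast_re]
      have := mul_nonneg hε.le (hs_nonneg K⁻¹)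
      linarith
    have h6 := norm_trace_mul_le_hs (A * K⁻¹) (K * B)
    rw [← h1] at h6
    have h7 : (√(hs (A * K⁻¹)) * √(hs (K * B))) ^ 2 = hs (A * K⁻¹) * hs (K * B) := by
      rw [mul_pow, Real.sq_sqrt (hs_nonneg _), Real.sq_sqrt (hs_nonneg _)]
    calc _ ≤ (√(hs (A * K⁻¹)) * √(hs (K * B))) ^ 2 := pow_le_pow_left₀ (norm_nonneg _) h6 2
      _ = hs (A * K⁻¹) * hs (K * B) := h7
      _ ≤ k * hs (K * B) := mul_le_mul_of_nonneg_right h3 (hs_nonneg _)
      _ = _ := by rw [h2]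
  by_contra hcon
  push Not at hcon
  have hb := hs_nonneg B
  have hpos : 0 < ‖(A * B).trace‖ ^ 2 - k * hs (A * B) := by linarith
  have hk0 : (0 : ℝ) ≤ k := Nat.cast_nonneg k
  have h1 := key ((‖(A * B).trace‖ ^ 2 - k * hs (A * B)) / (2 * (k * hs B + 1)))
    (div_pos hpos (by positivity))
  have h2 : (‖(A * B).trace‖ ^ 2 - k * hs (A * B)) / (2 * (k * hs B + 1)) * (k * hs B) ≤
      (‖(A * B).trace‖ ^ 2 - k * hs (A * B)) / 2 := by
    rw [div_mul_eq_mul_div, div_le_div_iff₀ (by positivity) (by norm_num)]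
    nlinarith [mul_nonneg hk0 hb]
  nlinarith

/-- reordering of the systems -/
def eqv (d k : ℕ) : (Fin d × Fin k) × (Fin d × Fin k) ≃ (Fin d × Fin d) × (Fin k × Fin k) :=
  Equiv.prodProdProdComm (Fin d) (Fin k) (Fin d) (Fin k)

/-- the state, not normalised -/
noncomputable def hyb (d k : ℕ) (s : ℝ) :
    Matrix ((Fin d × Fin d) × (Fin k × Fin k)) ((Fin d × Fin d) × (Fin k × Fin k)) ℂ :=
  1 - ((s / k : ℝ) : ℂ) • ((1 - Near.flip d) ⊗ₖ Near.flip k)

theorem pptState_eq (d k : ℕ) (s : ℝ) : pptState d k s =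
    (((d ^ 2 * k ^ 2 - s * (d ^ 2 - d))⁻¹ : ℝ) : ℂ) •
      (hyb d k s).submatrix (eqv d k) (eqv d k) := by
  ext p q
  rw [pptState, Matrix.smul_apply, submatrix_apply, hyb, Matrix.sub_apply, Matrix.smul_apply,
    kroneckerMap_apply, Matrix.sub_apply, one_apply, one_apply, Near.flip, Near.flip, smul_eq_mul,
    smul_eq_mul, div_eq_inv_mul]
  have h1 : (eqv d k p = eqv d k q) = (p = q) := by rw [(eqv d k).injective.eq_iff]
  simp only [h1]
  simp only [eqv, Equiv.prodProdProdComm_apply, Prod.mk.injEq]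
  push_cast
  rfl

theorem hyb_low {d k : ℕ} {s : ℝ} (hs : 0 ≤ s) :
    (hyb d k s - ((1 - 2 * s / k : ℝ) : ℂ) • 1).PosSemidef := by
  have h : hyb d k s - ((1 - 2 * s / k : ℝ) : ℂ) • 1 = ((s / k : ℝ) : ℂ) •
      ((1 + Near.flip d) ⊗ₖ 1 + (1 - Near.flip d) ⊗ₖ (1 - Near.flip k)) := by
    rw [hyb, ← one_kronecker_one]
    ext p q
    simp only [Matrix.sub_apply, Matrix.add_apply, Matrix.smul_apply, kroneckerMap_apply,
      smul_eq_mul]
    push_cast
    ring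
  rw [h]
  exact (((Near.one_add_flip d).kronecker PosSemidef.one).add
    ((Near.one_sub_flip d).kronecker (Near.one_sub_flip k))).smul
      (by exact_mod_cast div_nonneg hs (Nat.cast_nonneg k))

theorem hyb_high {d k : ℕ} {s : ℝ} (hs : 0 ≤ s) :
    (((1 + 2 * s / k : ℝ) : ℂ) • 1 - hyb d k s).PosSemidef := by
  have h : ((1 + 2 * s / k : ℝ) : ℂ) • 1 - hyb d k s = ((s / k : ℝ) : ℂ) •
      ((1 + Near.flip d) ⊗ₖ 1 + (1 - Near.flip d) ⊗ₖ (1 + Near.flip k)) := by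
    rw [hyb, ← one_kronecker_one]
    ext p q
    simp only [Matrix.sub_apply, Matrix.add_apply, Matrix.smul_apply, kroneckerMap_apply,
      smul_eq_mul]
    push_cast
    ring
  rw [h]
  exact (((Near.one_add_flip d).kronecker PosSemidef.one).add
    ((Near.one_sub_flip d).kronecker (Near.one_add_flip k))).smul
      (by exact_mod_cast div_nonneg hs (Nat.cast_nonneg k))

theorem hyb_trace {d k : ℕ} (hk : 0 < k) (s : ℝ) :
    (hyb d k s).trace = ((d ^ 2 * k ^ 2 - s * (d ^ 2 - d) : ℝ) : ℂ) := by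
  have hk' : (k : ℂ) ≠ 0 := by exact_mod_cast hk.ne'
  rw [hyb, trace_sub, trace_smul, trace_kronecker, trace_sub, Near.trace_flip, Near.trace_flip,
    trace_one, trace_one, smul_eq_mul]
  simp only [Fintype.card_prod, Fintype.card_fin]
  push_cast
  field_simp

theorem trace_submatrix_equiv' {X Y : Type} [Fintype X] [Fintype Y] (e : X ≃ Y)
    (M : Matrix Y Y ℂ) : (M.submatrix e e).trace = M.trace :=
  Equiv.sum_comp e fun y => M y y

/-- the maximally entangled vector -/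
def omega (d : ℕ) : Matrix (Fin d × Fin d) (Fin d × Fin d) ℂ :=
  fun p q => if p.1 = p.2 ∧ q.1 = q.2 then 1 else 0

theorem omega_herm (d : ℕ) : (omega d)ᴴ = omega d := by
  ext p q
  rw [conjTranspose_apply, omega, omega]
  by_cases h : p.1 = p.2 ∧ q.1 = q.2
  · rw [if_pos h, if_pos ⟨h.2, h.1⟩, star_one]
  · rw [if_neg h, if_neg (fun h' => h ⟨h'.2, h'.1⟩), star_zero]

theorem omega_sq (d : ℕ) : omega d * omega d = (d : ℂ) • omega d := by
  ext p q
  rw [mul_apply, Matrix.smul_apply, smul_eq_mul, Fintype.sum_prod_type]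
  have h1 : ∀ x y : Fin d, omega d p (x, y) * omega d (x, y) q =
      if x = y then omega d p q else 0 := by
    intro x y
    unfold omega
    by_cases hxy : x = y
    · by_cases hp : p.1 = p.2
      · by_cases hq : q.1 = q.2
        · simp [hxy, hp, hq]
        · simp [hxy, hp, hq]
      · simp [hp]
    · simp [hxy]
  simp only [h1, Finset.sum_ite_eq, Finset.mem_univ, ↓reduceIte, Finset.sum_const, Finset.card_univ,
    Fintype.card_fin, nsmul_eq_mul]

theorem omega_psd (d : ℕ) : (omega d).PosSemidef := by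
  rcases Nat.eq_zero_or_pos d with rfl | hd
  · have : omega 0 = 0 := by
      ext p q
      exact p.1.elim0
    rw [this]
    exact PosSemidef.zero
  · have h : omega d = ((1 / d : ℝ) : ℂ) • ((omega d)ᴴ * omega d) := by
      have hd' : (d : ℂ) ≠ 0 := by exact_mod_cast hd.ne'
      rw [omega_herm, omega_sq, smul_smul]
      push_cast
      rw [one_div, inv_mul_cancel₀ hd', one_smul]
    rw [h]
    exact (posSemidef_conjTranspose_mul_self _).smul
      (by exact_mod_cast one_div_nonneg.mpr (Nat.cast_nonneg d))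

theorem omega_le {d : ℕ} (hd : 0 < d) : (1 - ((1 / d : ℝ) : ℂ) • omega d).PosSemidef := by
  have hd' : (d : ℂ) ≠ 0 := by exact_mod_cast hd.ne'
  have hPh : (((1 / d : ℝ) : ℂ) • omega d)ᴴ = ((1 / d : ℝ) : ℂ) • omega d := by
    rw [conjTranspose_smul, omega_herm, Complex.star_def, Complex.conj_ofReal]
  have hP2 : (((1 / d : ℝ) : ℂ) • omega d) * (((1 / d : ℝ) : ℂ) • omega d) =
      ((1 / d : ℝ) : ℂ) • omega d := by
    rw [Matrix.smul_mul, Matrix.mul_smul, omega_sq, smul_smul, smul_smul]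
    push_cast
    rw [one_div, mul_assoc, inv_mul_cancel₀ hd', mul_one]
  generalize ((1 / d : ℝ) : ℂ) • omega d = P at hPh hP2
  have h : 1 - P = (1 - P)ᴴ * (1 - P) := by
    rw [conjTranspose_sub, conjTranspose_one, hPh, Matrix.sub_mul, Matrix.mul_sub, Matrix.mul_sub,
      hP2, Matrix.one_mul, Matrix.one_mul, Matrix.mul_one, sub_self, sub_zero]
  rw [h]
  exact posSemidef_conjTranspose_mul_self _

theorem pTrans_ppt (d k : ℕ) (s : ℝ) : pTrans (pptState d k s) =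
    (((d ^ 2 * k ^ 2 - s * (d ^ 2 - d))⁻¹ : ℝ) : ℂ) •
      (1 - ((s / k : ℝ) : ℂ) • ((1 - omega d) ⊗ₖ omega k)).submatrix (eqv d k) (eqv d k) := by
  ext ⟨⟨a, x⟩, b, y⟩ ⟨⟨a', x'⟩, b', y'⟩
  rw [pTrans, pptState, Matrix.smul_apply, submatrix_apply, Matrix.sub_apply, Matrix.smul_apply,
    kroneckerMap_apply, Matrix.sub_apply, one_apply, one_apply, omega, omega, smul_eq_mul,
    smul_eq_mul, div_eq_inv_mul]
  simp only [eqv, Equiv.prodProdProdComm_apply, Prod.mk.injEq]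
  have e1 : (((a = a' ∧ x = x') ∧ b' = b ∧ y' = y)) = ((a = a' ∧ b = b') ∧ x = x' ∧ y = y') := by
    rw [eq_iff_iff]
    constructor
    · rintro ⟨⟨rfl, rfl⟩, rfl, rfl⟩; exact ⟨⟨rfl, rfl⟩, rfl, rfl⟩
    · rintro ⟨⟨rfl, rfl⟩, rfl, rfl⟩; exact ⟨⟨rfl, rfl⟩, rfl, rfl⟩
  have e2 : (a = a' ∧ b' = b) = (a = a' ∧ b = b') := by
    rw [eq_comm (a := b')]
  have e3 : (a = b ∧ b' = a') = (a = b ∧ a' = b') := by
    rw [eq_comm (a := b')]
  have e4 : (x = y ∧ y' = x') = (x = y ∧ x' = y') := by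
    rw [eq_comm (a := y')]
  simp only [e1, e2, e3, e4]
  push_cast
  rfl

theorem ppt_posDef {d k : ℕ} {s : ℝ} (hk : 0 < k) (hs : 0 ≤ s) (hs1 : s < 1)
    (hq : 0 < (d : ℝ) ^ 2 * k ^ 2 - s * (d ^ 2 - d)) : (pTrans (pptState d k s)).PosDef := by
  rw [pTrans_ppt]
  have h : (1 - ((s / k : ℝ) : ℂ) • ((1 - omega d) ⊗ₖ omega k) :
      Matrix ((Fin d × Fin d) × (Fin k × Fin k)) ((Fin d × Fin d) × (Fin k × Fin k)) ℂ) =
      ((1 - s : ℝ) : ℂ) • 1 + (((s : ℝ) : ℂ) • ((1 : Matrix (Fin d × Fin d) (Fin d × Fin d) ℂ) ⊗ₖ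
        (1 - ((1 / k : ℝ) : ℂ) • omega k)) + ((s / k : ℝ) : ℂ) • (omega d ⊗ₖ omega k)) := by
    rw [← one_kronecker_one]
    ext p q
    simp only [Matrix.sub_apply, Matrix.add_apply, Matrix.smul_apply, kroneckerMap_apply,
      smul_eq_mul]
    push_cast
    ring
  have h1 : (1 - ((s / k : ℝ) : ℂ) • ((1 - omega d) ⊗ₖ omega k) :
      Matrix ((Fin d × Fin d) × (Fin k × Fin k)) ((Fin d × Fin d) × (Fin k × Fin k)) ℂ).PosDef := by
    rw [h]
    have h2 : ((1 - s : ℝ) : ℂ) • (1 : Matrix ((Fin d × Fin d) × (Fin k × Fin k)) _ ℂ) |>.PosDef :=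
      PosDef.one.smul (by exact_mod_cast sub_pos.mpr hs1)
    exact h2.add_posSemidef (((PosSemidef.one.kronecker (omega_le hk)).smul
      (by exact_mod_cast hs)).add (((omega_psd d).kronecker (omega_psd k)).smul
        (by exact_mod_cast div_nonneg hs (Nat.cast_nonneg k))))
  have h2 := PosDef.submatrix h1 (eqv d k).injective
  exact h2.smul (by exact_mod_cast inv_pos.mpr hq)

/-- the witness -/
noncomputable def wit (d k : ℕ) : Matrix ((Fin d × Fin k) × (Fin d × Fin k))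
    ((Fin d × Fin k) × (Fin d × Fin k)) ℂ :=
  ((((k : ℂ) • 1 - Near.flip d) ⊗ₖ Near.flip k)).submatrix (eqv d k) (eqv d k)

theorem wit_apply (d k : ℕ) (p q) : wit d k p q =
    (k : ℂ) * (if q = ((p.1.1, p.2.2), (p.2.1, p.1.2)) then 1 else 0) -
      (if q = (p.2, p.1) then 1 else 0) := by
  obtain ⟨⟨a, x⟩, b, y⟩ := p
  obtain ⟨⟨a', x'⟩, b', y'⟩ := q
  rw [wit, submatrix_apply, kroneckerMap_apply, Matrix.sub_apply, Matrix.smul_apply, one_apply,
    Near.flip, Near.flip, smul_eq_mul]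
  simp only [eqv, Equiv.prodProdProdComm_apply, Prod.mk.injEq]
  by_cases h1 : x = y' ∧ y = x'
  · obtain ⟨rfl, rfl⟩ := h1
    have e5 : (a = a' ∧ b = b') = (a' = a ∧ b' = b) := by
      rw [eq_comm (a := a), eq_comm (a := b)]
    have e6 : (a = b' ∧ b = a') = (a' = b ∧ b' = a) := by
      rw [eq_comm (a := a), eq_comm (a := b), and_comm]
    simp only [and_self, if_true, mul_one, and_true, e5, e6]
  · rw [if_neg h1, mul_zero, if_neg, if_neg, mul_zero, sub_zero]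
    · rintro ⟨⟨-, h2⟩, -, h3⟩
      exact h1 ⟨h3.symm, h2.symm⟩
    · rintro ⟨⟨-, h2⟩, -, h3⟩
      exact h1 ⟨h3.symm, h2.symm⟩

theorem wit_trace (d k : ℕ) (M : Matrix ((Fin d × Fin k) × (Fin d × Fin k))
    ((Fin d × Fin k) × (Fin d × Fin k)) ℂ) : (wit d k * M).trace =
    (k : ℂ) * (∑ p : (Fin d × Fin k) × (Fin d × Fin k), M ((p.1.1, p.2.2), (p.2.1, p.1.2)) p) -
      ∑ p : (Fin d × Fin k) × (Fin d × Fin k), M (p.2, p.1) p := by
  rw [trace, Finset.mul_sum, ← Finset.sum_sub_distrib]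
  refine Finset.sum_congr rfl fun p _ => ?_
  rw [diag_apply, mul_apply]
  simp only [wit_apply, sub_mul, mul_assoc, ite_mul, one_mul, zero_mul]
  rw [Finset.sum_sub_distrib, ← Finset.mul_sum, Finset.sum_ite_eq' Finset.univ,
    Finset.sum_ite_eq' Finset.univ]
  simp only [Finset.mem_univ, if_true]

/-- a rank one operator -/
def rk1 {A : Type} (a : A → ℂ) : Matrix A A ℂ := fun p q => star (a p) * a q

theorem rk1_kron {A B : Type} (a : A → ℂ) (b : B → ℂ) (p q : A × B) :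
    (rk1 a ⊗ₖ rk1 b) p q = star (a p.1) * a q.1 * (star (b p.2) * b q.2) := rfl

theorem wit_rank_one {d k : ℕ} (a b : Fin d × Fin k → ℂ) :
    0 ≤ (wit d k * (rk1 a ⊗ₖ rk1 b)).trace.re := by
  rw [wit_trace]
  have hsq : ∀ z : ℂ, ((‖z‖ ^ 2 : ℝ) : ℂ) = z * star z := fun z => by
    rw [Complex.star_def, Complex.mul_conj, Complex.normSq_eq_norm_sq]
  have e1 : ∑ p : (Fin d × Fin k) × (Fin d × Fin k),
      (rk1 a ⊗ₖ rk1 b) ((p.1.1, p.2.2), (p.2.1, p.1.2)) p =
      ((∑ i, ∑ j, ‖∑ x, star (a (i, x)) * b (j, x)‖ ^ 2 : ℝ) : ℂ) := by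
    rw [Complex.ofReal_sum]
    simp only [Complex.ofReal_sum, hsq]
    simp only [Fintype.sum_prod_type, rk1_kron]
    refine Finset.sum_congr rfl fun i _ => ?_
    rw [Finset.sum_comm]
    refine Finset.sum_congr rfl fun j _ => ?_
    rw [star_sum, Finset.sum_mul_sum, Finset.sum_comm]
    refine Finset.sum_congr rfl fun x _ => Finset.sum_congr rfl fun y _ => ?_
    rw [star_mul', star_star]
    ring
  have e2 : ∑ p : (Fin d × Fin k) × (Fin d × Fin k),
      (rk1 a ⊗ₖ rk1 b) (p.2, p.1) p =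
      ((‖∑ i, ∑ x, star (a (i, x)) * b (i, x)‖ ^ 2 : ℝ) : ℂ) := by
    rw [hsq, ← Fintype.sum_prod_type' fun i x => star (a (i, x)) * b (i, x), star_sum,
      Finset.sum_mul_sum, Fintype.sum_prod_type, Finset.sum_comm]
    refine Finset.sum_congr rfl fun p _ => Finset.sum_congr rfl fun q _ => ?_
    rw [rk1_kron, star_mul', star_star]
    ring
  rw [e1, e2]
  have h := rank_ineq (fun i x => a (i, x)) (fun i x => b (i, x))
  have h2 : (k : ℂ) * ((∑ i, ∑ j, ‖∑ x, star (a (i, x)) * b (j, x)‖ ^ 2 : ℝ) : ℂ) -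
      ((‖∑ i, ∑ x, star (a (i, x)) * b (i, x)‖ ^ 2 : ℝ) : ℂ) =
      ((k * (∑ i, ∑ j, ‖∑ x, star (a (i, x)) * b (j, x)‖ ^ 2) -
        ‖∑ i, ∑ x, star (a (i, x)) * b (i, x)‖ ^ 2 : ℝ) : ℂ) := by
    push_cast
    rfl
  rw [h2, Complex.ofReal_re]
  exact sub_nonneg.mpr h

theorem wit_prod {d k : ℕ} {M N : Matrix (Fin d × Fin k) (Fin d × Fin k) ℂ} (hM : M.PosSemidef)
    (hN : N.PosSemidef) : 0 ≤ (wit d k * (M ⊗ₖ N)).trace.re := by
  obtain ⟨C, rfl⟩ := exists_eq_conjTranspose_mul_self hM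
  obtain ⟨D, rfl⟩ := exists_eq_conjTranspose_mul_self hN
  have e : (Cᴴ * C) ⊗ₖ (Dᴴ * D) = ∑ r, ∑ t, (rk1 (C r) ⊗ₖ rk1 (D t)) := by
    ext p q
    simp only [Matrix.sum_apply, rk1_kron]
    rw [kroneckerMap_apply, mul_apply, mul_apply, Finset.sum_mul_sum]
    rfl
  rw [e, Finset.mul_sum, trace_sum, Complex.re_sum]
  refine Finset.sum_nonneg fun r _ => ?_
  rw [Finset.mul_sum, trace_sum, Complex.re_sum]
  exact Finset.sum_nonneg fun t _ => wit_rank_one (C r) (D t)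

theorem wit_sep {d k : ℕ} {ρ : Matrix ((Fin d × Fin k) × (Fin d × Fin k))
    ((Fin d × Fin k) × (Fin d × Fin k)) ℂ} (h : IsSep ρ) : 0 ≤ (wit d k * ρ).trace.re := by
  obtain ⟨n, M, N, hM, hN, rfl⟩ := h
  rw [Finset.mul_sum, trace_sum, Complex.re_sum]
  exact Finset.sum_nonneg fun i _ => wit_prod (hM i) (hN i)

theorem wit_ppt {d k : ℕ} (hk : 0 < k) (s : ℝ) : (wit d k * pptState d k s).trace =
    (((d ^ 2 * k ^ 2 - s * (d ^ 2 - d))⁻¹ * (k * d * (k * d - 1 - s * (k + 1) * (d - 1))) : ℝ) :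
      ℂ) := by
  have hk' : (k : ℂ) ≠ 0 := by exact_mod_cast hk.ne'
  have h1 : ((k : ℂ) • 1 - Near.flip d) * (1 - Near.flip d) =
      ((k : ℂ) + 1) • (1 - Near.flip d) := by
    rw [Matrix.sub_mul, Matrix.mul_sub, Matrix.mul_sub, Near.flip_sq, Matrix.mul_one,
      Matrix.mul_one, Matrix.smul_mul, Matrix.one_mul, smul_sub, add_smul, add_smul, one_smul,
      one_smul]
    abel
  rw [pptState_eq, wit, Matrix.mul_smul, trace_smul, submatrix_mul_equiv, trace_submatrix_equiv',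
    hyb, Matrix.mul_sub, Matrix.mul_one, Matrix.mul_smul, ← mul_kronecker_mul, h1, Near.flip_sq,
    trace_sub, trace_smul, trace_kronecker, trace_kronecker, trace_smul, trace_sub, trace_sub,
    trace_smul, Near.trace_flip, Near.trace_flip, trace_one, trace_one, smul_eq_mul, smul_eq_mul,
    smul_eq_mul, smul_eq_mul]
  simp only [Fintype.card_prod, Fintype.card_fin]
  push_cast
  congr 1
  field_simp

theorem ppt_not_sep {d k : ℕ} {s : ℝ} (hk : 0 < k) (hd : 0 < d)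
    (hq : 0 < (d : ℝ) ^ 2 * k ^ 2 - s * (d ^ 2 - d)) (h : (k : ℝ) * d - 1 < s * (k + 1) * (d - 1)) :
    ¬ IsSep (pptState d k s) := by
  intro hs
  have h1 := wit_sep hs
  rw [wit_ppt hk, Complex.ofReal_re] at h1
  have h2 : ((d : ℝ) ^ 2 * k ^ 2 - s * (d ^ 2 - d))⁻¹ *
      (k * d * (k * d - 1 - s * (k + 1) * (d - 1))) < 0 := by
    refine mul_neg_of_pos_of_neg (inv_pos.mpr hq) (mul_neg_of_pos_of_neg ?_ (by linarith))
    exact mul_pos (by exact_mod_cast hk) (by exact_mod_cast hd)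
  linarith

end Lim

end Vale.Agent.P372
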