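import Vale.Agent.P372.Bdl.B1

open Matrix Kronecker
open scoped ComplexOrder MatrixOrder

set_option linter.unusedSectionVars false

namespace Vale.Agent.P372

namespace Lim

variable {A B : Type} [Fintype A] [DecidableEq A] [Fintype B] [DecidableEq B]

/-- Positive weights for a nonnegative matrix with small Hilbert-Schmidt norm. -/
theorem exists_weights (n : A → A → ℝ) (hn : ∀ k l, 0 ≤ n k l) {lam : ℝ} (hl : 0 < lam)
    (h : ∑ k, ∑ l, n k l ^ 2 < lam ^ 2) :
    ∃ w : A → ℝ, (∀ k, 0 < w k) ∧ ∀ k, ∑ l, n k l * w l ≤ lam * w k := by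
  obtain ⟨v, hv0, hvs⟩ : ∃ v : ℕ → A → ℝ, (∀ k, v 0 k = 1) ∧
      ∀ j k, v (j + 1) k = (∑ l, n k l * v j l) / lam :=
    ⟨fun j => Nat.rec (fun _ => 1) (fun _ u k => (∑ l, n k l * u l) / lam) j, fun _ => rfl,
      fun _ _ => rfl⟩
  have hvnn : ∀ j k, 0 ≤ v j k := by
    intro j
    induction j with
    | zero => intro k; rw [hv0]; exact zero_le_one
    | succ j ih =>
      intro k
      rw [hvs]
      exact div_nonneg (Finset.sum_nonneg fun l _ => mul_nonneg (hn k l) (ih l)) hl.le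
  obtain ⟨r, hr⟩ : ∃ r : ℝ, r = (∑ k, ∑ l, n k l ^ 2) / lam ^ 2 := ⟨_, rfl⟩
  have hl2 : 0 < lam ^ 2 := by positivity
  have hr0 : 0 ≤ r := by
    rw [hr]
    exact div_nonneg (Finset.sum_nonneg fun k _ => Finset.sum_nonneg fun l _ => sq_nonneg _) hl2.le
  have hr1 : r < 1 := by
    rw [hr, div_lt_one hl2]
    exact h
  have hV : ∀ j, ∑ k, v j k ^ 2 ≤ r ^ j * Fintype.card A := by
    intro j
    induction j with
    | zero => simp [hv0]
    | succ j ih =>
      have h1 : ∀ k, v (j + 1) k ^ 2 ≤ (∑ l, n k l ^ 2) / lam ^ 2 * ∑ l, v j l ^ 2 := by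
        intro k
        rw [hvs, div_pow, div_mul_eq_mul_div]
        exact div_le_div_of_nonneg_right (Finset.sum_mul_sq_le_sq_mul_sq _ _ _) hl2.le
      calc ∑ k, v (j + 1) k ^ 2 ≤ ∑ k, (∑ l, n k l ^ 2) / lam ^ 2 * ∑ l, v j l ^ 2 :=
            Finset.sum_le_sum fun k _ => h1 k
        _ = r * ∑ l, v j l ^ 2 := by rw [← Finset.sum_mul, ← Finset.sum_div, hr]
        _ ≤ r * (r ^ j * Fintype.card A) := mul_le_mul_of_nonneg_left ih hr0
        _ = _ := by ring
  obtain ⟨J, hJ⟩ : ∃ J : ℕ, r ^ J * Fintype.card A ≤ 1 := by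
    obtain ⟨J, hJ⟩ := exists_pow_lt_of_lt_one (show (0 : ℝ) < 1 / (Fintype.card A + 1) by positivity)
      hr1
    refine ⟨J, ?_⟩
    have h1 : r ^ J * Fintype.card A ≤ 1 / (Fintype.card A + 1) * Fintype.card A :=
      mul_le_mul_of_nonneg_right hJ.le (by positivity)
    refine h1.trans ?_
    rw [one_div, inv_mul_le_iff₀ (by positivity)]
    linarith
  have hJ' : r ^ (J + 1) * Fintype.card A ≤ 1 := by
    refine le_trans ?_ hJ
    rw [pow_succ, mul_right_comm]
    exact mul_le_of_le_one_right (by positivity) hr1.le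
  have hvJ : ∀ k, v (J + 1) k ≤ 1 := by
    intro k
    have h1 : v (J + 1) k ^ 2 ≤ 1 := (Finset.single_le_sum
      (f := fun k => v (J + 1) k ^ 2) (fun i _ => sq_nonneg _) (Finset.mem_univ k)).trans
        ((hV _).trans hJ')
    nlinarith [hvnn (J + 1) k]
  refine ⟨fun k => ∑ j ∈ Finset.range (J + 1), v j k, fun k => ?_, fun k => ?_⟩
  · refine lt_of_lt_of_le (show (0 : ℝ) < v 0 k by rw [hv0]; exact zero_lt_one) ?_
    exact Finset.single_le_sum (f := fun j => v j k) (fun j _ => hvnn j k)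
      (Finset.mem_range.mpr (Nat.succ_pos J))
  · have h1 : ∑ l, n k l * ∑ j ∈ Finset.range (J + 1), v j l =
        lam * ∑ j ∈ Finset.range (J + 1), v (j + 1) k := by
      simp only [Finset.mul_sum]
      rw [Finset.sum_comm]
      refine Finset.sum_congr rfl fun j _ => ?_
      rw [hvs, mul_div_cancel₀ _ hl.ne']
    rw [h1]
    refine mul_le_mul_of_nonneg_left ?_ hl.le
    have h2 := Finset.sum_range_succ (fun j => v j k) (J + 1)
    have h3 := Finset.sum_range_succ' (fun j => v j k) (J + 1)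
    rw [h2, hv0] at h3
    linarith [hvJ k]

/-- separable operators, with an arbitrary finite index type -/
theorem isSep_of {κ : Type} [Fintype κ] (M : κ → Matrix A A ℂ) (N : κ → Matrix B B ℂ)
    (hM : ∀ k, (M k).PosSemidef) (hN : ∀ k, (N k).PosSemidef) : IsSep (∑ k, M k ⊗ₖ N k) := by
  refine ⟨Fintype.card κ, fun i => M ((Fintype.equivFin κ).symm i),
    fun i => N ((Fintype.equivFin κ).symm i), fun _ => hM _, fun _ => hN _, ?_⟩
  exact ((Fintype.equivFin κ).symm.sum_comp fun k => M k ⊗ₖ N k).symm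

theorem IsSep.add {R S : Matrix (A × B) (A × B) ℂ} (hR : IsSep R) (hS : IsSep S) :
    IsSep (R + S) := by
  obtain ⟨n, M, N, hM, hN, rfl⟩ := hR
  obtain ⟨n', M', N', hM', hN', rfl⟩ := hS
  have h := isSep_of (κ := Fin n ⊕ Fin n') (Sum.elim M M') (Sum.elim N N')
    (fun k => by cases k <;> simp [hM, hM']) (fun k => by cases k <;> simp [hN, hN'])
  rwa [Fintype.sum_sum_type] at h

theorem isSep_zero : IsSep (0 : Matrix (A × B) (A × B) ℂ) :=
  ⟨0, fun _ => 0, fun _ => 0, fun k => k.elim0, fun k => k.elim0, by simp⟩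

theorem IsSep.sum {κ : Type} (s : Finset κ) (R : κ → Matrix (A × B) (A × B) ℂ)
    (h : ∀ k, IsSep (R k)) : IsSep (∑ k ∈ s, R k) := by
  classical
  induction s using Finset.induction_on with
  | empty => rw [Finset.sum_empty]; exact isSep_zero
  | insert k s hk ih => rw [Finset.sum_insert hk]; exact IsSep.add (h k) ih

theorem isSep_kron {M : Matrix A A ℂ} {N : Matrix B B ℂ} (hM : M.PosSemidef)
    (hN : N.PosSemidef) : IsSep (M ⊗ₖ N) :=
  ⟨1, fun _ => M, fun _ => N, fun _ => hM, fun _ => hN, by simp⟩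

/-- a Hermitian matrix is bounded by its Hilbert-Schmidt norm -/
theorem hs_bound {M : Matrix A A ℂ} (hM : M.IsHermitian) {h : ℝ} (h0 : 0 ≤ h)
    (h1 : hs M ≤ h ^ 2) : ((h : ℂ) • 1 - M).PosSemidef := by
  refine PosSemidef.of_dotProduct_mulVec_nonneg ?_ fun x => ?_
  · rw [IsHermitian, conjTranspose_sub, conjTranspose_smul, conjTranspose_one, hM.eq,
      Complex.star_def, Complex.conj_ofReal]
  · have e1 : (star x ⬝ᵥ M *ᵥ x) = (vecMulVec x (star x) * M).trace := by
      rw [trace_mul_comm, Matrix.mul_vecMulVec, trace_vecMulVec, dotProduct_comm]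
    have e2 : hs (vecMulVec x (star x)) = (∑ i, ‖x i‖ ^ 2) ^ 2 := by
      rw [hs, sq, Finset.sum_mul_sum]
      refine Finset.sum_congr rfl fun i _ => Finset.sum_congr rfl fun j _ => ?_
      rw [vecMulVec_apply, norm_mul, Pi.star_apply, norm_star, mul_pow]
    have e3 : ‖star x ⬝ᵥ M *ᵥ x‖ ≤ (∑ i, ‖x i‖ ^ 2) * h := by
      rw [e1]
      refine (norm_trace_mul_le_hs _ _).trans ?_
      rw [e2, Real.sqrt_sq (Finset.sum_nonneg fun i _ => by positivity)]
      refine mul_le_mul_of_nonneg_left ?_ (Finset.sum_nonneg fun i _ => by positivity)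
      rw [Real.sqrt_le_left h0]
      exact h1
    have e4 : star x ⬝ᵥ x = ((∑ i, ‖x i‖ ^ 2 : ℝ) : ℂ) := by
      rw [dotProduct]
      push_cast
      refine Finset.sum_congr rfl fun i _ => ?_
      rw [Pi.star_apply, Complex.star_def, Complex.conj_mul']
    have e5 : (star x ⬝ᵥ M *ᵥ x).im = 0 := by
      have h3 : star (star x ⬝ᵥ M *ᵥ x) = star x ⬝ᵥ M *ᵥ x := by
        conv_lhs => rw [star_dotProduct, star_star, star_mulVec, hM.eq, ← dotProduct_mulVec]
      have h4 := congrArg Complex.im h3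
      rw [Complex.star_def, Complex.conj_im] at h4
      linarith
    have e6 : star x ⬝ᵥ ((h : ℂ) • (1 : Matrix A A ℂ) - M) *ᵥ x =
        (((∑ i, ‖x i‖ ^ 2) * h - (star x ⬝ᵥ M *ᵥ x).re : ℝ) : ℂ) := by
      rw [Matrix.sub_mulVec, dotProduct_sub, Matrix.smul_mulVec, one_mulVec, dotProduct_smul, e4]
      have h5 : (star x ⬝ᵥ M *ᵥ x) = (((star x ⬝ᵥ M *ᵥ x).re : ℝ) : ℂ) :=
        Complex.ext (by simp) (by simp [e5])
      rw [h5, Complex.ofReal_re, smul_eq_mul]
      push_cast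
      ring
    rw [e6]
    have h6 := (Complex.re_le_norm _).trans e3
    exact_mod_cast sub_nonneg.mpr h6

end Lim

end Vale.Agent.P372
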